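import Crest.Agent.R152.PrA

/-! # Row 152: anticoncentration for one row -/

set_option autoImplicit false
open Matrix Filter MeasureTheory
open Crest.FinProb Crest.ProbabilityR.SignMatrix Crest.Agent.Lib.BiasedCube

noncomputable section
namespace Crest.Agent.R152

private theorem prc_sg_inj {a b : Bool} (h : (sg a : ℝ) = sg b) : a = b := by
  have h' : sg a = sg b := by exact_mod_cast h
  revert h'
  cases a <;> cases b <;> simp [sg]

private theorem prc_coords {ι : Type} [Fintype ι] [DecidableEq ι] (W : Submodule ℝ (V ι))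
    (f : V ι) : ∃ J : Finset ι, J.card ≤ Module.finrank ℝ W ∧
      ∀ x y : ι → Bool, sv x - f ∈ W → sv y - f ∈ W → (∀ j ∈ J, x j = y j) → x = y := by
  let φ : ι → Module.Dual ℝ W := fun i => (EuclideanSpace.projₗ i).comp W.subtype
  obtain ⟨κ, a, ha, hsp, hli⟩ := exists_linearIndependent' ℝ φ
  have : Fintype κ := Fintype.ofInjective a ha
  refine ⟨Finset.univ.image a, ?_, ?_⟩
  · rw [Finset.card_image_of_injective _ ha, Finset.card_univ]
    have := hli.fintype_card_le_finrank
    rwa [Subspace.dual_finrank_eq] at this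
  · intro x y hx hy h
    have hw : sv x - sv y ∈ W := by
      have := W.sub_mem hx hy
      rwa [sub_sub_sub_cancel_right] at this
    have hφ : ∀ i, φ i ⟨_, hw⟩ = (sg (x i) : ℝ) - sg (y i) := fun i => by
      simp [φ, sv, zv, sz]
    have h0 : ∀ ψ ∈ Submodule.span ℝ (Set.range (φ ∘ a)), ψ ⟨_, hw⟩ = 0 := by
      intro ψ hψ
      induction hψ using Submodule.span_induction with
      | mem ψ hψ =>
        obtain ⟨k, rfl⟩ := hψ
        rw [Function.comp_apply, hφ, h (a k) (Finset.mem_image_of_mem _ (Finset.mem_univ _)),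
          sub_self]
      | zero => rfl
      | add ψ ψ' _ _ h1 h2 => rw [LinearMap.add_apply, h1, h2, add_zero]
      | smul c ψ _ h1 => rw [LinearMap.smul_apply, h1, smul_zero]
    funext i
    have := h0 (φ i) (by rw [hsp]; exact Submodule.subset_span ⟨i, rfl⟩)
    rw [hφ] at this
    exact prc_sg_inj (sub_eq_zero.1 this)

/-- Odlyzko's lemma, counting form. -/
theorem odlyzko_card {ι : Type} [Fintype ι] [DecidableEq ι] (W : Submodule ℝ (V ι)) (f : V ι)
    (T : Finset (ι → Bool)) (hT : ∀ x ∈ T, sv x - f ∈ W) :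
    T.card ≤ 2 ^ Module.finrank ℝ W := by
  obtain ⟨J, hJ, hinj⟩ := prc_coords W f
  calc T.card ≤ (Finset.univ : Finset (J → Bool)).card :=
        Finset.card_le_card_of_injOn (fun x j => x j.1) (fun _ _ => Finset.mem_coe.2 (Finset.mem_univ _))
          fun x hx y hy h => hinj x y (hT x hx) (hT y hy) fun j hj => congrFun h ⟨j, hj⟩
    _ = 2 ^ J.card := by simp
    _ ≤ _ := Nat.pow_le_pow_right (by norm_num) hJ

/-- Odlyzko's lemma, probabilistic form. -/
theorem odlyzko {ι : Type} [Fintype ι] [DecidableEq ι] {p : ℝ} (h0 : 0 ≤ p) (h1 : p ≤ 1)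
    (W : Submodule ℝ (V ι)) (f : V ι) :
    bernoulliProb p {x : ι → Bool | sv x - f ∈ W} ≤
      mx p ^ (Fintype.card ι - Module.finrank ℝ W) := by
  obtain ⟨J, hJ, hinj⟩ := prc_coords W f
  refine (P_determined h0 h1 Jᶜ (A := {x : ι → Bool | sv x - f ∈ W})
    fun x hx y hy h => hinj x y hx hy fun j hj => h j (by simpa using hj)).trans ?_
  refine pow_le_pow_of_le_one (mx_pos p).le (max_le h1 (by linarith)) ?_
  rw [Finset.card_compl]
  omega

/-- Two coordinates whose flips leave the event. -/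
private theorem prc_two {ι : Type} [Fintype ι] [DecidableEq ι] {p : ℝ} (h0 : 0 ≤ p) (h1 : p ≤ 1)
    {a b : ι} (hab : a ≠ b) (A : Set (ι → Bool))
    (ha : ∀ x, Function.update x a true ∈ A → Function.update x a false ∈ A → False)
    (hb : ∀ x, Function.update x b true ∈ A → Function.update x b false ∈ A → False) :
    bernoulliProb p A ≤ rr p := by
  classical
  rw [bernoulliProb_eq_Ex, Ex_split p a, Ex_split p b, ← Ex_const (ι := ι) p (rr p)]
  refine Ex_mono h0 h1 fun x => ?_
  have a1 := ha (Function.update x b true)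
  have a2 := ha (Function.update x b false)
  have b1 := hb (Function.update x a true)
  have b2 := hb (Function.update x a false)
  rw [Function.update_comm hab, Function.update_comm hab] at b1 b2
  have hq : 0 ≤ 1 - p := by linarith
  have hpq : 0 ≤ p * (1 - p) := mul_nonneg h0 hq
  have hs := sq_nonneg (p - (1 - p))
  unfold rr
  by_cases c1 : Function.update (Function.update x b true) a true ∈ A <;>
  by_cases c2 : Function.update (Function.update x b true) a false ∈ A <;>
  by_cases c3 : Function.update (Function.update x b false) a true ∈ A <;>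
  by_cases c4 : Function.update (Function.update x b false) a false ∈ A <;>
  first
    | exact (a1 c1 c2).elim
    | exact (a2 c3 c4).elim
    | exact (b1 c1 c3).elim
    | exact (b2 c2 c4).elim
    | (simp only [c1, c2, c3, c4, if_true, if_false]; nlinarith)

private theorem prc_empty {ι : Type} [Fintype ι] [DecidableEq ι] {p : ℝ} {A : Set (ι → Bool)}
    (h : ∀ x ∈ A, False) : bernoulliProb p A ≤ rr p := by
  rw [Set.eq_empty_of_forall_notMem h, P_empty]
  exact (rr_pos p).le

private theorem prc_flip {ι R : Type} [DecidableEq ι] [CommRing R] (S : Finset ι) {b : ι}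
    (hb : b ∈ S) (u : ι → R) (x : ι → Bool) :
    ∑ k ∈ S, (sg (Function.update x b true k) : R) * u k -
      ∑ k ∈ S, (sg (Function.update x b false k) : R) * u k = 2 * u b := by
  rw [← Finset.sum_sub_distrib, Finset.sum_eq_single b]
  · simp only [Function.update_self, sg]
    push_cast
    ring
  · intro k _ hk
    rw [Function.update_of_ne hk, Function.update_of_ne hk, sub_self]
  · intro h
    exact (h hb).elim

theorem two_point_real {n : ℕ} {p : ℝ} (h0 : 0 ≤ p) (h1 : p ≤ 1) (u : Fin n → ℝ)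
    (hu : ∑ k, u k ^ 2 = 1) {ζ : ℝ} (hζ : ζ * (((n : ℝ) + 1) * Real.sqrt n) < 1) :
    bernoulliProb p {x : Fin n → Bool | |∑ k, (sg (x k) : ℝ) * u k| ≤ ζ} ≤ rr p := by
  have hn : 0 < n := by
    rcases Nat.eq_zero_or_pos n with h | h
    · subst h; simp at hu
    · exact h
  have : Nonempty (Fin n) := ⟨⟨0, hn⟩⟩
  obtain ⟨a, ha⟩ := Finite.exists_max fun k => |u k|
  have hflip : ∀ b, ζ < |u b| → ∀ x : Fin n → Bool,
      |∑ k, (sg (Function.update x b true k) : ℝ) * u k| ≤ ζ →
      |∑ k, (sg (Function.update x b false k) : ℝ) * u k| ≤ ζ → False := by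
    intro b hb x h1 h2
    have := prc_flip (R := ℝ) Finset.univ (Finset.mem_univ b) u x
    have h3 : |2 * u b| ≤ ζ + ζ := by
      rw [← this]
      exact (abs_sub _ _).trans (add_le_add h1 h2)
    rw [abs_mul, abs_two] at h3
    linarith
  by_cases hb : ∃ b, b ≠ a ∧ ζ < |u b|
  · obtain ⟨b, hba, hb⟩ := hb
    exact prc_two h0 h1 hba _ (hflip b hb) (hflip a (hb.trans_le (ha b)))
  · push Not at hb
    refine prc_empty fun x hx => ?_
    have hx' : |∑ k, (sg (x k) : ℝ) * u k| ≤ ζ := hx
    have hζ0 : 0 ≤ ζ := (abs_nonneg _).trans hx'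
    have hn' : (0 : ℝ) < n := by exact_mod_cast hn
    have h2 : 1 ≤ n * u a ^ 2 := by
      rw [← hu]
      calc ∑ k, u k ^ 2 ≤ ∑ _k : Fin n, u a ^ 2 :=
            Finset.sum_le_sum fun k _ => sq_le_sq.2 (ha k)
        _ = _ := by simp
    have h3 : 1 ≤ Real.sqrt n * |u a| := by
      rw [← Real.sqrt_sq_eq_abs, ← Real.sqrt_mul hn'.le]
      exact Real.one_le_sqrt.2 h2
    have habs : ∀ k, |(sg (x k) : ℝ) * u k| = |u k| := fun k => by
      rw [abs_mul]
      cases x k <;> simp [sg]
    have h4 : |∑ k ∈ Finset.univ.erase a, (sg (x k) : ℝ) * u k| ≤ n * ζ := by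
      refine (Finset.abs_sum_le_sum_abs _ _).trans ?_
      calc ∑ k ∈ Finset.univ.erase a, |(sg (x k) : ℝ) * u k| ≤ ∑ _k ∈ Finset.univ.erase a, ζ :=
            Finset.sum_le_sum fun k hk => by
              rw [habs]; exact hb k (Finset.ne_of_mem_erase hk)
        _ ≤ ∑ _k : Fin n, ζ :=
            Finset.sum_le_sum_of_subset_of_nonneg (Finset.erase_subset _ _) fun _ _ _ => hζ0
        _ = _ := by simp
    have h5 : |u a| ≤ ζ + n * ζ := by
      rw [← habs a, ← Finset.add_sum_erase _ _ (Finset.mem_univ a)] at *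
      have e : (sg (x a) : ℝ) * u a = ((sg (x a) : ℝ) * u a +
        ∑ k ∈ Finset.univ.erase a, (sg (x k) : ℝ) * u k) -
        ∑ k ∈ Finset.univ.erase a, (sg (x k) : ℝ) * u k := by ring
      rw [e]
      exact (abs_sub _ _).trans (add_le_add hx' h4)
    have h6 : 0 ≤ Real.sqrt n := Real.sqrt_nonneg _
    have h7 := mul_le_mul_of_nonneg_left h5 h6
    nlinarith

theorem two_point_mod {n : ℕ} {p : ℝ} (h0 : 0 ≤ p) (h1 : p ≤ 1) {l : ℕ} (hl : l.Prime)
    (hl2 : l ≠ 2) (u : Fin n → ZMod l) (hu : u ≠ 0) :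
    bernoulliProb p {x : Fin n → Bool | ∑ k, (sg (x k) : ZMod l) * u k = 0} ≤ rr p := by
  have : Fact l.Prime := ⟨hl⟩
  have h2 : (2 : ZMod l) ≠ 0 := by
    intro h
    have : l ∣ 2 := (ZMod.natCast_eq_zero_iff 2 l).1 (by exact_mod_cast h)
    exact hl2 ((Nat.prime_dvd_prime_iff_eq hl Nat.prime_two).1 this)
  have hflip : ∀ b, u b ≠ 0 → ∀ x : Fin n → Bool,
      ∑ k, (sg (Function.update x b true k) : ZMod l) * u k = 0 →
      ∑ k, (sg (Function.update x b false k) : ZMod l) * u k = 0 → False := by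
    intro b hb x h1 h3
    have := prc_flip (R := ZMod l) Finset.univ (Finset.mem_univ b) u x
    rw [h1, h3, sub_self] at this
    exact mul_ne_zero h2 hb this.symm
  obtain ⟨a, ha⟩ := Function.ne_iff.1 hu
  have ha' : u a ≠ 0 := ha
  by_cases hb : ∃ b, b ≠ a ∧ u b ≠ 0
  · obtain ⟨b, hba, hb⟩ := hb
    exact prc_two h0 h1 hba _ (hflip b hb) (hflip a ha')
  · push Not at hb
    refine prc_empty fun x hx => ?_
    have hx' : ∑ k, (sg (x k) : ZMod l) * u k = 0 := hx
    rw [Finset.sum_eq_single a (fun k _ hk => by rw [hb k hk, mul_zero])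
      (fun h => (h (Finset.mem_univ a)).elim)] at hx'
    revert hx'
    cases x a <;> simpa [sg] using ha'

theorem two_point_four {n : ℕ} {p : ℝ} (h0 : 0 ≤ p) (h1 : p ≤ 1) (S : Finset (Fin n))
    (hS : S.Nonempty) (c : ℤ) :
    bernoulliProb p {x : Fin n → Bool | (4 : ℤ) ∣ (∑ k ∈ S, sg (x k)) - 2 * c} ≤ rr p := by
  have hflip : ∀ b ∈ S, ∀ x : Fin n → Bool,
      (4 : ℤ) ∣ (∑ k ∈ S, sg (Function.update x b true k)) - 2 * c →
      (4 : ℤ) ∣ (∑ k ∈ S, sg (Function.update x b false k)) - 2 * c → False := by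
    intro b hb x h1 h3
    have := prc_flip (R := ℤ) S hb (fun _ => 1) x
    simp only [Int.cast_id, mul_one] at this
    omega
  obtain ⟨a, ha⟩ := hS
  by_cases hb : ∃ b, b ≠ a ∧ b ∈ S
  · obtain ⟨b, hba, hb⟩ := hb
    exact prc_two h0 h1 hba _ (hflip b hb) (hflip a ha)
  · push Not at hb
    refine prc_empty fun x hx => ?_
    have hx' : (4 : ℤ) ∣ (∑ k ∈ S, sg (x k)) - 2 * c := hx
    rw [Finset.sum_eq_single a (fun k hk hka => (hb k hka hk).elim) (fun h => (h ha).elim)] at hx'
    revert hx'
    cases x a <;> simp only [sg] <;> omega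

open Classical in
private theorem prc_sign {q a b : ℝ} (h0 : 0 ≤ q) (h1 : q ≤ 1) (hab : a < b) :
    q * (if b = 0 then 1 else 0) + (1 - q) * (if a = 0 then 1 else 0) ≤
      Real.sign b - Real.sign a := by
  rcases lt_trichotomy a 0 with ha | ha | ha
  · rcases lt_trichotomy b 0 with hb | hb | hb
    · simp [Real.sign_of_neg ha, Real.sign_of_neg hb, ha.ne, hb.ne]
    · simp [Real.sign_of_neg ha, hb, ha.ne, h1]
    · simp [Real.sign_of_neg ha, Real.sign_of_pos hb, ha.ne, hb.ne']
  · have hb : 0 < b := ha ▸ hab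
    simp [Real.sign_of_pos hb, ha, hb.ne', h0]
  · have hb : 0 < b := ha.trans hab
    simp [Real.sign_of_pos hb, Real.sign_of_pos ha, ha.ne', hb.ne']

/-- Weak Erdős–Littlewood–Offord inequality for biased signs. -/
theorem weak_LO {n : ℕ} {p : ℝ} (h0 : 0 < p) (h1 : p < 1) (u : Fin n → ℝ) {s : ℕ} (hs : 0 < s)
    (hu : s ≤ (Finset.univ.filter fun k => u k ≠ 0).card) :
    bernoulliProb p {x : Fin n → Bool | ∑ k, (sg (x k) : ℝ) * u k = 0} ≤
      2 / Real.sqrt (p * (1 - p) * s) := by
  classical
  set A : Set (Fin n → Bool) := {x | ∑ k, (sg (x k) : ℝ) * u k = 0} with hA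
  set P := bernoulliProb p A with hP
  have hP0 : 0 ≤ P := P_nonneg h0.le h1.le A
  set G : (Fin n → Bool) → ℝ := fun x => Real.sign (∑ k, (sg (x k) : ℝ) * u k) with hG
  have hσ := sig_pos h0 h1
  have hσ2 := sig_sq h0 h1
  set σ := Real.sqrt (p * (1 - p)) with hσdef
  have hfc : ∀ k, fc p G {k} =
      σ * Ex p (fun x => G (Function.update x k true) - G (Function.update x k false)) := by
    intro k
    unfold fc
    rw [Ex_split p k, ← Ex_const_mul]
    refine Ex_congr p fun x => ?_
    simp only [chi, Finset.prod_singleton, Function.update_self, phi, if_true, Bool.false_eq_true,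
      if_false, ← hσdef]
    field_simp
    rw [hσ2]
    ring
  have hkey : ∀ k, u k ≠ 0 → p * (1 - p) * P ^ 2 ≤ fc p G {k} ^ 2 := by
    intro k hk
    rw [hfc, mul_pow, hσ2]
    refine mul_le_mul_of_nonneg_left ?_ (by nlinarith)
    have hPE : P = Ex p (fun x => p * (if Function.update x k true ∈ A then 1 else 0) +
        (1 - p) * (if Function.update x k false ∈ A then 1 else 0)) := by
      rw [hP, bernoulliProb_eq_Ex, Ex_split p k]
    rcases lt_or_gt_of_ne hk with hneg | hpos
    · have : P ≤ - Ex p (fun x => G (Function.update x k true) - G (Function.update x k false)) := by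
        rw [hPE, ← neg_one_mul, ← Ex_const_mul]
        refine Ex_mono h0.le h1.le fun x => ?_
        have hf := prc_flip (R := ℝ) Finset.univ (Finset.mem_univ k) u x
        have := prc_sign (q := 1 - p) (by linarith) (by linarith)
          (show ∑ j, (sg (Function.update x k true j) : ℝ) * u j <
            ∑ j, (sg (Function.update x k false j) : ℝ) * u j by linarith)
        simp only [hA, hG, Set.mem_ofPred_eq]
        rw [sub_sub_cancel] at this
        linarith
      calc P ^ 2 ≤ _ := pow_le_pow_left₀ hP0 this 2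
        _ = _ := neg_sq _
    · have : P ≤ Ex p (fun x => G (Function.update x k true) - G (Function.update x k false)) := by
        rw [hPE]
        refine Ex_mono h0.le h1.le fun x => ?_
        have hf := prc_flip (R := ℝ) Finset.univ (Finset.mem_univ k) u x
        have := prc_sign (q := p) h0.le h1.le
          (show ∑ j, (sg (Function.update x k false j) : ℝ) * u j <
            ∑ j, (sg (Function.update x k true j) : ℝ) * u j by linarith)
        simp only [hA, hG, Set.mem_ofPred_eq]
        linarith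
      exact pow_le_pow_left₀ hP0 this 2
  have hsum : (s : ℝ) * (p * (1 - p) * P ^ 2) ≤ 1 := by
    set K := Finset.univ.filter fun k => u k ≠ 0 with hK
    have hpq : 0 ≤ p * (1 - p) * P ^ 2 := mul_nonneg (by nlinarith) (sq_nonneg _)
    calc (s : ℝ) * (p * (1 - p) * P ^ 2) ≤ K.card * (p * (1 - p) * P ^ 2) := by
          gcongr
      _ = ∑ _k ∈ K, p * (1 - p) * P ^ 2 := by simp
      _ ≤ ∑ k ∈ K, fc p G {k} ^ 2 :=
          Finset.sum_le_sum fun k hk => hkey k (Finset.mem_filter.1 hk).2
      _ = ∑ S ∈ K.image (fun k => ({k} : Finset (Fin n))), fc p G S ^ 2 := by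
          rw [Finset.sum_image fun a _ b _ h => Finset.singleton_injective h]
      _ ≤ ∑ S, fc p G S ^ 2 :=
          Finset.sum_le_sum_of_subset_of_nonneg (Finset.subset_univ _) fun _ _ _ => sq_nonneg _
      _ = Ex p (fun x => G x ^ 2) := (parseval_sq h0 h1 G).symm
      _ ≤ Ex p (fun _ : Fin n → Bool => (1 : ℝ)) := by
          refine Ex_mono h0.le h1.le fun x => ?_
          rcases Real.sign_apply_eq (∑ k, (sg (x k) : ℝ) * u k) with h | h | h <;>
            simp only [hG, h] <;> norm_num
      _ = 1 := Ex_one p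
  have hs' : (0 : ℝ) < s := by exact_mod_cast hs
  have hD : 0 < p * (1 - p) * s := mul_pos (mul_pos h0 (by linarith)) hs'
  have hsq := Real.sqrt_pos.2 hD
  rw [le_div_iff₀ hsq]
  have h3 : (P * Real.sqrt (p * (1 - p) * s)) ^ 2 ≤ 2 ^ 2 := by
    rw [mul_pow, Real.sq_sqrt hD.le]
    nlinarith
  exact (pow_le_pow_iff_left₀ (by positivity) (by norm_num) two_ne_zero).1 h3

end Crest.Agent.R152
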