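import Crest.Agent.R152.Defs
import Crest.Agent.R238.Final
import Crest.Agent.Lib.PL.PrekopaLeindler

/-! # Row 152: the Gaussian B-theorem (DESIGN.md, RM6) -/

set_option autoImplicit false
open Matrix Filter MeasureTheory

noncomputable section
namespace Crest.Agent.R152

/-- `vol_family` in Euclidean space. -/
theorem RMB_vol {r : ℕ} {I : Type} (u : I → V (Fin r)) (h0 h1 : I → ℝ) (p0 : ∀ i, 0 < h0 i)
    (p1 : ∀ i, 0 < h1 i) {s : ℝ} (s0 : 0 ≤ s) (s1 : s ≤ 1) {K L : Set (V (Fin r))}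
    (hKc : IsCompact K) (hLc : IsCompact L) (hK : ∀ x ∈ K, ∀ i, |inner ℝ (u i) x| ≤ h0 i)
    (hL : ∀ x ∈ L, ∀ i, |inner ℝ (u i) x| ≤ h1 i) :
    volume K ^ (1 - s) * volume L ^ s ≤
      volume {x : V (Fin r) | ∀ i, |inner ℝ (u i) x| ≤ h0 i ^ (1 - s) * h1 i ^ s} := by
  have hinner : ∀ (x : Fin r → ℝ) (u : V (Fin r)),
      inner ℝ u (WithLp.toLp 2 x : V (Fin r)) = dotProduct (WithLp.ofLp u) x := by
    intro x u
    simp [PiLp.inner_apply, dotProduct, mul_comm]
  have hmp := PiLp.volume_preserving_toLp (Fin r)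
  have hpre : ∀ A : Set (V (Fin r)), IsClosed A →
      volume ((WithLp.toLp 2 : (Fin r → ℝ) → V (Fin r)) ⁻¹' A) = volume A :=
    fun A hA => hmp.measure_preimage hA.measurableSet.nullMeasurableSet
  have hcomp : ∀ A : Set (V (Fin r)), IsCompact A →
      IsCompact ((WithLp.toLp 2 : (Fin r → ℝ) → V (Fin r)) ⁻¹' A) := fun A hA =>
    (PiLp.homeomorph 2 (fun _ : Fin r => ℝ)).symm.isCompact_preimage.2 hA
  have main := Crest.Agent.R238.vol_family (fun i => WithLp.ofLp (u i)) h0 h1 p0 p1 s0 s1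
    (hcomp K hKc) (hcomp L hLc) (fun x hx i => by rw [← hinner]; exact hK _ hx i)
    (fun x hx i => by rw [← hinner]; exact hL _ hx i)
  rw [hpre K hKc.isClosed, hpre L hLc.isClosed] at main
  refine main.trans ?_
  have hcl : IsClosed {x : V (Fin r) | ∀ i, |inner ℝ (u i) x| ≤ h0 i ^ (1 - s) * h1 i ^ s} := by
    rw [Set.ofPred_forall]
    exact isClosed_iInter fun i => isClosed_le (by fun_prop) continuous_const
  rw [← hpre _ hcl]
  refine measure_mono fun x hx i => ?_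
  rw [hinner]
  exact hx i

/-- The one dimensional mixture identity. -/
theorem RMB_one (z : ℝ) :
    Integrable ({σ : ℝ | |z| ≤ Real.exp σ}.indicator
      fun σ => Real.exp (2 * σ - Real.exp (2 * σ) / 2)) ∧
    ∫ σ, {σ : ℝ | |z| ≤ Real.exp σ}.indicator
      (fun σ => Real.exp (2 * σ - Real.exp (2 * σ) / 2)) σ = Real.exp (-(z ^ 2 / 2)) := by
  have hs : MeasurableSet {σ : ℝ | |z| ≤ Real.exp σ} :=
    (isClosed_le continuous_const Real.continuous_exp).measurableSet
  have hd : ∀ σ ∈ {σ : ℝ | |z| ≤ Real.exp σ}, HasDerivWithinAt (fun σ => Real.exp (2 * σ) / 2)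
      (Real.exp (2 * σ)) {σ : ℝ | |z| ≤ Real.exp σ} σ := by
    intro σ _
    have := (((hasDerivAt_id σ).const_mul 2).exp.div_const 2).hasDerivWithinAt
      (s := {σ : ℝ | |z| ≤ Real.exp σ})
    simpa using this
  have hi : Set.InjOn (fun σ : ℝ => Real.exp (2 * σ) / 2) {σ : ℝ | |z| ≤ Real.exp σ} := by
    intro a _ b _ h
    have : Real.exp (2 * a) = Real.exp (2 * b) := by
      simp only at h; linarith
    have := Real.exp_injective this
    linarith
  have hsq : ∀ σ : ℝ, Real.exp (2 * σ) = Real.exp σ ^ 2 := fun σ => by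
    rw [← Real.exp_nat_mul]; norm_num
  have hae : ((fun σ : ℝ => Real.exp (2 * σ) / 2) '' {σ : ℝ | |z| ≤ Real.exp σ} : Set ℝ)
      =ᵐ[volume] Set.Ioi (z ^ 2 / 2) := by
    have h1 : Set.Ioi (z ^ 2 / 2) ⊆
        (fun σ : ℝ => Real.exp (2 * σ) / 2) '' {σ : ℝ | |z| ≤ Real.exp σ} := by
      intro y hy
      have hy' : z ^ 2 / 2 < y := hy
      have hy0 : 0 < 2 * y := by nlinarith [sq_nonneg z]
      have e : Real.exp (2 * (Real.log (2 * y) / 2)) = 2 * y := by
        rw [mul_div_cancel₀ _ (two_ne_zero), Real.exp_log hy0]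
      refine ⟨Real.log (2 * y) / 2, ?_, by simp only [e]; ring⟩
      show |z| ≤ Real.exp _
      refine abs_le_of_sq_le_sq ?_ (Real.exp_pos _).le
      rw [← hsq, e]; linarith
    have h2 : (fun σ : ℝ => Real.exp (2 * σ) / 2) '' {σ : ℝ | |z| ≤ Real.exp σ} ⊆
        Set.Ici (z ^ 2 / 2) := by
      rintro _ ⟨σ, hσ, rfl⟩
      have : |z| ^ 2 ≤ Real.exp σ ^ 2 := pow_le_pow_left₀ (abs_nonneg _) hσ 2
      rw [sq_abs, ← hsq] at this
      show z ^ 2 / 2 ≤ Real.exp (2 * σ) / 2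
      linarith
    exact ((h2.eventuallyLE).trans Ioi_ae_eq_Ici.symm.le).antisymm h1.eventuallyLE
  have he : ∀ σ : ℝ, |Real.exp (2 * σ)| • Real.exp (-(Real.exp (2 * σ) / 2)) =
      Real.exp (2 * σ - Real.exp (2 * σ) / 2) := fun σ => by
    rw [abs_of_pos (Real.exp_pos _), smul_eq_mul, ← Real.exp_add, sub_eq_add_neg]
  constructor
  · rw [integrable_indicator_iff hs]
    have := (integrableOn_image_iff_integrableOn_abs_deriv_smul hs hd hi
      fun y => Real.exp (-y)).1 ((integrableOn_exp_neg_Ioi _).congr_set_ae hae)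
    simpa only [he] using this
  · rw [integral_indicator hs]
    have := integral_image_eq_integral_abs_deriv_smul hs hd hi fun y => Real.exp (-y)
    rw [setIntegral_congr_set hae, integral_exp_neg_Ioi] at this
    simpa only [he] using this.symm

/-- The log-concave weight. -/
def RMB_w {r : ℕ} (σ : Fin r → ℝ) : ENNReal :=
  ENNReal.ofReal (Real.exp (∑ i, (2 * σ i - Real.exp (2 * σ i) / 2)))

theorem RMB_w_meas {r : ℕ} : Measurable (RMB_w : (Fin r → ℝ) → ENNReal) := by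
  unfold RMB_w
  fun_prop

theorem RMB_w_conc {r : ℕ} {s : ℝ} (s0 : 0 ≤ s) (s1 : s ≤ 1) (σ σ' : Fin r → ℝ) :
    RMB_w σ ^ (1 - s) * RMB_w σ' ^ s ≤ RMB_w ((1 - s) • σ + s • σ') := by
  unfold RMB_w
  rw [ENNReal.ofReal_rpow_of_pos (Real.exp_pos _), ENNReal.ofReal_rpow_of_pos (Real.exp_pos _),
    ← ENNReal.ofReal_mul (by positivity), ← Real.exp_mul, ← Real.exp_mul, ← Real.exp_add]
  refine ENNReal.ofReal_le_ofReal (Real.exp_le_exp.2 ?_)
  rw [Finset.sum_mul, Finset.sum_mul, ← Finset.sum_add_distrib]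
  refine Finset.sum_le_sum fun i _ => ?_
  have := convexOn_exp.2 (Set.mem_univ (2 * σ i)) (Set.mem_univ (2 * σ' i))
    (show 0 ≤ 1 - s by linarith) s0 (by ring)
  simp only [smul_eq_mul, Pi.add_apply, Pi.smul_apply] at this ⊢
  rw [show 2 * ((1 - s) * σ i + s * σ' i) = (1 - s) * (2 * σ i) + s * (2 * σ' i) by ring]
  linarith

theorem RMB_many {r : ℕ} (z : Fin r → ℝ) :
    ∫⁻ σ : Fin r → ℝ, {σ : Fin r → ℝ | ∀ i, |z i| ≤ Real.exp (σ i)}.indicator RMB_w σ =
      ENNReal.ofReal (Real.exp (-∑ i, z i ^ 2 / 2)) := by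
  let f : Fin r → ℝ → ℝ := fun i => {σ : ℝ | |z i| ≤ Real.exp σ}.indicator
    fun σ => Real.exp (2 * σ - Real.exp (2 * σ) / 2)
  have h1 : Integrable (fun σ : Fin r → ℝ => ∏ i, f i (σ i)) :=
    Integrable.fintype_prod (f := f) fun i => (RMB_one (z i)).1
  have h2 : ∫ σ : Fin r → ℝ, ∏ i, f i (σ i) = Real.exp (-∑ i, z i ^ 2 / 2) := by
    rw [integral_fintype_prod_volume_eq_prod, ← Finset.sum_neg_distrib, Real.exp_sum]
    exact Finset.prod_congr rfl fun i _ => (RMB_one (z i)).2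
  rw [← h2, ofReal_integral_eq_lintegral_ofReal h1 (ae_of_all _ fun σ =>
    Finset.prod_nonneg fun i _ => Set.indicator_nonneg (fun _ _ => (Real.exp_pos _).le) _)]
  refine lintegral_congr fun σ => ?_
  by_cases h : ∀ i, |z i| ≤ Real.exp (σ i)
  · rw [Set.indicator_of_mem (show σ ∈ {σ : Fin r → ℝ | ∀ i, |z i| ≤ Real.exp (σ i)} from h),
      RMB_w, Real.exp_sum]
    congr 1
    exact Finset.prod_congr rfl fun i _ =>
      (Set.indicator_of_mem (show σ i ∈ {σ : ℝ | |z i| ≤ Real.exp σ} from h i)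
        fun σ => Real.exp (2 * σ - Real.exp (2 * σ) / 2)).symm
  · rw [Set.indicator_of_notMem (show σ ∉ {σ : Fin r → ℝ | ∀ i, |z i| ≤ Real.exp (σ i)} from h)]
    obtain ⟨i, hi⟩ := not_forall.1 h
    rw [Finset.prod_eq_zero (Finset.mem_univ i)
      (Set.indicator_of_notMem (show σ i ∉ {σ : ℝ | |z i| ≤ Real.exp σ} from hi) _)]
    simp

theorem RMB_closed {r : ℕ} {K : Set (V (Fin r))} (hK : IsClosed K) (o : Fin r → V (Fin r))
    (d : Fin r → ℝ) (t : ℝ) : IsClosed {p : (Fin r → ℝ) × V (Fin r) |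
      p.2 ∈ K ∧ ∀ i, |inner ℝ (o i) p.2| ≤ Real.exp (p.1 i - d i) / t} := by
  refine (hK.preimage continuous_snd).inter ?_
  show IsClosed {p : (Fin r → ℝ) × V (Fin r) |
    ∀ i, |inner ℝ (o i) p.2| ≤ Real.exp (p.1 i - d i) / t}
  rw [Set.ofPred_forall]
  exact isClosed_iInter fun i => isClosed_le (by fun_prop) (by fun_prop)

theorem RMB_meas {r : ℕ} {K : Set (V (Fin r))} (hK : IsClosed K) (o : Fin r → V (Fin r))
    (d : Fin r → ℝ) (t : ℝ) : Measurable fun σ : Fin r → ℝ => RMB_w σ *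
      volume {x : V (Fin r) | x ∈ K ∧ ∀ i, |inner ℝ (o i) x| ≤ Real.exp (σ i - d i) / t} :=
  RMB_w_meas.mul (measurable_measure_prodMk_left (RMB_closed hK o d t).measurableSet)

/-- The mixture representation. -/
theorem RMB_rep {r : ℕ} {K : Set (V (Fin r))} (hK : IsCompact K) (o : Fin r → V (Fin r))
    (d : Fin r → ℝ) {t : ℝ} (ht : 0 < t) :
    ENNReal.ofReal (∫ x in K,
        Real.exp (-(t ^ 2 / 2) * ∑ i, Real.exp (2 * d i) * (inner ℝ (o i) x) ^ 2)) =
      ∫⁻ σ : Fin r → ℝ, RMB_w σ *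
        volume {x : V (Fin r) | x ∈ K ∧ ∀ i, |inner ℝ (o i) x| ≤ Real.exp (σ i - d i) / t} := by
  set S : Set ((Fin r → ℝ) × V (Fin r)) := {p : (Fin r → ℝ) × V (Fin r) |
    p.2 ∈ K ∧ ∀ i, |inner ℝ (o i) p.2| ≤ Real.exp (p.1 i - d i) / t} with hS
  have hSm : MeasurableSet S := (RMB_closed hK.isClosed o d t).measurableSet
  have hF : Measurable (S.indicator fun p => RMB_w p.1) :=
    (RMB_w_meas.comp measurable_fst).indicator hSm
  have e1 : ∀ σ : Fin r → ℝ, RMB_w σ *
      volume {x : V (Fin r) | x ∈ K ∧ ∀ i, |inner ℝ (o i) x| ≤ Real.exp (σ i - d i) / t} =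
      ∫⁻ x, S.indicator (fun p => RMB_w p.1) (σ, x) := by
    intro σ
    have hm : MeasurableSet
        {x : V (Fin r) | x ∈ K ∧ ∀ i, |inner ℝ (o i) x| ≤ Real.exp (σ i - d i) / t} :=
      measurable_prodMk_left hSm
    rw [← lintegral_indicator_const hm]
    rfl
  simp only [e1]
  rw [lintegral_lintegral_swap (f := fun σ x => S.indicator (fun p => RMB_w p.1) (σ, x))
    hF.aemeasurable, ofReal_integral_eq_lintegral_ofReal
    (ContinuousOn.integrableOn_compact hK (by fun_prop))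
    (ae_of_all _ fun x => (Real.exp_pos _).le), ← lintegral_indicator hK.measurableSet]
  refine lintegral_congr fun x => ?_
  by_cases hx : x ∈ K
  · rw [Set.indicator_of_mem hx]
    have := RMB_many fun i => t * Real.exp (d i) * inner ℝ (o i) x
    have e2 : -(t ^ 2 / 2) * ∑ i, Real.exp (2 * d i) * (inner ℝ (o i) x) ^ 2 =
        -∑ i, (t * Real.exp (d i) * inner ℝ (o i) x) ^ 2 / 2 := by
      rw [neg_mul, Finset.mul_sum]
      congr 1
      refine Finset.sum_congr rfl fun i _ => ?_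
      rw [show Real.exp (2 * d i) = Real.exp (d i) ^ 2 by rw [← Real.exp_nat_mul]; norm_num]
      ring
    rw [e2, ← this]
    refine lintegral_congr fun σ => ?_
    have e3 : σ ∈ {σ : Fin r → ℝ | ∀ i,
        |t * Real.exp (d i) * inner ℝ (o i) x| ≤ Real.exp (σ i)} ↔ (σ, x) ∈ S := by
      simp only [hS, Set.mem_ofPred_eq, hx, true_and]
      refine forall_congr' fun i => ?_
      have hp : 0 < t * Real.exp (d i) := by positivity
      rw [abs_mul, abs_of_pos hp, Real.exp_sub, div_div, le_div_iff₀ (by positivity)]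
      rw [show t * Real.exp (d i) * |inner ℝ (o i) x| =
        |inner ℝ (o i) x| * (Real.exp (d i) * t) by ring]
    by_cases h : (σ, x) ∈ S
    · rw [Set.indicator_of_mem h, Set.indicator_of_mem (e3.2 h)]
    · rw [Set.indicator_of_notMem h, Set.indicator_of_notMem (mt e3.1 h)]
  · rw [Set.indicator_of_notMem hx]
    symm
    refine (lintegral_congr fun σ => ?_).trans lintegral_zero
    exact Set.indicator_of_notMem (fun h => hx h.1) _

/-- Strong Gaussian B-theorem for a compact intersection of symmetric slabs. -/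
theorem btheorem {r : ℕ} {I : Type} (u : I → V (Fin r)) (c : I → ℝ) (hc : ∀ i, 0 < c i)
    (hK : IsCompact {x : V (Fin r) | ∀ i, |inner ℝ (u i) x| ≤ c i})
    (o : Fin r → V (Fin r)) (d : Fin r → ℝ) {t s : ℝ} (ht : 0 < t) (hs0 : 0 ≤ s) (hs1 : s ≤ 1) :
    (∫ x in {x : V (Fin r) | ∀ i, |inner ℝ (u i) x| ≤ c i},
        Real.exp (-(t ^ 2 / 2) * ∑ i, (inner ℝ (o i) x) ^ 2)) ^ (1 - s) *
      (∫ x in {x : V (Fin r) | ∀ i, |inner ℝ (u i) x| ≤ c i},
        Real.exp (-(t ^ 2 / 2) * ∑ i, Real.exp (2 * d i) * (inner ℝ (o i) x) ^ 2)) ^ s ≤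
      ∫ x in {x : V (Fin r) | ∀ i, |inner ℝ (u i) x| ≤ c i},
        Real.exp (-(t ^ 2 / 2) * ∑ i, Real.exp (2 * s * d i) * (inner ℝ (o i) x) ^ 2) := by
  rcases hs0.eq_or_lt with rfl | hs0'
  · simp
  rcases hs1.eq_or_lt with rfl | hs1'
  · simp
  set K : Set (V (Fin r)) := {x : V (Fin r) | ∀ i, |inner ℝ (u i) x| ≤ c i} with hKd
  have r0 := RMB_rep hK o (fun _ => 0) ht
  have r1 := RMB_rep hK o d ht
  have rs := RMB_rep hK o (fun i => s * d i) ht
  have hcomp : ∀ (σ e : Fin r → ℝ), IsCompact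
      {x : V (Fin r) | x ∈ K ∧ ∀ i, |inner ℝ (o i) x| ≤ Real.exp (σ i - e i) / t} := by
    intro σ e
    refine hK.inter_right (t := {x | ∀ i, |inner ℝ (o i) x| ≤ Real.exp (σ i - e i) / t}) ?_
    rw [Set.ofPred_forall]
    exact isClosed_iInter fun i => isClosed_le (by fun_prop) continuous_const
  have pl := Crest.Agent.Lib.PL.prekopa_leindler_pi (a := 1 - s) (b := s) (by linarith) hs0'
    (by ring) (RMB_meas hK.isClosed o (fun _ => 0) t) (RMB_meas hK.isClosed o d t)
    (RMB_meas hK.isClosed o (fun i => s * d i) t) (fun σ σ' => by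
      have hv := RMB_vol (I := I ⊕ Fin r) (Sum.elim u o)
        (Sum.elim c fun i => Real.exp (σ i - 0) / t) (Sum.elim c fun i => Real.exp (σ' i - d i) / t)
        (by rintro (i | i) <;> simp only [Sum.elim_inl, Sum.elim_inr] <;> [exact hc i; positivity])
        (by rintro (i | i) <;> simp only [Sum.elim_inl, Sum.elim_inr] <;> [exact hc i; positivity])
        hs0 hs1 (hcomp σ fun _ => 0) (hcomp σ' d)
        (by rintro x hx (i | i); exacts [hx.1 i, hx.2 i])
        (by rintro x hx (i | i); exacts [hx.1 i, hx.2 i])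
      rw [ENNReal.mul_rpow_of_nonneg _ _ (by linarith), ENNReal.mul_rpow_of_nonneg _ _ hs0,
        mul_mul_mul_comm]
      refine mul_le_mul' (RMB_w_conc hs0 hs1 σ σ') (hv.trans (measure_mono fun x hx => ⟨?_, ?_⟩))
      · intro i
        have := hx (Sum.inl i)
        simp only [Sum.elim_inl] at this
        rwa [← Real.rpow_add (hc i), sub_add_cancel, Real.rpow_one] at this
      · intro i
        have := hx (Sum.inr i)
        simp only [Sum.elim_inr] at this
        refine this.trans (le_of_eq ?_)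
        rw [Real.div_rpow (Real.exp_pos _).le ht.le, Real.div_rpow (Real.exp_pos _).le ht.le,
          div_mul_div_comm, ← Real.rpow_add ht, sub_add_cancel, Real.rpow_one, ← Real.exp_mul,
          ← Real.exp_mul, ← Real.exp_add]
        congr 2
        simp only [Pi.add_apply, Pi.smul_apply, smul_eq_mul]
        ring)
  rw [← r0, ← r1, ← rs] at pl
  have n0 : ∀ F : V (Fin r) → ℝ, 0 ≤ ∫ x in K, Real.exp (F x) := fun F =>
    integral_nonneg fun x => (Real.exp_pos _).le
  rw [ENNReal.ofReal_rpow_of_nonneg (n0 _) (by linarith), ENNReal.ofReal_rpow_of_nonneg (n0 _) hs0,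
    ← ENNReal.ofReal_mul (Real.rpow_nonneg (n0 _) _), ENNReal.ofReal_le_ofReal_iff (n0 _)] at pl
  simpa only [mul_zero, Real.exp_zero, one_mul, mul_assoc] using pl

end Crest.Agent.R152
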