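import Crest.Agent.R152.RMDefs

/-! # Row 152, reverse Minkowski: diagonalisation -/

set_option autoImplicit false
open Filter MeasureTheory Topology Set

noncomputable section
namespace Crest.Agent.R152

variable {r : ℕ}

open Matrix in
/-- Spectral theorem for the positive definite matrix `Mᵀ * M` (`Matrix.IsHermitian.eigenvectorBasis`,
`mulVec_eigenvectorBasis`, `det_eq_prod_eigenvalues`, `Matrix.PosDef.eigenvalues_pos`); `d i` is half
the logarithm of the `i`-th eigenvalue. -/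
theorem exists_diag (M : Matrix (Fin r) (Fin r) ℝ) (hM : M.det = 1) :
    ∃ (o : OrthonormalBasis (Fin r) ℝ (V (Fin r))) (d : Fin r → ℝ), ∑ i, d i = 0 ∧
      ∀ x : V (Fin r), ∑ i, ((M *ᵥ x.ofLp) i) ^ 2 =
        ∑ i, Real.exp (2 * d i) * (inner ℝ (o i) x) ^ 2 := by
  have hA : (Mᴴ * M).PosSemidef := Matrix.posSemidef_conjTranspose_mul_self M
  have hH := hA.isHermitian
  have hdet : ∏ i, hH.eigenvalues i = 1 := by
    have h1 := hH.det_eq_prod_eigenvalues
    rw [Matrix.det_mul, Matrix.det_conjTranspose, hM] at h1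
    simpa using h1.symm
  have hne : ∀ i, hH.eigenvalues i ≠ 0 := by
    intro i h
    rw [Finset.prod_eq_zero (Finset.mem_univ i) h] at hdet
    exact zero_ne_one hdet
  have hpos : ∀ i, 0 < hH.eigenvalues i := fun i =>
    lt_of_le_of_ne (hA.eigenvalues_nonneg i) (hne i).symm
  refine ⟨hH.eigenvectorBasis, fun i => Real.log (hH.eigenvalues i) / 2, ?_, fun x => ?_⟩
  · rw [← Finset.sum_div, ← Real.log_prod fun i _ => hne i, hdet, Real.log_one, zero_div]
  · set o := hH.eigenvectorBasis with ho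
    have h1 : ∑ i, ((M *ᵥ x.ofLp) i) ^ 2 = x.ofLp ⬝ᵥ ((Mᴴ * M) *ᵥ x.ofLp) := by
      rw [← Matrix.mulVec_mulVec, Matrix.dotProduct_mulVec, Matrix.conjTranspose_eq_transpose_of_trivial,
        Matrix.vecMul_transpose]
      simp only [dotProduct, sq]
    have h2 : x.ofLp = ∑ i, inner ℝ (o i) x • (o i).ofLp := by
      conv_lhs => rw [← o.sum_repr' x]
      simp
    have h3 : ∀ i, x.ofLp ⬝ᵥ (o i).ofLp = inner ℝ (o i) x := by
      intro i
      rw [EuclideanSpace.inner_eq_star_dotProduct]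
      simp
    have h4 : (Mᴴ * M) *ᵥ x.ofLp =
        ∑ i, (inner ℝ (o i) x * hH.eigenvalues i) • (o i).ofLp := by
      conv_lhs => rw [h2]
      rw [Matrix.mulVec_sum]
      refine Finset.sum_congr rfl fun i _ => ?_
      rw [Matrix.mulVec_smul, ho, hH.mulVec_eigenvectorBasis, smul_smul]
    rw [h1, h4, dotProduct_sum]
    refine Finset.sum_congr rfl fun i _ => ?_
    rw [dotProduct_smul, h3, mul_div_cancel₀ _ (two_ne_zero' ℝ), Real.exp_log (hpos i),
      smul_eq_mul]
    ring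

/-- The map with eigenvectors `o i` and eigenvalues `exp (d i)`
(`Matrix.toLin o.toBasis o.toBasis (diagonal _)`, `LinearMap.det_toLin`,
`OrthonormalBasis.sum_sq_inner_right`/`sum_sq_norm_inner_right`). -/
theorem exists_diagMap (o : OrthonormalBasis (Fin r) ℝ (V (Fin r))) (d : Fin r → ℝ)
    (hd : ∑ i, d i = 0) : ∃ M : V (Fin r) →ₗ[ℝ] V (Fin r), LinearMap.det M = 1 ∧
      (∀ x, ‖M x‖ ^ 2 = ∑ i, Real.exp (2 * d i) * (inner ℝ (o i) x) ^ 2) ∧
      ∀ L : ℝ, (∀ i, |d i| ≤ L) → ∀ x, ‖x‖ ≤ Real.exp L * ‖M x‖ ∧ ‖M x‖ ≤ Real.exp L * ‖x‖ := by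
  set M := Matrix.toLin o.toBasis o.toBasis (Matrix.diagonal fun i => Real.exp (d i)) with hM
  have h1 : ∀ x i, inner ℝ (o i) (M x) = Real.exp (d i) * inner ℝ (o i) x := by
    intro x i
    rw [hM, Matrix.toLin_apply]
    simp only [OrthonormalBasis.coe_toBasis]
    rw [o.orthonormal.inner_right_fintype, Matrix.mulVec_diagonal]
    simp [OrthonormalBasis.repr_apply_apply]
  have h2 : ∀ x, ‖M x‖ ^ 2 = ∑ i, Real.exp (2 * d i) * (inner ℝ (o i) x) ^ 2 := by
    intro x
    rw [← o.sum_sq_inner_right]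
    refine Finset.sum_congr rfl fun i _ => ?_
    rw [h1, mul_pow, ← Real.exp_nat_mul]
    norm_num
  refine ⟨M, ?_, h2, fun L hL x => ?_⟩
  · rw [hM, LinearMap.det_toLin, Matrix.det_diagonal, ← Real.exp_sum, hd, Real.exp_zero]
  · have e : Real.exp L ^ 2 = Real.exp (2 * L) := by
      rw [← Real.exp_nat_mul]
      norm_num
    constructor
    · refine (pow_le_pow_iff_left₀ (norm_nonneg _) (by positivity) two_ne_zero).1 ?_
      rw [mul_pow, h2, ← o.sum_sq_inner_right, Finset.mul_sum, e]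
      refine Finset.sum_le_sum fun i _ => ?_
      rw [← mul_assoc, ← Real.exp_add]
      refine le_mul_of_one_le_left (sq_nonneg _) (Real.one_le_exp ?_)
      linarith [(abs_le.1 (hL i)).1]
    · refine (pow_le_pow_iff_left₀ (norm_nonneg _) (by positivity) two_ne_zero).1 ?_
      rw [mul_pow, h2, ← o.sum_sq_inner_right, Finset.mul_sum, e]
      refine Finset.sum_le_sum fun i _ => ?_
      refine mul_le_mul_of_nonneg_right (Real.exp_le_exp.2 ?_) (sq_nonneg _)
      linarith [(abs_le.1 (hL i)).2]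

/-- If `b > a` take logarithms: `log (1 - ε s / a) + s log (b / a) ≤ 0`, and
`log (1 - y) ≥ -2 y` for `y ≤ 1/2`. -/
theorem le_of_logconc {a b : ℝ} (ha : 0 < a) (hb : 0 ≤ b)
    (h : ∀ ε : ℝ, 0 < ε → ∃ᶠ s in 𝓝[>] (0 : ℝ), ∃ u : ℝ, 0 ≤ u ∧ a ≤ u + ε * s ∧
      u ^ (1 - s / (1 + s)) * b ^ (s / (1 + s)) ≤ a) : b ≤ a := by
  by_contra hab
  have hab' : a < b := not_le.1 hab
  have hb0 : 0 < b := ha.trans hab'
  set c := Real.log b - Real.log a with hc
  have hc0 : 0 < c := sub_pos.2 (Real.log_lt_log ha hab')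
  have hev : ∀ᶠ s in 𝓝[>] (0 : ℝ), s ∈ Ioo 0 (2 / c) := Ioo_mem_nhdsGT (by positivity)
  obtain ⟨s, ⟨u, -, hu1, hu2⟩, hs0, hs1⟩ :=
    ((h (a * c / 4) (by positivity)).and_eventually hev).exists
  rw [lt_div_iff₀ hc0] at hs1
  have hy : 0 < s * c := mul_pos hs0 hc0
  have h1 : a * (1 - s * c / 4) ≤ u := by linarith
  have h2 : 0 < 1 - s * c / 4 := by linarith
  have hu0 : 0 < u := lt_of_lt_of_le (mul_pos ha h2) h1
  have h3 : Real.log a + Real.log (1 - s * c / 4) ≤ Real.log u := by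
    rw [← Real.log_mul ha.ne' h2.ne']
    exact Real.log_le_log (mul_pos ha h2) h1
  have h4 : -(s * c / 2) ≤ Real.log (1 - s * c / 4) := by
    refine le_trans ?_ (Real.one_sub_inv_le_log_of_pos h2)
    have : (1 - s * c / 4)⁻¹ ≤ 1 + s * c / 2 := by
      rw [inv_le_iff_one_le_mul₀ h2]
      nlinarith
    linarith
  have h5 := Real.log_le_log (by positivity) hu2
  rw [Real.log_mul (by positivity) (by positivity), Real.log_rpow hu0, Real.log_rpow hb0] at h5
  have h6 : 0 < 1 + s := by linarith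
  have h7 : Real.log u + s * Real.log b ≤ (1 + s) * Real.log a := by
    have h8 := mul_le_mul_of_nonneg_left h5 h6.le
    have e : (1 + s) * ((1 - s / (1 + s)) * Real.log u + s / (1 + s) * Real.log b) =
        Real.log u + s * Real.log b := by
      field_simp
      ring
    rwa [e] at h8
  have e2 : s * c = s * Real.log b - s * Real.log a := by rw [hc]; ring
  nlinarith

end Crest.Agent.R152
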