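import Crest.Agent.R152.RMAsym
import Crest.Agent.R152.RMSpec
import Crest.Agent.R152.RMB

/-! # Row 152, reverse Minkowski: the interior case -/

set_option autoImplicit false
open Filter MeasureTheory Topology Set

noncomputable section
namespace Crest.Agent.R152

variable {r : ℕ} {t : ℝ}

open Matrix in
theorem interior_case (ht : 0 < t) {Λ : Submodule ℤ (V (Fin r))} (h : IsLat Λ) (hf : rsp Λ = ⊤)
    {c : ℝ} (hc : 1 < c) (hmin : ∀ M : V (Fin r) →ₗ[ℝ] V (Fin r), LinearMap.det M = 1 →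
      (∀ x, ‖x‖ ≤ c * ‖M x‖) → gm t (vor Λ) ≤ gm t (vor (img M Λ)))
    (M : Matrix (Fin r) (Fin r) ℝ) (hM : M.det = 1) :
    (t / Real.sqrt (2 * Real.pi)) ^ r *
      ∫ x in vor Λ, Real.exp (-(t ^ 2 / 2) * ∑ i, ((M *ᵥ x.ofLp) i) ^ 2) ≤ gm t (vor Λ) := by
  obtain ⟨o, d, hd, hq⟩ := exists_diag M hM
  simp only [hq]
  have hd' : ∀ s : ℝ, ∑ i, -s * d i = 0 := fun s => by rw [← Finset.mul_sum, hd, mul_zero]
  choose Ms hMs1 hMs2 hMs3 using fun s : ℝ => exists_diagMap o (fun i => -s * d i) (hd' s)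
  set L : ℝ := ∑ i, |d i| with hL
  have hL0 : 0 ≤ L := Finset.sum_nonneg fun i _ => abs_nonneg _
  have hb : ∀ s, 0 ≤ s → ∀ x, ‖x‖ ≤ Real.exp (s * L) * ‖Ms s x‖ ∧
      ‖Ms s x‖ ≤ Real.exp (s * L) * ‖x‖ := fun s hs => hMs3 s _ fun i => by
    rw [abs_mul, abs_neg, abs_of_nonneg hs]
    exact mul_le_mul_of_nonneg_left
      (Finset.single_le_sum (f := fun i => |d i|) (fun i _ => abs_nonneg _) (Finset.mem_univ i)) hs
  have hc0 : 0 < (t / Real.sqrt (2 * Real.pi)) ^ r := by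
    have := Real.pi_pos
    positivity
  have hI : ∀ f : V (Fin r) → ℝ, 0 ≤ ∫ x in vor Λ, Real.exp (f x) := fun f =>
    integral_nonneg fun x => (Real.exp_pos _).le
  refine le_of_logconc (gm_pos ht h.vor_mem_nhds) (mul_nonneg hc0.le (hI _)) fun ε hε => ?_
  have hev : ∀ᶠ s in 𝓝[>] (0 : ℝ), Real.exp (s * L) < c := by
    refine nhdsWithin_le_nhds (ContinuousAt.eventually_lt (by fun_prop) continuousAt_const ?_)
    simpa using hc
  refine Eventually.frequently ?_
  filter_upwards [hev, gm_img_asym ht h hf Ms hMs1 hL0 hb hε, self_mem_nhdsWithin]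
    with s h1 h2 (hs : 0 < s)
  refine ⟨hm t (vor Λ) (Ms s), mul_nonneg hc0.le (hI _), (hmin _ (hMs1 s) fun x =>
    (hb s hs.le x).1.trans (mul_le_mul_of_nonneg_right h1.le (norm_nonneg _))).trans h2, ?_⟩
  have hK := h.isCompact_vor hf
  rw [vor_eq_slabs] at hK
  have hB := btheorem (fun i : {v : V (Fin r) // v ∈ Λ ∧ v ≠ 0} => i.1) (fun i => ‖i.1‖ ^ 2 / 2)
    (fun i => by have := norm_pos_iff.2 i.2.2; positivity) hK
    (fun i => Real.exp (-s * d i) • o i) (fun i => (1 + s) * d i) ht (s := s / (1 + s))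
    (by positivity) ((div_le_one (by positivity)).2 (by linarith))
  rw [← vor_eq_slabs] at hB
  have e0 : ∀ (x : V (Fin r)) (i : Fin r), (inner ℝ (Real.exp (-s * d i) • o i) x) ^ 2 =
      Real.exp (2 * (-s * d i)) * (inner ℝ (o i) x) ^ 2 := fun x i => by
    rw [real_inner_smul_left, mul_pow, ← Real.exp_nat_mul]
    norm_num
  have e1 : ∀ i, Real.exp (2 * ((1 + s) * d i)) * Real.exp (2 * (-s * d i)) =
      Real.exp (2 * d i) := fun i => by
    rw [← Real.exp_add]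
    congr 1
    ring
  have e2 : ∀ i, Real.exp (2 * (s / (1 + s)) * ((1 + s) * d i)) * Real.exp (2 * (-s * d i)) = 1 :=
    fun i => by
    rw [← Real.exp_add, Real.exp_eq_one_iff]
    field_simp
    ring
  simp only [e0, ← mul_assoc (Real.exp _), e1, e2, one_mul, ← hMs2,
    OrthonormalBasis.sum_sq_inner_right] at hB
  unfold hm gm
  rw [Real.mul_rpow hc0.le (hI _), Real.mul_rpow hc0.le (hI _), mul_mul_mul_comm,
    ← Real.rpow_add hc0, sub_add_cancel, Real.rpow_one]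
  exact mul_le_mul_of_nonneg_left hB hc0.le

end Crest.Agent.R152
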