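import Crest.Agent.R152.RMPC

/-! # Row 152, reverse Minkowski: Gaussian masses -/

set_option autoImplicit false
open Filter MeasureTheory Topology Set

noncomputable section
namespace Crest.Agent.R152

variable {r : ℕ} {t : ℝ}

theorem RMGm_inj {M : V (Fin r) →ₗ[ℝ] V (Fin r)} (hM : LinearMap.det M ≠ 0) :
    Function.Injective M :=
  (LinearMap.equivOfDetNeZero M hM).injective

/-- `GaussianFourier.integral_rexp_neg_mul_sq_norm` is nonzero (`Integrable.of_integral_ne_zero`). -/
theorem integrable_gauss (ht : 0 < t) :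
    Integrable fun x : V (Fin r) => Real.exp (-(t ^ 2 / 2) * ‖x‖ ^ 2) := by
  refine Integrable.of_integral_ne_zero ?_
  rw [GaussianFourier.integral_rexp_neg_mul_sq_norm (by positivity)]
  positivity

theorem gm_univ (ht : 0 < t) : gm t (univ : Set (V (Fin r))) = 1 := by
  unfold gm
  rw [Measure.restrict_univ, GaussianFourier.integral_rexp_neg_mul_sq_norm (by positivity)]
  have hπ := Real.pi_pos
  have e : Real.pi / (t ^ 2 / 2) = (Real.sqrt (2 * Real.pi) / t) ^ (2 : ℝ) := by
    rw [Real.rpow_two, div_pow, Real.sq_sqrt (by positivity)]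
    field_simp
  rw [e, ← Real.rpow_mul (by positivity), finrank_euclideanSpace_fin,
    show (2 : ℝ) * ((r : ℝ) / 2) = r by ring, Real.rpow_natCast, ← mul_pow]
  have hs : 0 < Real.sqrt (2 * Real.pi) := Real.sqrt_pos.2 (by positivity)
  rw [show t / Real.sqrt (2 * Real.pi) * (Real.sqrt (2 * Real.pi) / t) = 1 by field_simp, one_pow]

theorem gm_nonneg (ht : 0 < t) (K : Set (V (Fin r))) : 0 ≤ gm t K :=
  mul_nonneg (by positivity) (integral_nonneg fun _ => (Real.exp_pos _).le)

theorem gm_pos (ht : 0 < t) {K : Set (V (Fin r))} (hK : K ∈ 𝓝 (0 : V (Fin r))) : 0 < gm t K := by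
  have hπ := Real.pi_pos
  refine mul_pos (by positivity) ?_
  rw [setIntegral_pos_iff_support_of_nonneg_ae (Eventually.of_forall fun _ => (Real.exp_pos _).le)
    (integrable_gauss ht).integrableOn]
  have e : Function.support (fun x : V (Fin r) => Real.exp (-(t ^ 2 / 2) * ‖x‖ ^ 2)) = univ :=
    eq_univ_of_forall fun x => (Real.exp_pos _).ne'
  rw [e, univ_inter]
  exact Measure.measure_pos_of_mem_nhds _ hK

theorem IsLat.gm_voro {Λ : Submodule ℤ (V (Fin r))} (h : IsLat Λ) :
    gm t (voro Λ) = gm t (vor Λ) := by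
  unfold gm
  rw [setIntegral_congr_set h.voro_ae_eq]

theorem IsLat.hm_voro {Λ : Submodule ℤ (V (Fin r))} (h : IsLat Λ)
    (M : V (Fin r) →ₗ[ℝ] V (Fin r)) : hm t (voro Λ) M = hm t (vor Λ) M := by
  unfold hm
  rw [setIntegral_congr_set h.voro_ae_eq]

/-- Linear change of variables (`integral_image_eq_integral_abs_det_fderiv_smul`). -/
theorem setIntegral_image_lin {M : V (Fin r) →ₗ[ℝ] V (Fin r)} (hM : LinearMap.det M ≠ 0)
    {K : Set (V (Fin r))} (hK : MeasurableSet K) (f : V (Fin r) → ℝ) :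
    MeasurableSet (M '' K) ∧ ∫ y in M '' K, f y = |LinearMap.det M| * ∫ x in K, f (M x) := by
  have hd : ∀ x ∈ K, HasFDerivWithinAt M (LinearMap.toContinuousLinearMap M) K x := fun x _ =>
    (LinearMap.toContinuousLinearMap M).hasFDerivWithinAt
  have hi : InjOn M K := (RMGm_inj hM).injOn
  refine ⟨measurable_image_of_fderivWithin hK hd hi, ?_⟩
  rw [integral_image_eq_integral_abs_det_fderiv_smul volume hK hd hi, ← integral_const_mul]
  rfl

/-- The Voronoi cell is the best packing set (`pc_integral`). -/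
theorem gm_le_of_pack (ht : 0 < t) {Λ : Submodule ℤ (V (Fin r))} (h : IsLat Λ)
    {K : Set (V (Fin r))} (hK : MeasurableSet K) (hp : Pack Λ K) : gm t K ≤ gm t (vor Λ) := by
  have hπ := Real.pi_pos
  refine mul_le_mul_of_nonneg_left ?_ (by positivity)
  refine pc_integral h.countable hK (isClosed_vor Λ).measurableSet hp h.cover_vor (by fun_prop)
    (fun _ => (Real.exp_pos _).le) (fun _ => (Real.exp_pos _).le)
    (integrable_gauss ht).integrableOn fun x _ v hv hxv => ?_
  have h1 := hxv (-v) (Λ.neg_mem hv)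
  rw [sub_neg_eq_add, sub_add_cancel] at h1
  have h2 : ‖x - v‖ ^ 2 ≤ ‖x‖ ^ 2 := pow_le_pow_left₀ (norm_nonneg _) h1 2
  refine Real.exp_le_exp.2 ?_
  have h3 : 0 ≤ t ^ 2 / 2 := by positivity
  nlinarith

/-- `M '' voro Λ` is a packing set of `img M Λ`. -/
theorem hm_le_gm_img (ht : 0 < t) {Λ : Submodule ℤ (V (Fin r))} (h : IsLat Λ)
    {M : V (Fin r) →ₗ[ℝ] V (Fin r)} (hM : LinearMap.det M ≠ 0) :
    |LinearMap.det M| * hm t (vor Λ) M ≤ gm t (vor (img M Λ)) := by
  have hi := RMGm_inj hM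
  obtain ⟨h1, h2⟩ := setIntegral_image_lin hM h.measurableSet_voro
    fun y => Real.exp (-(t ^ 2 / 2) * ‖y‖ ^ 2)
  have h3 := gm_le_of_pack ht (h.img M fun x _ hx => hi (hx.trans (map_zero M).symm)).1 h1
    ((pack_voro Λ).map hi)
  refine le_trans (le_of_eq ?_) h3
  rw [← h.hm_voro]
  unfold gm hm
  rw [h2]
  ring

end Crest.Agent.R152
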