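import Crest.Agent.R152.RMCpt
import Crest.Agent.R152.RMGm

/-! # Row 152, reverse Minkowski: existence of a minimiser -/

set_option autoImplicit false
open Filter MeasureTheory Topology Set

noncomputable section
namespace Crest.Agent.R152

variable {r : ℕ} {t : ℝ}

/-- Let `M b` be the linear map with `M b (b₀ i) = b i` (`Module.Basis.constr` for
`basisOfLinearIndependentOfCardEqFinrank`/`Basis.mk`).  `b ↦ |det (M b)| * hm t (vor Λ₀) (M b)` is
continuous (`continuous_of_dominated` on the compact cell; `det (M b) = B₀.det b`), equals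
`gm t (vor Λ₀)` at `b₀`, and is a lower bound near `b₀` (`hm_le_gm_img`, `Submodule.map_span`). -/
theorem gm_lsc (ht : 0 < t) {b₀ : Fin r → V (Fin r)} (h : LinearIndependent ℝ b₀) :
    LowerSemicontinuousAt
      (fun b : Fin r → V (Fin r) => gm t (vor (Submodule.span ℤ (range b)))) b₀ := by
  classical
  have hcard : Fintype.card (Fin r) = Module.finrank ℝ (V (Fin r)) := by simp
  have hsp : ⊤ ≤ Submodule.span ℝ (range b₀) :=
    (h.span_eq_top_of_card_eq_finrank' hcard).ge
  let B : Module.Basis (Fin r) ℝ (V (Fin r)) := Module.Basis.mk h hsp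
  have hB : ∀ i, B i = b₀ i := fun i => by simp [B]
  let M : (Fin r → V (Fin r)) → (V (Fin r) →ₗ[ℝ] V (Fin r)) := fun b => B.constr ℝ b
  have hMb : ∀ b i, M b (b₀ i) = b i := fun b i => by
    rw [← hB i]; simp [M]
  have hM0 : M b₀ = LinearMap.id := by
    refine B.ext fun i => ?_
    rw [hB i, hMb]; rfl
  have hdet : ∀ b, LinearMap.det (M b) = B.det b := fun b => by
    have h1 := B.det_comp (M b) B
    have h2 : (M b) ∘ B = b := by
      funext i
      simp only [Function.comp_apply, hB i, hMb]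
    rw [h2, Module.Basis.det_self, mul_one] at h1
    exact h1.symm
  have hcdet : Continuous fun b => LinearMap.det (M b) := by
    simp only [hdet, Module.Basis.det_apply]
    refine Continuous.matrix_det (continuous_matrix fun i j => ?_)
    simp only [Module.Basis.toMatrix_apply]
    exact (B.coord i).continuous_of_finiteDimensional.comp (continuous_apply j)
  have hcM : Continuous fun p : (Fin r → V (Fin r)) × V (Fin r) => M p.1 p.2 := by
    have : (fun p : (Fin r → V (Fin r)) × V (Fin r) => M p.1 p.2) =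
        fun p => ∑ i, B.coord i p.2 • p.1 i := by
      funext p
      simp [M, Module.Basis.constr_apply_fintype]
    rw [this]
    refine continuous_finsetSum _ fun i _ => ?_
    exact ((B.coord i).continuous_of_finiteDimensional.comp continuous_snd).smul
      ((continuous_apply i).comp continuous_fst)
  set Λ₀ : Submodule ℤ (V (Fin r)) := Submodule.span ℤ (range b₀) with hΛ₀
  have hL : IsLat Λ₀ := isLat_span h
  have hf : rsp Λ₀ = ⊤ := by
    rw [hΛ₀, rsp_span]; exact top_le_iff.1 hsp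
  have hK : IsCompact (vor Λ₀) := hL.isCompact_vor hf
  have hch : Continuous fun b => hm t (vor Λ₀) (M b) := by
    unfold hm
    refine continuous_const.mul ?_
    refine continuous_parametric_integral_of_continuous
      (f := fun b x => Real.exp (-(t ^ 2 / 2) * ‖M b x‖ ^ 2)) ?_ hK
    exact Real.continuous_exp.comp (continuous_const.mul (hcM.norm.pow 2))
  have hcg : Continuous fun b => |LinearMap.det (M b)| * hm t (vor Λ₀) (M b) :=
    hcdet.abs.mul hch
  have hg0 : |LinearMap.det (M b₀)| * hm t (vor Λ₀) (M b₀) = gm t (vor Λ₀) := by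
    rw [hM0]; simp [hm, gm]
  have himg : ∀ b, img (M b) Λ₀ = Submodule.span ℤ (range b) := fun b => by
    rw [hΛ₀, lat1c_img_span]
    simp only [hMb]
  intro y hy
  have hy' : y < |LinearMap.det (M b₀)| * hm t (vor Λ₀) (M b₀) := by rw [hg0]; exact hy
  have e1 : ∀ᶠ b in 𝓝 b₀, y < |LinearMap.det (M b)| * hm t (vor Λ₀) (M b) :=
    hcg.continuousAt.eventually (lt_mem_nhds hy')
  have e2 : ∀ᶠ b in 𝓝 b₀, LinearMap.det (M b) ≠ 0 := by
    refine hcdet.continuousAt.eventually_ne ?_
    rw [hM0]; simp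
  filter_upwards [e1, e2] with b h1 h2
  have h3 := hm_le_gm_img ht hL h2
  rw [himg] at h3
  exact lt_of_lt_of_le h1 h3

/-- `LowerSemicontinuousOn.exists_isMinOn` on `KD r (2 ^ (r ^ 2) * D) D`, `D = cov Λ`. -/
theorem exists_minimiser (ht : 0 < t) {Λ : Submodule ℤ (V (Fin r))} (h : Stab Λ)
    (hf : rsp Λ = ⊤) : ∃ Λ₀ : Submodule ℤ (V (Fin r)), Stab Λ₀ ∧ rsp Λ₀ = ⊤ ∧ cov Λ₀ ≤ cov Λ ∧
      ∀ Λ' : Submodule ℤ (V (Fin r)), Stab Λ' → rsp Λ' = ⊤ → cov Λ' ≤ cov Λ →
        gm t (vor Λ₀) ≤ gm t (vor Λ') := by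
  obtain ⟨b₁, hb₁, hs₁⟩ := h.exists_KD hf (le_refl (cov Λ))
  have hlsc : LowerSemicontinuousOn
      (fun b : Fin r → V (Fin r) => gm t (vor (Submodule.span ℤ (range b))))
      (KD r (2 ^ (r ^ 2) * cov Λ) (cov Λ)) := fun b hb =>
    (gm_lsc ht (KD.stab hb).1).lowerSemicontinuousWithinAt _
  obtain ⟨b₀, hb₀, hmin⟩ := hlsc.exists_isMinOn ⟨b₁, hb₁⟩ (isCompact_KD _ _ _)
  obtain ⟨-, hS, hr, hc⟩ := KD.stab hb₀
  refine ⟨_, hS, hr, hc, fun Λ' hS' hr' hc' => ?_⟩
  obtain ⟨b, hb, hs⟩ := hS'.exists_KD hr' hc'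
  have := hmin hb
  simp only [mem_ofPred_eq] at this
  rw [hs] at this
  exact this

end Crest.Agent.R152
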