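import Crest.Agent.R152.RMDefs

/-! # Row 152, reverse Minkowski: stability is open in the interior case -/

set_option autoImplicit false
open Filter MeasureTheory Topology Set

noncomputable section
namespace Crest.Agent.R152

variable {r : ℕ}

/-- `cov_span`, `gvol_mul` with the matrix of `M` in a basis of `Λ` (`LinearMap.det_toMatrix`). -/
theorem cov_img_det {Λ : Submodule ℤ (V (Fin r))} (h : IsLat Λ) (hf : rsp Λ = ⊤)
    {M : V (Fin r) →ₗ[ℝ] V (Fin r)} (hM : LinearMap.det M ≠ 0) :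
    IsLat (img M Λ) ∧ rsp (img M Λ) = ⊤ ∧ cov (img M Λ) = |LinearMap.det M| * cov Λ := by
  obtain ⟨k, v, hv, rfl⟩ := h
  let e := LinearMap.equivOfDetNeZero M hM
  have he : ∀ x, e x = M x := fun x => rfl
  have hinj : ∀ x, M x = 0 → x = 0 := fun x hx => e.injective (by rw [he, hx, map_zero])
  have hli := lat1c_li M hv fun x _ => hinj x
  refine ⟨((isLat_span hv).img M fun x _ => hinj x).1, ?_, ?_⟩
  · rw [rsp_img, hf, Submodule.map_top, LinearMap.range_eq_top]
    exact e.surjective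
  · rw [rsp_span] at hf
    let b := Module.Basis.mk hv hf.ge
    have hb : ∀ i, b i = v i := fun i => Module.Basis.mk_apply _ _ i
    rw [lat1c_img_span, cov_span hli, cov_span hv, ← LinearMap.det_toMatrix b, ← gvol_mul]
    congr 1
    funext j
    conv_lhs => rw [← b.sum_repr (M (v j))]
    simp only [LinearMap.toMatrix_apply, hb]

/-- By `finite_sublat` there is `c₀ > 1` with `c₀ ≤ cov N` for all `N ≤ Λ`, `0 < rk N < r`; take
`c > 1` with `c ^ r ≤ c₀`.  A sublattice of `img M Λ` is `img M N`, `N = Λ ⊓ comap`; rank `0`: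
`cov_bot`; rank `r`: `cov_img_det`; otherwise `cov N ≤ c ^ rk N * cov (img M N)` by `cov_img_le` for
the inverse of `M`. -/
theorem stab_open {Λ : Submodule ℤ (V (Fin r))} (h : Stab Λ) (hf : rsp Λ = ⊤)
    (hint : ∀ N, N ≤ Λ → 0 < rk N → rk N < r → 1 < cov N) :
    ∃ c : ℝ, 1 < c ∧ ∀ M : V (Fin r) →ₗ[ℝ] V (Fin r), LinearMap.det M = 1 →
      (∀ x, ‖x‖ ≤ c * ‖M x‖) → Stab (img M Λ) := by
  obtain ⟨c₀, hc₀, hc₀'⟩ : ∃ c₀ : ℝ, 1 < c₀ ∧
      ∀ N, N ≤ Λ → 0 < rk N → rk N < r → c₀ ≤ cov N := by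
    have hfin : {N : Submodule ℤ (V (Fin r)) | N ≤ Λ ∧ cov N ≤ 2 ∧ 1 < cov N}.Finite :=
      (finite_sublat h.1 2).subset fun N hN => ⟨hN.1, hN.2.1⟩
    have hev : ∀ᶠ c in 𝓝 (1 : ℝ), c < 2 ∧ ∀ N ∈ {N : Submodule ℤ (V (Fin r)) |
        N ≤ Λ ∧ cov N ≤ 2 ∧ 1 < cov N}, c < cov N :=
      (eventually_lt_nhds one_lt_two).and
        ((eventually_all_finite hfin).2 fun N hN => eventually_lt_nhds hN.2.2)
    obtain ⟨c, hc, hc1⟩ := ((hev.filter_mono (nhdsWithin_le_nhds (s := Ioi 1))).and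
      self_mem_nhdsWithin).exists
    refine ⟨c, hc1, fun N hN h0 hr => ?_⟩
    by_cases h2 : cov N ≤ 2
    · exact (hc.2 N ⟨hN, h2, hint N hN h0 hr⟩).le
    · linarith [hc.1, not_le.1 h2]
  obtain ⟨c, hc, hc1⟩ : ∃ c : ℝ, c ^ r < c₀ ∧ 1 < c := by
    have hev : ∀ᶠ c in 𝓝 (1 : ℝ), c ^ r < c₀ :=
      (continuous_pow r).continuousAt.eventually_lt_const (by simpa using hc₀)
    exact ((hev.filter_mono (nhdsWithin_le_nhds (s := Ioi 1))).and self_mem_nhdsWithin).exists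
  refine ⟨c, hc1, fun M hM hMc => ?_⟩
  have hM0 : LinearMap.det M ≠ 0 := by rw [hM]; exact one_ne_zero
  obtain ⟨h1, h2, h3⟩ := cov_img_det h.1 hf hM0
  refine ⟨h1, fun N hN => ?_⟩
  let e := LinearMap.equivOfDetNeZero M hM0
  have he : ∀ x, e x = M x := fun x => rfl
  have hNl := h1.sub hN
  have hinj : ∀ x ∈ rsp N, (e.symm : V (Fin r) →ₗ[ℝ] V (Fin r)) x = 0 → x = 0 := fun x _ hx =>
    e.symm.injective (by rw [map_zero]; exact hx)
  rcases Nat.eq_zero_or_pos (rk N) with h0 | h0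
  · rw [eq_bot_of_rk_eq_zero h0, cov_bot]
  by_cases hr : rk N < r
  · have h4 : img (e.symm : V (Fin r) →ₗ[ℝ] V (Fin r)) N ≤ Λ := by
      intro x hx
      obtain ⟨y, hy, rfl⟩ := mem_img.1 hx
      obtain ⟨z, hz, rfl⟩ := mem_img.1 (hN hy)
      rw [← he]
      simpa using hz
    have h5 := (hNl.img _ hinj).2
    have h6 := hc₀' _ h4 (by rwa [h5]) (by rwa [h5])
    have h7 := cov_img_le hNl _ hinj (c := c) (by linarith) fun x _ => by
      have := hMc (e.symm x)
      rw [← he, e.apply_symm_apply] at this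
      exact this
    have h8 : c ^ rk N ≤ c ^ r := pow_le_pow_right₀ hc1.le hr.le
    have h9 := cov_pos N
    by_contra h10
    have h11 : c ^ rk N * cov N ≤ c ^ rk N * 1 :=
      mul_le_mul_of_nonneg_left (not_le.1 h10).le (by positivity)
    linarith
  · have h4 : rk (img M Λ) = r := by
      rw [rk, h2]
      simp
    have h5 := cov_le_of_rk h1 hN (by rw [h4]; exact not_lt.1 hr)
    have h6 := h.2 Λ le_rfl
    rw [h3, hM] at h5
    simp only [abs_one, one_mul] at h5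
    linarith

end Crest.Agent.R152
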