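import Crest.Agent.R152.PosDefs

/-! # Row 152: weak K-convexity on the discrete cube (DESIGN.md, RM7 b) -/

set_option autoImplicit false
open Matrix Filter MeasureTheory Topology
open Crest.Agent.Lib.BiasedCube

noncomputable section
namespace Crest.Agent.R152

theorem PosB_phi (b : Bool) : phi (1 / 2) b = (sg b : ℝ) := by
  have h : Real.sqrt (1 / 2 * (1 - 1 / 2)) = 1 / 2 := by
    rw [show (1 / 2 * (1 - 1 / 2) : ℝ) = (1 / 2) ^ 2 by norm_num]
    exact Real.sqrt_sq (by norm_num)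
  cases b <;> simp only [phi, h, sg] <;> norm_num

/-- The noise kernel. -/
def PosB_K {r : ℕ} (τ : ℝ) (x y : Fin r → Bool) : ℝ :=
  ∏ i, (1 + τ * (phi (1 / 2) (x i) * phi (1 / 2) (y i)))

theorem PosB_K_eq {r : ℕ} (τ : ℝ) (x y : Fin r → Bool) :
    PosB_K τ x y = ∑ S : Finset (Fin r), τ ^ S.card * (chi (1 / 2) S x * chi (1 / 2) S y) := by
  unfold PosB_K
  rw [Finset.prod_one_add, Finset.powerset_univ]
  refine Finset.sum_congr rfl fun S _ => ?_
  unfold chi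
  rw [Finset.prod_mul_distrib, Finset.prod_mul_distrib, Finset.prod_const]

theorem PosB_K_nonneg {r : ℕ} {τ : ℝ} (h0 : 0 ≤ τ) (h1 : τ ≤ 1) (x y : Fin r → Bool) :
    0 ≤ PosB_K τ x y := by
  refine Finset.prod_nonneg fun i _ => ?_
  rw [PosB_phi, PosB_phi]
  cases x i <;> cases y i <;> simp [sg] <;> linarith

theorem PosB_K_mean {r : ℕ} (τ : ℝ) (x : Fin r → Bool) :
    Ex (1 / 2) (fun y => PosB_K τ x y) = 1 := by
  unfold PosB_K
  rw [Ex_prod (1 / 2) (fun i b => 1 + τ * (phi (1 / 2) (x i) * phi (1 / 2) b))]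
  refine Finset.prod_eq_one fun i _ => ?_
  rw [PosB_phi true, PosB_phi false]
  simp only [sg]
  norm_num
  ring

/-- The noise operator. -/
def PosB_T {r : ℕ} (τ : ℝ) (f : (Fin r → Bool) → (Fin r → ℝ)) (x : Fin r → Bool) : Fin r → ℝ :=
  ∑ y, (Crest.FinProb.bernoulliWeight (1 / 2) y * PosB_K τ x y) • f y

theorem PosB_N_sum {r : ℕ} (N : Seminorm ℝ (Fin r → ℝ)) {α : Type*} (s : Finset α) (c : α → ℝ)
    (v : α → Fin r → ℝ) (hv : ∀ a ∈ s, N (v a) ≤ 1) :
    N (∑ a ∈ s, c a • v a) ≤ ∑ a ∈ s, |c a| := by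
  refine (Finset.le_sum_of_subadditive N (map_zero N).le (map_add_le_add N) s _).trans ?_
  refine Finset.sum_le_sum fun a ha => ?_
  rw [map_smul_eq_mul, Real.norm_eq_abs]
  exact mul_le_of_le_one_right (abs_nonneg _) (hv a ha)

theorem PosB_T_le {r : ℕ} (N : Seminorm ℝ (Fin r → ℝ)) {τ : ℝ} (h0 : 0 ≤ τ) (h1 : τ ≤ 1)
    {f : (Fin r → Bool) → (Fin r → ℝ)} (hf : ∀ x, N (f x) ≤ 1) (x : Fin r → Bool) :
    N (PosB_T τ f x) ≤ 1 := by
  refine (PosB_N_sum N _ _ _ fun y _ => hf y).trans (le_of_eq ?_)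
  refine Eq.trans ?_ (PosB_K_mean τ x)
  refine Finset.sum_congr rfl fun y _ => abs_of_nonneg ?_
  exact mul_nonneg (bw_nonneg (by norm_num) (by norm_num) y) (PosB_K_nonneg h0 h1 x y)

theorem PosB_T_eq {r : ℕ} (τ : ℝ) (f : (Fin r → Bool) → (Fin r → ℝ)) (x : Fin r → Bool)
    (i : Fin r) : PosB_T τ f x i =
      ∑ S : Finset (Fin r), τ ^ S.card * (fc (1 / 2) (fun y => f y i) S * chi (1 / 2) S x) := by
  unfold PosB_T fc Ex
  simp only [Finset.sum_apply, Pi.smul_apply, smul_eq_mul, PosB_K_eq, Finset.mul_sum,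
    Finset.sum_mul]
  rw [Finset.sum_comm]
  exact Finset.sum_congr rfl fun S _ => Finset.sum_congr rfl fun y _ => by ring

theorem PosB_rad {r : ℕ} (f : (Fin r → Bool) → (Fin r → ℝ)) (x : Fin r → Bool) (i : Fin r) :
    (radM f *ᵥ sr x) i = ∑ S : Finset (Fin r),
      (if S.card = 1 then 1 else 0) * (fc (1 / 2) (fun y => f y i) S * chi (1 / 2) S x) := by
  simp only [ite_mul, one_mul, zero_mul]
  rw [← Finset.sum_filter, ← Finset.powerset_univ, ← Finset.powersetCard_eq_filter,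
    Finset.powersetCard_one, Finset.sum_map]
  simp only [Matrix.mulVec, dotProduct, radM, Matrix.of_apply, Function.Embedding.coeFn_mk, fc,
    chi, Finset.prod_singleton, PosB_phi, sr]

theorem PosB_vand (k : ℕ) : ∃ c : Fin k → ℝ, ∀ n : ℕ, n < k →
    ∑ j : Fin k, c j * (j : ℝ) ^ n = if n = 1 then 1 else 0 := by
  set V := Matrix.vandermonde fun j : Fin k => ((j : ℕ) : ℝ) with hV
  have hd : V.det ≠ 0 := by
    rw [hV, Matrix.det_vandermonde_ne_zero_iff]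
    intro a b h
    exact Fin.ext (Nat.cast_injective (R := ℝ) h)
  refine ⟨(fun n : Fin k => if (n : ℕ) = 1 then (1 : ℝ) else 0) ᵥ* V⁻¹, fun n hn => ?_⟩
  have h : ((fun n : Fin k => if (n : ℕ) = 1 then (1 : ℝ) else 0) ᵥ* V⁻¹) ᵥ* V =
      fun n : Fin k => if (n : ℕ) = 1 then (1 : ℝ) else 0 := by
    rw [Matrix.vecMul_vecMul, Matrix.nonsing_inv_mul _ (isUnit_iff_ne_zero.2 hd),
      Matrix.vecMul_one]
  exact congrFun h ⟨n, hn⟩

theorem PosB_abs_le {r : ℕ} {g : (Fin r → Bool) → ℝ} {B : ℝ} (hB : 0 < B)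
    (h : Ex (1 / 2) (fun x => g x ^ 2) ≤ B ^ 2) : Ex (1 / 2) (fun x => |g x|) ≤ B := by
  have h1 : Ex (1 / 2) (fun x => (2 * B) * |g x|) ≤ Ex (1 / 2) (fun x => g x ^ 2 + B ^ 2) := by
    refine Ex_mono (by norm_num) (by norm_num) fun x => ?_
    nlinarith [sq_nonneg (|g x| - B), sq_abs (g x)]
  rw [Ex_const_mul, Ex_add, Ex_const] at h1
  nlinarith

/-- A Walsh multiplier bounded by `β` acting on a function bounded by `M`. -/
theorem PosB_mult {r : ℕ} {g : (Fin r → Bool) → ℝ} {b : Finset (Fin r) → ℝ} {β M : ℝ}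
    (hβ : 0 < β) (hM : 0 < M) (hb : ∀ S, |b S| ≤ β) (hg : ∀ x, |g x| ≤ M) :
    Ex (1 / 2) (fun x => |∑ S, b S * (fc (1 / 2) g S * chi (1 / 2) S x)|) ≤ β * M := by
  refine PosB_abs_le (by positivity) ?_
  have h1 := Ex_sq_sum_chi (p := 1 / 2) (by norm_num) (by norm_num)
    (Finset.univ : Finset (Finset (Fin r))) id (Set.injOn_id _) (fun S => b S * fc (1 / 2) g S)
  simp only [id, mul_assoc] at h1
  rw [h1]
  have h2 : Ex (1 / 2) (fun x => g x ^ 2) ≤ M ^ 2 := by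
    rw [← Ex_const (ι := Fin r) (1 / 2) (M ^ 2)]
    exact Ex_mono (by norm_num) (by norm_num) fun x => sq_le_sq' (abs_le.1 (hg x)).1
      (abs_le.1 (hg x)).2
  rw [parseval_sq (by norm_num) (by norm_num)] at h2
  calc ∑ S, (b S * fc (1 / 2) g S) ^ 2 ≤ ∑ S, β ^ 2 * fc (1 / 2) g S ^ 2 := by
        refine Finset.sum_le_sum fun S _ => ?_
        rw [mul_pow]
        exact mul_le_mul_of_nonneg_right (sq_le_sq' (abs_le.1 (hb S)).1 (abs_le.1 (hb S)).2)
          (sq_nonneg _)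
    _ = β ^ 2 * ∑ S, fc (1 / 2) g S ^ 2 := by rw [Finset.mul_sum]
    _ ≤ β ^ 2 * M ^ 2 := by gcongr
    _ = (β * M) ^ 2 := by ring

theorem kconvex {ε : ℝ} (hε : 0 < ε) : ∃ C : ℝ, 0 < C ∧ ∀ (r : ℕ), 1 ≤ r →
    ∀ (N : Seminorm ℝ (Fin r → ℝ)), (∀ y, N y ≤ ∑ i, |y i|) → (∀ y i, |y i| ≤ r * N y) →
    ∀ f : (Fin r → Bool) → (Fin r → ℝ), (∀ x, N (f x) ≤ 1) →
      Ex (1 / 2) (fun x => N (radM f *ᵥ sr x)) ≤ C * (r : ℝ) ^ ε := by
  obtain ⟨k, hk2, hkε⟩ : ∃ k : ℕ, 2 ≤ k ∧ 2 / (k : ℝ) ≤ ε := by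
    refine ⟨⌈2 / ε⌉₊ + 2, by omega, ?_⟩
    have h1 := Nat.le_ceil (2 / ε)
    rw [div_le_iff₀ hε] at h1
    rw [div_le_iff₀ (by positivity)]
    push_cast
    nlinarith
  obtain ⟨c, hc⟩ := PosB_vand k
  have hk0 : (0 : ℝ) < k := by exact_mod_cast (by omega : 0 < k)
  set C : ℝ := ∑ j, |c j| + 1 with hC
  have hC' : ∑ j, |c j| ≤ C := by rw [hC]; linarith
  have hC0 : 0 < C := by positivity
  refine ⟨2 * C * k, by positivity, fun r hr N hN1 hN2 f hf => ?_⟩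
  have hr1 : (1 : ℝ) ≤ r := by exact_mod_cast hr
  have hr0 : (0 : ℝ) < r := by linarith
  set δ : ℝ := (r : ℝ) ^ (-(2 / (k : ℝ))) with hδ
  have hδ0 : 0 < δ := Real.rpow_pos_of_pos hr0 _
  have hδ1 : δ ≤ 1 := Real.rpow_le_one_of_one_le_of_nonpos hr1 (by
    have : 0 ≤ 2 / (k : ℝ) := by positivity
    linarith)
  have hδk : δ ^ k * (r : ℝ) ^ 2 = 1 := by
    rw [hδ, ← Real.rpow_natCast, ← Real.rpow_mul hr0.le, ← Real.rpow_natCast,
      ← Real.rpow_add hr0]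
    have : -(2 / (k : ℝ)) * k + ((2 : ℕ) : ℝ) = 0 := by
      push_cast; field_simp; ring
    rw [this, Real.rpow_zero]
  set τ : ℝ := δ / k with hτ
  have hτ0 : 0 < τ := by positivity
  have hjτ : ∀ j : Fin k, (j : ℝ) * τ ≤ δ := fun j => by
    have : ((j : ℕ) : ℝ) ≤ k := by exact_mod_cast j.2.le
    calc (j : ℝ) * τ ≤ k * τ := by gcongr
      _ = δ := by rw [hτ]; field_simp
  set b : Finset (Fin r) → ℝ := fun S =>
    ∑ j : Fin k, c j * ((j : ℝ) * τ) ^ S.card - τ * (if S.card = 1 then 1 else 0) with hb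
  have hbb : ∀ S, |b S| ≤ C * δ ^ k := by
    intro S
    by_cases hS : S.card < k
    · have e : b S = 0 := by
        have h1 := hc _ hS
        have h2 : ∑ j : Fin k, c j * ((j : ℝ) * τ) ^ S.card =
            (∑ j : Fin k, c j * (j : ℝ) ^ S.card) * τ ^ S.card := by
          rw [Finset.sum_mul]
          exact Finset.sum_congr rfl fun j _ => by rw [mul_pow, mul_assoc]
        simp only [hb]
        rw [h2, h1]
        split_ifs with h3
        · rw [h3]; ring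
        · ring
      rw [e, abs_zero]
      positivity
    · have h1 : S.card ≠ 1 := by omega
      simp only [hb, h1, if_false, mul_zero, sub_zero]
      refine (Finset.abs_sum_le_sum_abs _ _).trans ?_
      calc ∑ j : Fin k, |c j * ((j : ℝ) * τ) ^ S.card| ≤ ∑ j : Fin k, |c j| * δ ^ k := by
            refine Finset.sum_le_sum fun j _ => ?_
            rw [abs_mul, abs_of_nonneg (by positivity : 0 ≤ ((j : ℝ) * τ) ^ S.card)]
            refine mul_le_mul_of_nonneg_left ?_ (abs_nonneg _)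
            exact (pow_le_pow_left₀ (by positivity) (hjτ j) _).trans
              (pow_le_pow_of_le_one hδ0.le hδ1 (by omega))
        _ = (∑ j, |c j|) * δ ^ k := by rw [Finset.sum_mul]
        _ ≤ C * δ ^ k := by gcongr
  set R : (Fin r → Bool) → Fin r → ℝ := fun x i =>
    ∑ S, b S * (fc (1 / 2) (fun y => f y i) S * chi (1 / 2) S x) with hR
  have hdec : ∀ x, τ • (radM f *ᵥ sr x) = ∑ j : Fin k, c j • PosB_T ((j : ℝ) * τ) f x - R x := by
    intro x
    funext i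
    simp only [Pi.smul_apply, Pi.sub_apply, Finset.sum_apply, smul_eq_mul, PosB_rad, PosB_T_eq,
      hR, hb, sub_mul, Finset.sum_sub_distrib, Finset.mul_sum, Finset.sum_mul]
    rw [Finset.sum_comm (s := (Finset.univ : Finset (Fin k)))]
    simp only [mul_assoc]
    ring
  have hpt : ∀ x, τ * N (radM f *ᵥ sr x) ≤ C + ∑ i, |R x i| := by
    intro x
    have h1 : τ * N (radM f *ᵥ sr x) = N (τ • (radM f *ᵥ sr x)) := by
      rw [map_smul_eq_mul, Real.norm_eq_abs, abs_of_pos hτ0]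
    rw [h1, hdec]
    refine (map_sub_le_add N _ _).trans (add_le_add ?_ (hN1 _))
    refine (PosB_N_sum N _ _ _ fun j _ => ?_).trans hC'
    exact PosB_T_le N (by positivity) ((hjτ j).trans hδ1) hf x
  have hEx := Ex_mono (p := 1 / 2) (by norm_num) (by norm_num) hpt
  rw [Ex_const_mul, Ex_add, Ex_const, Ex_sum] at hEx
  have hRi : ∀ i, Ex (1 / 2) (fun x => |R x i|) ≤ C * δ ^ k * r := fun i =>
    PosB_mult (by positivity) hr0 hbb fun x =>
      (hN2 _ i).trans (mul_le_of_le_one_right hr0.le (hf x))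
  have hsum : ∑ i, Ex (1 / 2) (fun x => |R x i|) ≤ C := by
    refine (Finset.sum_le_sum fun i _ => hRi i).trans (le_of_eq ?_)
    rw [Finset.sum_const, Finset.card_univ, Fintype.card_fin, nsmul_eq_mul]
    calc (r : ℝ) * (C * δ ^ k * r) = C * (δ ^ k * (r : ℝ) ^ 2) := by ring
      _ = C := by rw [hδk, mul_one]
  have hfin : 1 ≤ δ * (r : ℝ) ^ ε := by
    rw [hδ, ← Real.rpow_add hr0]
    exact Real.one_le_rpow hr1 (by linarith)
  refine le_of_mul_le_mul_left ?_ hτ0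
  calc τ * Ex (1 / 2) (fun x => N (radM f *ᵥ sr x)) ≤ 2 * C * 1 := by linarith
    _ ≤ 2 * C * (δ * (r : ℝ) ^ ε) := by gcongr
    _ = τ * (2 * C * k * (r : ℝ) ^ ε) := by rw [hτ]; field_simp

end Crest.Agent.R152
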