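import Crest.Agent.R152.PosDefs
import Crest.Agent.Lib.PL.PrekopaLeindler

/-! # Row 152: Urysohn's inequality for sign vectors and a Gaussian tail bound (RM7 c, d) -/

set_option autoImplicit false
open Matrix Filter MeasureTheory Topology
open Crest.Agent.Lib.BiasedCube

noncomputable section
namespace Crest.Agent.R152

/-- Flip one coin. -/
private def PosC_fl {r : ℕ} (i : Fin r) (x : Fin r → Bool) : Fin r → Bool :=
  fun j => if j = i then !x j else x j

/-- Reflect one coordinate. -/
private def PosC_rf {r : ℕ} (i : Fin r) (y : Fin r → ℝ) : Fin r → ℝ :=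
  fun j => if j = i then -y j else y j

private def PosC_K {r : ℕ} (h : (Fin r → Bool) → ℝ) : Set (Fin r → ℝ) :=
  {y | ∀ x, y ⬝ᵥ sr x ≤ h x}

private theorem PosC_fl_fl {r : ℕ} (i : Fin r) (x : Fin r → Bool) : PosC_fl i (PosC_fl i x) = x := by
  funext j; by_cases h : j = i <;> simp [PosC_fl, h]

private theorem PosC_fl_comm {r : ℕ} (i k : Fin r) (x : Fin r → Bool) :
    PosC_fl i (PosC_fl k x) = PosC_fl k (PosC_fl i x) := by
  funext j; by_cases h : j = i <;> by_cases h' : j = k <;> simp [PosC_fl, h, h']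
  all_goals split_ifs <;> simp_all

private theorem PosC_dot {r : ℕ} (i : Fin r) (y : Fin r → ℝ) (x : Fin r → Bool) :
    PosC_rf i y ⬝ᵥ sr (PosC_fl i x) = y ⬝ᵥ sr x := by
  refine Finset.sum_congr rfl fun j _ => ?_
  by_cases h : j = i
  · subst h
    cases hx : x j <;> simp [PosC_rf, PosC_fl, sr, sg, hx]
  · simp [PosC_rf, PosC_fl, sr, h]

private theorem PosC_meas {r : ℕ} (h : (Fin r → Bool) → ℝ) : MeasurableSet (PosC_K h) := by
  have : PosC_K h = ⋂ x, {y | y ⬝ᵥ sr x ≤ h x} := by ext y; simp [PosC_K]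
  rw [this]
  refine MeasurableSet.iInter fun x => (isClosed_le ?_ continuous_const).measurableSet
  unfold dotProduct
  fun_prop

private theorem PosC_mp {r : ℕ} (i : Fin r) : MeasurePreserving (PosC_rf i) volume volume := by
  refine volume_preserving_pi (f := fun j (t : ℝ) => if j = i then -t else t) fun j => ?_
  by_cases h : j = i
  · simp only [h, if_true]; exact Measure.measurePreserving_neg _
  · simp only [h, if_false]; exact MeasurePreserving.id _

private theorem PosC_step {r : ℕ} (i : Fin r) (h : (Fin r → Bool) → ℝ) :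
    volume (PosC_K h) ≤ volume (PosC_K fun x => (h x + h (PosC_fl i x)) / 2) := by
  have hA := PosC_meas h
  have hB : MeasurableSet (PosC_rf i ⁻¹' PosC_K h) := (PosC_mp i).measurable hA
  have hC := PosC_meas fun x => (h x + h (PosC_fl i x)) / 2
  have key := Crest.Agent.Lib.PL.prekopa_leindler_pi (a := 1 / 2) (b := 1 / 2) (by norm_num)
    (by norm_num) (by norm_num) (f := (PosC_K h).indicator 1)
    (g := (PosC_rf i ⁻¹' PosC_K h).indicator 1)
    (h := (PosC_K fun x => (h x + h (PosC_fl i x)) / 2).indicator 1)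
    (measurable_one.indicator hA) (measurable_one.indicator hB) (measurable_one.indicator hC) ?_
  · rw [lintegral_indicator_one hA, lintegral_indicator_one hB, lintegral_indicator_one hC,
      (PosC_mp i).measure_preimage hA.nullMeasurableSet,
      ← ENNReal.rpow_add_of_nonneg _ _ (by norm_num) (by norm_num)] at key
    norm_num at key
    exact key
  · intro x y
    by_cases hx : x ∈ PosC_K h
    · by_cases hy : y ∈ PosC_rf i ⁻¹' PosC_K h
      · have hm : (1 / 2 : ℝ) • x + (1 / 2 : ℝ) • y ∈
            PosC_K fun x => (h x + h (PosC_fl i x)) / 2 := by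
          intro s
          have h1 := hx s
          have h2 := hy (PosC_fl i s)
          rw [PosC_dot] at h2
          simp only [add_dotProduct, smul_dotProduct, smul_eq_mul]
          linarith
        simp [Set.indicator_of_mem hx, Set.indicator_of_mem hy, Set.indicator_of_mem hm, -one_div]
      · simp [Set.indicator_of_notMem hy]
    · simp [Set.indicator_of_notMem hx]

private theorem PosC_sum {r : ℕ} (i : Fin r) (h : (Fin r → Bool) → ℝ) :
    ∑ x, h (PosC_fl i x) = ∑ x, h x :=
  Equiv.sum_comp (Function.Involutive.toPerm _ (PosC_fl_fl i)) h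

private theorem PosC_ind {r : ℕ} (h : (Fin r → Bool) → ℝ) (A : Finset (Fin r)) :
    ∃ h' : (Fin r → Bool) → ℝ, volume (PosC_K h) ≤ volume (PosC_K h') ∧ ∑ x, h' x = ∑ x, h x ∧
      ∀ i ∈ A, ∀ x, h' (PosC_fl i x) = h' x := by
  induction A using Finset.induction_on with
  | empty => exact ⟨h, le_rfl, rfl, by simp⟩
  | insert j A _ ih =>
    obtain ⟨h', h1, h2, h3⟩ := ih
    refine ⟨fun x => (h' x + h' (PosC_fl j x)) / 2, h1.trans (PosC_step j h'), ?_, ?_⟩
    · rw [← Finset.sum_div, Finset.sum_add_distrib, PosC_sum, h2]; ring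
    · intro i hi x
      rcases Finset.mem_insert.1 hi with rfl | hi
      · simp only [PosC_fl_fl]; ring
      · simp only [PosC_fl_comm j i, h3 i hi]

private theorem PosC_const {r : ℕ} {h : (Fin r → Bool) → ℝ} (hh : ∀ i x, h (PosC_fl i x) = h x)
    (x y : Fin r → Bool) : h x = h y := by
  have : ∀ s : Finset (Fin r), ∀ x : Fin r → Bool, (∀ i, i ∉ s → x i = y i) → h x = h y := by
    intro s
    induction s using Finset.induction_on with
    | empty => intro x hx; rw [show x = y from funext fun i => hx i (by simp)]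
    | insert j s _ ih =>
      intro x hx
      by_cases hj : x j = y j
      · refine ih x fun i hi => ?_
        by_cases hij : i = j
        · rw [hij, hj]
        · exact hx i (by simp [hij, hi])
      · rw [← hh j x]
        refine ih _ fun i hi => ?_
        by_cases hij : i = j
        · subst hij
          cases hx' : x i <;> cases hy' : y i <;> simp_all [PosC_fl]
        · simp only [PosC_fl, hij, if_false]
          exact hx i (by simp [hij, hi])
  exact this Finset.univ x (by simp)

theorem urysohn_sign {r : ℕ} (hr : 1 ≤ r) (h : (Fin r → Bool) → ℝ) {a : ℝ} (ha : 0 < a)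
    (hE : Ex (1 / 2) h ≤ a) :
    volume {y : Fin r → ℝ | ∀ x, y ⬝ᵥ sr x ≤ h x} ≤
      ENNReal.ofReal ((2 * Real.exp 1 * a / r) ^ r) := by
  obtain ⟨h', h1, h2, h3⟩ := PosC_ind h Finset.univ
  have hc := PosC_const fun i => h3 i (Finset.mem_univ i)
  have hle : ∀ x, h' x ≤ a := by
    intro x
    have e1 : Ex (1 / 2) h = (1 / 2) ^ r * ∑ x, h x := by
      rw [Ex, Finset.mul_sum]
      refine Finset.sum_congr rfl fun y _ => ?_
      congr 1
      rw [Crest.FinProb.bernoulliWeight, Finset.prod_congr rfl (g := fun _ => (1 / 2 : ℝ))]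
      · simp
      · intro i _; split_ifs <;> norm_num
    have e2 : ∑ y, h' y = 2 ^ r * h' x := by
      rw [Finset.sum_congr rfl fun y _ => hc y x]
      simp
    rw [e1, ← h2, e2, ← mul_assoc, ← mul_pow] at hE
    simpa using hE
  have : Nonempty (Fin r) := ⟨⟨0, hr⟩⟩
  have hsub : PosC_K h' ⊆ {y : Fin r → ℝ | (∑ i, |y i| ^ (1 : ℝ)) ^ (1 / (1 : ℝ)) ≤ a} := by
    intro y hy
    have := (hy fun i => decide (0 ≤ y i)).trans (hle _)
    simp only [Set.mem_ofPred_eq, Real.rpow_one, div_one]
    refine le_trans (le_of_eq (Finset.sum_congr rfl fun i _ => ?_)) this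
    by_cases hi : 0 ≤ y i
    · simp [sr, sg, hi, abs_of_nonneg hi]
    · simp [sr, sg, hi, abs_of_neg (not_le.1 hi)]
  refine h1.trans ((measure_mono hsub).trans
    ((MeasureTheory.volume_sum_rpow_le (ι := Fin r) (p := 1) le_rfl a).le.trans ?_))
  rw [← ENNReal.ofReal_pow ha.le,
    ← ENNReal.ofReal_mul (by positivity)]
  refine ENNReal.ofReal_le_ofReal ?_
  simp only [Fintype.card_fin, div_one]
  rw [show (1 : ℝ) + 1 = 2 by norm_num, Real.Gamma_two, Real.Gamma_nat_eq_factorial, mul_one]
  have hr' : (0 : ℝ) < r := by exact_mod_cast hr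
  have k := Real.pow_div_factorial_le_exp (r : ℝ) hr'.le r
  have e : Real.exp r = Real.exp 1 ^ r := by rw [← Real.exp_nat_mul, mul_one]
  rw [e] at k
  calc a ^ r * (2 ^ r / (r.factorial : ℝ)) = (2 * a / r) ^ r * ((r : ℝ) ^ r / r.factorial) := by
        rw [div_pow, mul_pow]; field_simp
    _ ≤ (2 * a / r) ^ r * Real.exp 1 ^ r := by gcongr
    _ = _ := by rw [← mul_pow]; congr 1; ring

end Crest.Agent.R152
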