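import Crest.Agent.R152.PosDefs

/-! # Row 152: Gaussian measure of a norm ball from the Rademacher average (RM7 d) -/

set_option autoImplicit false
open Matrix Filter MeasureTheory Topology
open Crest.Agent.Lib.BiasedCube

noncomputable section
namespace Crest.Agent.R152

open ProbabilityTheory in
/-- product Gaussian density with mean `μ`. -/
private def pdW {r : ℕ} (μ y : Fin r → ℝ) : ℝ := ∏ i, gaussianPDFReal (μ i) 1 (y i)

open ProbabilityTheory in
private theorem pdW_int {r : ℕ} (μ : Fin r → ℝ) : Integrable (pdW μ) :=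
  Integrable.fintype_prod (f := fun i => gaussianPDFReal (μ i) 1)
    fun _ => integrable_gaussianPDFReal _ _

open ProbabilityTheory in
private theorem pdW_integral {r : ℕ} (μ : Fin r → ℝ) : ∫ y, pdW μ y = 1 := by
  unfold pdW
  rw [integral_fintype_prod_volume_eq_prod (fun i => gaussianPDFReal (μ i) 1)]
  exact Finset.prod_eq_one fun i _ => integral_gaussianPDFReal_eq_one _ one_ne_zero

open ProbabilityTheory in
private theorem pdW_nonneg {r : ℕ} (μ y : Fin r → ℝ) : 0 ≤ pdW μ y :=
  Finset.prod_nonneg fun _ _ => gaussianPDFReal_nonneg _ _ _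

open ProbabilityTheory in
private theorem pdW_eq {r : ℕ} (μ y : Fin r → ℝ) :
    pdW μ y = (1 / Real.sqrt (2 * Real.pi)) ^ r * Real.exp (-(1 / 2) * ∑ i, (y i - μ i) ^ 2) := by
  unfold pdW gaussianPDFReal
  rw [Finset.prod_mul_distrib, ← Real.exp_sum, Finset.mul_sum]
  simp only [NNReal.coe_one, mul_one, Finset.prod_const, Finset.card_univ, Fintype.card_fin,
    one_div]
  congr 2
  exact Finset.sum_congr rfl fun i _ => by ring

private theorem pdW_exp {r : ℕ} (i : Fin r) {s : ℝ} (hs : s ^ 2 = 1) (y : Fin r → ℝ) :
    Real.exp (s * y i) * pdW 0 y = Real.exp (1 / 2) * pdW (Pi.single i s) y := by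
  rw [pdW_eq, pdW_eq, mul_left_comm, mul_left_comm (Real.exp (1 / 2)), ← Real.exp_add,
    ← Real.exp_add]
  congr 2
  have : ∑ j, (y j - (Pi.single i s : Fin r → ℝ) j) ^ 2 =
      ∑ j, ((y j - (0 : Fin r → ℝ) j) ^ 2 + (Pi.single i (1 - 2 * s * y i) : Fin r → ℝ) j) := by
    refine Finset.sum_congr rfl fun j _ => ?_
    by_cases h : j = i
    · subst h
      simp only [Pi.single_eq_same, Pi.zero_apply]
      linear_combination hs
    · simp [Pi.single_eq_of_ne h]
  rw [this, Finset.sum_add_distrib, Finset.sum_pi_single']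
  simp only [Finset.mem_univ, if_true]
  ring

private theorem pd_sr_sq {r : ℕ} (x : Fin r → Bool) (i : Fin r) : sr x i = 1 ∨ sr x i = -1 := by
  unfold sr sg
  cases x i <;> simp

private theorem pd_two {r : ℕ} (N : Seminorm ℝ (Fin r → ℝ)) (u v : Fin r → ℝ) {M t : ℝ}
    (hM : 0 < M) (ht : |t| ≤ M) :
    N (u + t • v) + N (u - t • v) ≤ N (u + M • v) + N (u - M • v) := by
  obtain ⟨h1, h2⟩ := abs_le.1 ht
  have ha : 0 ≤ (M + t) / (2 * M) := div_nonneg (by linarith) (by linarith)
  have hb : 0 ≤ (M - t) / (2 * M) := div_nonneg (by linarith) (by linarith)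
  have hab : (M + t) / (2 * M) + (M - t) / (2 * M) = 1 := by field_simp; ring
  have e1 : u + t • v = ((M + t) / (2 * M)) • (u + M • v) + ((M - t) / (2 * M)) • (u - M • v) := by
    funext j
    simp only [Pi.add_apply, Pi.smul_apply, Pi.sub_apply, smul_eq_mul]
    field_simp
    ring
  have e2 : u - t • v = ((M - t) / (2 * M)) • (u + M • v) + ((M + t) / (2 * M)) • (u - M • v) := by
    funext j
    simp only [Pi.add_apply, Pi.smul_apply, Pi.sub_apply, smul_eq_mul]
    field_simp
    ring
  have i1 := map_add_le_add N (((M + t) / (2 * M)) • (u + M • v))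
    (((M - t) / (2 * M)) • (u - M • v))
  have i2 := map_add_le_add N (((M - t) / (2 * M)) • (u + M • v))
    (((M + t) / (2 * M)) • (u - M • v))
  rw [← e1] at i1
  rw [← e2] at i2
  simp only [map_smul_eq_mul, Real.norm_of_nonneg ha, Real.norm_of_nonneg hb] at i1 i2
  calc _ ≤ ((M + t) / (2 * M) + (M - t) / (2 * M)) * (N (u + M • v) + N (u - M • v)) := by
        linarith
    _ = _ := by rw [hab, one_mul]

private theorem pd_contr {r : ℕ} (N : Seminorm ℝ (Fin r → ℝ)) (y : Fin r → ℝ) {M : ℝ}
    (hM : 0 < M) (hy : ∀ i, |y i| ≤ M) :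
    Ex (1 / 2) (fun x => N (sr x * y)) ≤ M * Ex (1 / 2) (fun x => N (sr x)) := by
  have key : ∀ S : Finset (Fin r),
      Ex (1 / 2) (fun x => N (sr x * fun i => if i ∈ S then y i else M)) ≤
        M * Ex (1 / 2) (fun x => N (sr x)) := by
    intro S
    induction S using Finset.induction_on with
    | empty =>
      rw [← Ex_const_mul]
      refine le_of_eq (Ex_congr _ fun x => ?_)
      have : (sr x * fun i => if i ∈ (∅ : Finset (Fin r)) then y i else M) = M • sr x := by
        funext i
        simp [mul_comm]
      rw [this, map_smul_eq_mul, Real.norm_of_nonneg hM.le]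
    | insert e S he ih =>
      refine le_trans ?_ ih
      rw [Ex_split _ e, Ex_split _ e (fun x => N (sr x * fun i => if i ∈ S then y i else M))]
      refine Ex_mono (by norm_num) (by norm_num) fun x => ?_
      have h2 := pd_two N (Function.update (sr x * fun i => if i ∈ S then y i else M) e 0)
        (Pi.single e 1) hM (hy e)
      have e1 : ∀ (b : Bool) (T : Finset (Fin r)) (t : ℝ), (∀ i, i ≠ e → (i ∈ T ↔ i ∈ S)) →
          (if e ∈ T then y e else M) = t →
          (sr (Function.update x e b) * fun i => if i ∈ T then y i else M) =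
            Function.update (sr x * fun i => if i ∈ S then y i else M) e 0 +
              ((sg b : ℝ) * t) • (Pi.single e 1 : Fin r → ℝ) := by
        intro b T t hT ht
        funext i
        by_cases hi : i = e
        · subst hi
          simp [sr, ht]
        · simp [sr, Function.update_of_ne hi, Pi.single_eq_of_ne hi, hT i hi]
      rw [e1 true (insert e S) (y e) (fun i hi => by simp [hi]) (by simp),
        e1 false (insert e S) (y e) (fun i hi => by simp [hi]) (by simp),
        e1 true S M (fun i _ => Iff.rfl) (by simp [he]),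
        e1 false S M (fun i _ => Iff.rfl) (by simp [he])]
      simp only [sg, if_true, Bool.false_eq_true, if_false, Int.cast_one, one_mul, Int.cast_neg,
        neg_mul, neg_smul, ← sub_eq_add_neg]
      linarith
  simpa using key Finset.univ

theorem gauss_ball {r : ℕ} (hr : 1 ≤ r) (N : Seminorm ℝ (Fin r → ℝ))
    (h1 : Ex (1 / 2) (fun x => N (sr x)) ≤ 1) {lam : ℝ} (hlam : 0 < lam) :
    1 - (Real.log r + 4) / lam ≤ (1 / Real.sqrt (2 * Real.pi)) ^ r *
      ∫ y in {y : Fin r → ℝ | N y ≤ lam}, Real.exp (-(1 / 2) * ∑ i, y i ^ 2) := by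
  have hr0 : (0 : ℝ) < r := by exact_mod_cast hr
  have hlog : 0 ≤ Real.log r := Real.log_nonneg (by exact_mod_cast hr)
  have hNc : Continuous N := continuousOn_univ.1 (N.convexOn.continuousOn isOpen_univ)
  have hS : MeasurableSet {y : Fin r → ℝ | N y ≤ lam} :=
    (isClosed_le hNc continuous_const).measurableSet
  set h : (Fin r → ℝ) → ℝ := Set.indicator {y : Fin r → ℝ | N y ≤ lam}ᶜ (pdW 0) with hh
  have hint : Integrable h := (pdW_int 0).indicator hS.compl
  set M : (Fin r → ℝ) → ℝ := fun y =>
    Real.log r + (∑ i, (Real.exp (1 * y i) + Real.exp (-1 * y i))) / r with hM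
  have hMw : ∀ y, M y * pdW 0 y = Real.log r * pdW 0 y +
      ∑ i, Real.exp (1 / 2) / r * (pdW (Pi.single i 1) y + pdW (Pi.single i (-1)) y) := by
    intro y
    rw [hM, add_mul, Finset.sum_div, Finset.sum_mul]
    congr 1
    refine Finset.sum_congr rfl fun i _ => ?_
    have a1 := pdW_exp i (s := 1) (by norm_num) y
    have a2 := pdW_exp i (s := -1) (by norm_num) y
    linear_combination (a1 + a2) / r
  have hI1 : Integrable fun y : Fin r → ℝ => Real.log r * pdW 0 y := (pdW_int 0).const_mul _
  have hI2 : ∀ i : Fin r, Integrable fun y : Fin r → ℝ =>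
      Real.exp (1 / 2) / r * (pdW (Pi.single i 1) y + pdW (Pi.single i (-1)) y) :=
    fun i => ((pdW_int _).add (pdW_int _)).const_mul _
  have hMi : Integrable fun y => M y * pdW 0 y := by
    simp only [hMw]
    exact hI1.add (integrable_finsetSum _ fun i _ => hI2 i)
  have hMI : ∫ y, M y * pdW 0 y ≤ Real.log r + 4 := by
    simp only [hMw]
    rw [integral_add hI1 (integrable_finsetSum _ fun i _ => hI2 i),
      integral_finsetSum _ fun i _ => hI2 i]
    simp only [integral_const_mul, integral_add (pdW_int _) (pdW_int _), pdW_integral,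
      Finset.sum_const, Finset.card_univ, Fintype.card_fin, nsmul_eq_mul, mul_one]
    have e2 : Real.exp (1 / 2) ≤ 2 := by
      have a := Real.exp_one_lt_d9
      have b : Real.exp (1 / 2) * Real.exp (1 / 2) = Real.exp 1 := by
        rw [← Real.exp_add]; norm_num
      nlinarith [Real.exp_pos (1 / 2)]
    have e3 : (r : ℝ) * (Real.exp (1 / 2) / r * (1 + 1)) = 2 * Real.exp (1 / 2) := by
      field_simp; ring
    linarith
  have hMy : ∀ y i, |y i| ≤ M y := by
    intro y i
    have a1 : Real.exp (1 * y i) + Real.exp (-1 * y i) ≤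
        ∑ i, (Real.exp (1 * y i) + Real.exp (-1 * y i)) :=
      Finset.single_le_sum (f := fun i => Real.exp (1 * y i) + Real.exp (-1 * y i))
        (fun _ _ => by positivity) (Finset.mem_univ i)
    have a2 : Real.exp |y i| ≤ Real.exp (1 * y i) + Real.exp (-1 * y i) := by
      rcases abs_choice (y i) with h | h <;> rw [h]
      · rw [one_mul]; linarith [Real.exp_pos (-1 * y i)]
      · rw [neg_one_mul]; linarith [Real.exp_pos (1 * y i)]
    have a3 := Real.add_one_le_exp (|y i| - Real.log r)
    rw [Real.exp_sub, Real.exp_log hr0] at a3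
    have a4 := div_le_div_of_nonneg_right (a2.trans a1) hr0.le
    simp only [hM]
    linarith
  have hM0 : ∀ y, 0 < M y := by
    intro y
    have : Nonempty (Fin r) := ⟨⟨0, hr⟩⟩
    have a1 : 0 < ∑ i, (Real.exp (1 * y i) + Real.exp (-1 * y i)) :=
      Finset.sum_pos (fun _ _ => by positivity) Finset.univ_nonempty
    simp only [hM]
    positivity
  have hT : ∀ x : Fin r → Bool, MeasurePreserving (fun y : Fin r → ℝ => sr x * y) := by
    intro x
    refine volume_preserving_pi (f := fun i t => sr x i * t) fun i => ?_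
    rcases pd_sr_sq x i with h | h <;> rw [h]
    · simp only [one_mul]
      exact MeasurePreserving.id (volume : Measure ℝ)
    · simpa using Measure.measurePreserving_neg (volume : Measure ℝ)
  have hTw : ∀ (x : Fin r → Bool) (y : Fin r → ℝ), pdW 0 (sr x * y) = pdW 0 y := by
    intro x y
    rw [pdW_eq, pdW_eq]
    congr 3
    refine Finset.sum_congr rfl fun i _ => ?_
    rcases pd_sr_sq x i with h | h <;> simp [h]
  have hTi : ∀ x : Fin r → Bool, Integrable fun y => h (sr x * y) :=
    fun x => (hT x).integrable_comp_of_integrable hint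
  have hTI : ∀ x : Fin r → Bool, ∫ y, h (sr x * y) = ∫ y, h y := by
    intro x
    have := integral_map (μ := volume) (hT x).measurable.aemeasurable
      (f := h) (by rw [(hT x).map_eq]; exact hint.aestronglyMeasurable)
    rw [(hT x).map_eq] at this
    exact this.symm
  have hpt : ∀ y, Ex (1 / 2) (fun x => h (sr x * y)) ≤ lam⁻¹ * (M y * pdW 0 y) := by
    intro y
    have w0 := pdW_nonneg 0 y
    calc _ ≤ Ex (1 / 2) (fun x => lam⁻¹ * pdW 0 y * N (sr x * y)) := by
          refine Ex_mono (by norm_num) (by norm_num) fun x => ?_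
          by_cases hx : N (sr x * y) ≤ lam
          · rw [hh, Set.indicator_of_notMem (by simpa using hx)]
            positivity
          · rw [hh, Set.indicator_of_mem (by simpa using hx), hTw]
            have a1 : 1 ≤ lam⁻¹ * N (sr x * y) := by
              rw [← div_eq_inv_mul, le_div_iff₀ hlam]
              linarith [not_le.1 hx]
            nlinarith
      _ ≤ lam⁻¹ * pdW 0 y * M y := by
          rw [Ex_const_mul]
          refine mul_le_mul_of_nonneg_left ((pd_contr N y (hM0 y) (hMy y)).trans ?_) (by positivity)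
          exact mul_le_of_le_one_right (hM0 y).le h1
      _ = _ := by ring
  have hfin : ∫ y, h y ≤ (Real.log r + 4) / lam := by
    calc ∫ y, h y = Ex (1 / 2) (fun x : Fin r → Bool => ∫ y, h (sr x * y)) := by
          simp only [hTI, Ex_const]
      _ = ∫ y, Ex (1 / 2) (fun x => h (sr x * y)) := by
          unfold Ex
          rw [integral_finsetSum _ fun x _ => (hTi x).const_mul _]
          simp only [integral_const_mul]
      _ ≤ ∫ y, lam⁻¹ * (M y * pdW 0 y) := by
          refine integral_mono ?_ (hMi.const_mul _) hpt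
          unfold Ex
          exact integrable_finsetSum _ fun x _ => (hTi x).const_mul _
      _ ≤ _ := by
          rw [integral_const_mul, div_eq_inv_mul]
          exact mul_le_mul_of_nonneg_left hMI (by positivity)
  have hsplit := integral_add_compl hS (pdW_int (0 : Fin r → ℝ))
  rw [pdW_integral, ← integral_indicator hS.compl] at hsplit
  rw [← integral_const_mul]
  have e : ∀ y : Fin r → ℝ, (1 / Real.sqrt (2 * Real.pi)) ^ r *
      Real.exp (-(1 / 2) * ∑ i, y i ^ 2) = pdW 0 y := by
    intro y
    simp [pdW_eq]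
  simp only [e]
  linarith

end Crest.Agent.R152
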