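import Crest.Agent.R152.PosA
import Crest.Agent.R152.PosB
import Crest.Agent.R152.PosC
import Crest.Agent.R152.PosD

/-! # Row 152: the position lemma (DESIGN.md, RM7) -/

set_option autoImplicit false
open Matrix Filter MeasureTheory Topology
open Crest.Agent.Lib.BiasedCube

noncomputable section
namespace Crest.Agent.R152

private theorem RMPos_gauge {r : ℕ} {K : Set (Fin r → ℝ)} (hK : IsCompact K) (hc : Convex ℝ K)
    (hs : ∀ x ∈ K, -x ∈ K) (h0 : K ∈ 𝓝 (0 : Fin r → ℝ)) :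
    ∃ N : Seminorm ℝ (Fin r → ℝ), (∀ y, N y = 0 → y = 0) ∧ Continuous N ∧ K = {y | N y ≤ 1} := by
  have hb : Balanced ℝ K := (balanced_iff_neg_mem hc).2 hs
  have ha : Absorbent ℝ K := absorbent_nhds_zero h0
  refine ⟨gaugeSeminorm hb hc ha, fun y hy => (gauge_eq_zero ha (hK.isVonNBounded ℝ)).1 hy,
    continuous_gauge hc h0, ?_⟩
  ext y
  change _ ↔ gauge K y ≤ 1
  rw [gauge_le_one_iff_mem_closure hc h0, hK.isClosed.closure_eq]

private theorem RMPos_vol {ε : ℝ} (hε : 0 < ε) : ∃ C : ℝ, 0 < C ∧ ∀ r : ℕ, 1 ≤ r →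
    ∀ N : Seminorm ℝ (Fin r → ℝ), (∀ y, N y = 0 → y = 0) → Continuous N →
      1 ≤ volume {y | N y ≤ 1} → ∃ T : Matrix (Fin r) (Fin r) ℝ, 0 < T.det ∧
        Ex (1 / 2) (fun x => N (T *ᵥ sr x)) ≤ 1 ∧ T.det⁻¹ ≤ (C * (r : ℝ) ^ ε) ^ r := by
  obtain ⟨C, hC, hk⟩ := kconvex hε
  refine ⟨2 * Real.exp 1 * C, by positivity, fun r hr N hN hNc hvol => ?_⟩
  obtain ⟨T, hT, h1, h2⟩ := lewis N hN
  refine ⟨T, hT, h1, ?_⟩
  have hr0 : (0 : ℝ) < r := by exact_mod_cast hr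
  let N₁ : Seminorm ℝ (Fin r → ℝ) := N.comp (Matrix.toLin' T)
  have hN₁ : ∀ y, N₁ y = N (T *ᵥ y) := fun _ => rfl
  obtain ⟨h3, h4⟩ := lewis_compare N₁ h1 h2
  have hc₁ : Continuous N₁ := hNc.comp (Matrix.toLin' T).continuous_of_finiteDimensional
  have hK₁ : IsCompact {y | N₁ y ≤ 1} := by
    refine (isCompact_Icc (a := fun _ : Fin r => -(r : ℝ)) (b := fun _ => (r : ℝ))).of_isClosed_subset
      (isClosed_le hc₁ continuous_const) fun y hy => ?_
    have : ∀ i, |y i| ≤ r := fun i => (h4 y i).trans (mul_le_of_le_one_right hr0.le hy)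
    exact ⟨fun i => (abs_le.1 (this i)).1, fun i => (abs_le.1 (this i)).2⟩
  have hmax : ∀ x : Fin r → Bool, ∃ y ∈ {y | N₁ y ≤ 1},
      IsMaxOn (fun y : Fin r → ℝ => y ⬝ᵥ sr x) {y | N₁ y ≤ 1} y := fun x =>
    hK₁.exists_isMaxOn ⟨0, by simp⟩ (by fun_prop)
  choose f hf hfm using hmax
  have h5 : Ex (1 / 2) (fun x => f x ⬝ᵥ sr x) = (radM f).trace := by
    simp only [dotProduct, Ex_sum, Matrix.trace, Matrix.diag, radM, Matrix.of_apply]
  have h6 : Ex (1 / 2) (fun x => f x ⬝ᵥ sr x) ≤ r * (C * (r : ℝ) ^ ε) := by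
    rw [h5]
    exact (h2 _).trans (mul_le_mul_of_nonneg_left (hk r hr N₁ h3 h4 f hf) hr0.le)
  have h7 := urysohn_sign hr _ (by positivity) h6
  have h8 : volume {y | N₁ y ≤ 1} ≤ volume {y : Fin r → ℝ | ∀ x, y ⬝ᵥ sr x ≤ f x ⬝ᵥ sr x} :=
    measure_mono fun y hy x => hfm x hy
  have h9 : volume {y | N₁ y ≤ 1} = ENNReal.ofReal |T.det⁻¹| * volume {y | N y ≤ 1} := by
    rw [← LinearMap.det_toLin' T]
    exact Measure.addHaar_preimage_linearMap volume (f := Matrix.toLin' T)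
      (by rw [LinearMap.det_toLin']; exact hT.ne') {y | N y ≤ 1}
  have h10 : ENNReal.ofReal |T.det⁻¹| ≤
      ENNReal.ofReal ((2 * Real.exp 1 * (r * (C * (r : ℝ) ^ ε)) / r) ^ r) :=
    (le_mul_of_one_le_right' hvol).trans (h9.symm.le.trans (h8.trans h7))
  rw [ENNReal.ofReal_le_ofReal_iff (by positivity), abs_of_pos (inv_pos.2 hT)] at h10
  refine h10.trans (le_of_eq ?_)
  congr 1
  field_simp

private theorem RMPos_cov {r : ℕ} (L : Matrix (Fin r) (Fin r) ℝ) (hL : 0 < L.det)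
    {B : Set (Fin r → ℝ)} (hB : MeasurableSet B) {g : (Fin r → ℝ) → ℝ} (hg : Continuous g) :
    L.det * ∫ x in (fun x => L *ᵥ x) ⁻¹' B, g (L *ᵥ x) = ∫ y in B, g y := by
  have hd : LinearMap.det (Matrix.toLin' L) ≠ 0 := by rw [LinearMap.det_toLin']; exact hL.ne'
  have h1 := Measure.map_linearMap_addHaar_eq_smul_addHaar (volume : Measure (Fin r → ℝ)) hd
  have h2 := setIntegral_map (μ := (volume : Measure (Fin r → ℝ))) (g := Matrix.toLin' L) (f := g) hB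
    hg.aestronglyMeasurable
    (Matrix.toLin' L).continuous_of_finiteDimensional.measurable.aemeasurable
  rw [h1, Measure.restrict_smul, integral_smul_measure, LinearMap.det_toLin',
    ENNReal.toReal_ofReal (abs_nonneg _), abs_of_pos (inv_pos.2 hL), smul_eq_mul] at h2
  have h3 : ∫ x in (fun x => L *ᵥ x) ⁻¹' B, g (L *ᵥ x) = L.det⁻¹ * ∫ y in B, g y := h2.symm
  rw [h3, mul_inv_cancel_left₀ hL.ne']

/-- Every symmetric convex body of volume at least one has a unimodular position in which its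
dilate by `n^ε` has Gaussian measure almost one. -/
theorem position {ε η : ℝ} (hε : 0 < ε) (hη : 0 < η) : ∀ᶠ n : ℕ in atTop, ∀ r : ℕ, 1 ≤ r → r ≤ n →
    ∀ K : Set (V (Fin r)), IsCompact K → Convex ℝ K → (∀ x ∈ K, -x ∈ K) → K ∈ 𝓝 (0 : V (Fin r)) →
      1 ≤ volume K → ∃ M : Matrix (Fin r) (Fin r) ℝ, M.det = 1 ∧
        1 - η ≤ ((n : ℝ) ^ ε / Real.sqrt (2 * Real.pi)) ^ r *
          ∫ x in K, Real.exp (-(((n : ℝ) ^ ε) ^ 2 / 2) * ∑ i, ((M *ᵥ x.ofLp) i) ^ 2) := by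
  obtain ⟨C, hC, hvol⟩ := RMPos_vol (half_pos hε)
  have hc : 0 < η / (2 * C) := by positivity
  have e1 : ∀ᶠ n : ℕ in atTop, ‖Real.log n‖ ≤ η / (2 * C) * ‖(n : ℝ) ^ (ε / 2)‖ :=
    tendsto_natCast_atTop_atTop.eventually ((isLittleO_log_rpow_atTop (half_pos hε)).def hc)
  have e2 : ∀ᶠ n : ℕ in atTop, 4 / (η / (2 * C)) ≤ (n : ℝ) ^ (ε / 2) :=
    ((tendsto_rpow_atTop (half_pos hε)).comp tendsto_natCast_atTop_atTop).eventually_ge_atTop _
  filter_upwards [e1, e2] with n hn1 hn2 r hr hrn K hK hconv hsym h0 hv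
  have hr0 : (0 : ℝ) < r := by exact_mod_cast hr
  have hrn' : (r : ℝ) ≤ n := by exact_mod_cast hrn
  have hn0 : (0 : ℝ) < n := hr0.trans_le hrn'
  let e : V (Fin r) ≃L[ℝ] (Fin r → ℝ) := EuclideanSpace.equiv (Fin r) ℝ
  set K' : Set (Fin r → ℝ) := WithLp.toLp 2 ⁻¹' K with hK'
  have hK'c : IsCompact K' := e.symm.toHomeomorph.isCompact_preimage.2 hK
  have hK'v : Convex ℝ K' := hconv.linear_preimage (e.symm : (Fin r → ℝ) →ₗ[ℝ] V (Fin r))
  have hK's : ∀ x ∈ K', -x ∈ K' := fun x hx => hsym _ hx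
  have hK'0 : K' ∈ 𝓝 (0 : Fin r → ℝ) :=
    e.symm.continuous.continuousAt.preimage_mem_nhds (by simpa using h0)
  have hvol' : volume K' = volume K :=
    (PiLp.volume_preserving_toLp (Fin r)).measure_preimage hK.measurableSet.nullMeasurableSet
  obtain ⟨N, hN, hNc, hKN⟩ := RMPos_gauge hK'c hK'v hK's hK'0
  obtain ⟨T, hT, h1, h2⟩ := hvol r hr N hN hNc (by rw [← hKN, hvol']; exact hv)
  set lam : ℝ := T.det ^ ((r : ℝ)⁻¹) with hlam
  have hlam0 : 0 < lam := Real.rpow_pos_of_pos hT _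
  have hlamr : lam ^ r = T.det := Real.rpow_inv_natCast_pow hT.le (by omega)
  have hA : 0 < C * (r : ℝ) ^ (ε / 2) := by positivity
  have hlamA : lam⁻¹ ≤ C * (r : ℝ) ^ (ε / 2) := by
    rw [← hlamr, ← inv_pow] at h2
    exact (pow_le_pow_iff_left₀ (by positivity) hA.le (by omega)).1 h2
  set t : ℝ := (n : ℝ) ^ ε with ht
  have ht0 : 0 < t := by positivity
  have hdet : (lam • T⁻¹).det = 1 := by
    rw [Matrix.det_smul, Fintype.card_fin, hlamr, Matrix.det_nonsing_inv, Ring.inverse_eq_inv',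
      mul_inv_cancel₀ hT.ne']
  refine ⟨lam • T⁻¹, hdet, ?_⟩
  let N₁ : Seminorm ℝ (Fin r → ℝ) := N.comp (Matrix.toLin' T)
  have hN₁ : ∀ y, N₁ y = N (T *ᵥ y) := fun _ => rfl
  have hc₁ : Continuous N₁ := hNc.comp (Matrix.toLin' T).continuous_of_finiteDimensional
  have hg := gauss_ball hr N₁ h1 (mul_pos ht0 hlam0)
  have hL : (t • lam • T⁻¹).det = t ^ r := by
    rw [Matrix.det_smul, Fintype.card_fin, hdet, mul_one]
  have hcov := RMPos_cov (t • lam • T⁻¹) (by rw [hL]; positivity)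
    (B := {y | N₁ y ≤ t * lam}) (isClosed_le hc₁ continuous_const).measurableSet
    (g := fun y => Real.exp (-(1 / 2) * ∑ i, y i ^ 2)) (by fun_prop)
  have hpre : (fun x => (t • lam • T⁻¹) *ᵥ x) ⁻¹' {y | N₁ y ≤ t * lam} = K' := by
    rw [hKN]
    ext x
    simp only [Set.mem_preimage, Set.mem_ofPred_eq, hN₁, Matrix.smul_mulVec, Matrix.mulVec_smul,
      Matrix.mulVec_mulVec, Matrix.mul_nonsing_inv T (isUnit_iff_ne_zero.2 hT.ne'),
      Matrix.one_mulVec, map_smul_eq_mul, Real.norm_of_nonneg ht0.le,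
      Real.norm_of_nonneg hlam0.le, ← mul_assoc]
    exact mul_le_iff_le_one_right (mul_pos ht0 hlam0)
  have hint : ∫ x in K, Real.exp (-(t ^ 2 / 2) * ∑ i, (((lam • T⁻¹) *ᵥ x.ofLp) i) ^ 2) =
      ∫ x in K', Real.exp (-(1 / 2) * ∑ i, ((t • lam • T⁻¹) *ᵥ x) i ^ 2) := by
    rw [← (PiLp.volume_preserving_toLp (Fin r)).setIntegral_preimage_emb
      (MeasurableEquiv.toLp 2 (Fin r → ℝ)).measurableEmbedding]
    refine integral_congr_ae (Eventually.of_forall fun x => ?_)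
    simp only [Matrix.smul_mulVec t, Pi.smul_apply, smul_eq_mul, mul_pow, ← Finset.mul_sum]
    congr 1
    ring
  rw [hpre, hL] at hcov
  rw [hint, div_eq_mul_one_div t, mul_pow, mul_comm (t ^ r), mul_assoc, hcov]
  refine le_trans ?_ hg
  have h3 : Real.log r ≤ Real.log n := Real.log_le_log hr0 hrn'
  have h4 : (r : ℝ) ^ (ε / 2) ≤ (n : ℝ) ^ (ε / 2) := Real.rpow_le_rpow hr0.le hrn' (half_pos hε).le
  have h5 : t = (n : ℝ) ^ (ε / 2) * (n : ℝ) ^ (ε / 2) := by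
    rw [← Real.rpow_add hn0, add_halves]
  set s : ℝ := (n : ℝ) ^ (ε / 2) with hs
  have hs0 : 0 < s := by positivity
  rw [Real.norm_of_nonneg hs0.le] at hn1
  have h6 : Real.log n ≤ η / (2 * C) * s := (le_abs_self _).trans hn1
  rw [div_le_iff₀' hc] at hn2
  have h7 : Real.log r + 4 ≤ η / C * s := by
    have : η / C * s = η / (2 * C) * s + η / (2 * C) * s := by field_simp; ring
    linarith
  have h8 : lam⁻¹ ≤ C * s := hlamA.trans (mul_le_mul_of_nonneg_left h4 hC.le)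
  have h9 : (Real.log r + 4) / (t * lam) ≤ η := by
    rw [div_le_iff₀ (mul_pos ht0 hlam0)]
    refine h7.trans ?_
    rw [inv_le_iff_one_le_mul₀ hlam0] at h8
    calc η / C * s = η / C * s * 1 := (mul_one _).symm
      _ ≤ η / C * s * (C * s * lam) := by gcongr
      _ = η * (t * lam) := by rw [h5]; field_simp
  linarith

end Crest.Agent.R152
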