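import Crest.Agent.R152.RMProd

/-! # Row 152, reverse Minkowski: the boundary case -/

set_option autoImplicit false
open Filter MeasureTheory Topology Set

noncomputable section
namespace Crest.Agent.R152

variable {r : ℕ} {t : ℝ}

/-- `W = rsp N`, `f₁`, `f₂` from `exists_coord` for `W` and `Wᗮ`; `Λ₁ = img f₁ (sec Λ W)`,
`Λ₂ = img f₂ (img (prj W) Λ)` (`Stab.map_iso`, `Stab.quot`, `rsp_img`, `rsp_sec_rsp`).  The set
`f₁ ⁻¹' voro Λ₁ ∩ f₂ ⁻¹' voro Λ₂` is a packing set for `Λ`: if `x - y = v ∈ Λ` then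
`f₂ v = f₂ (prj W v) ∈ Λ₂`, so `f₂ v = 0`, `v ∈ sec Λ W`, `f₁ v ∈ Λ₁`, so `f₁ v = 0`, `v = 0`.
`gm_le_of_pack`, `gm_prod`, `IsLat.gm_voro`. -/
theorem split_case (ht : 0 < t) {Λ N : Submodule ℤ (V (Fin r))} (h : Stab Λ) (hf : rsp Λ = ⊤)
    (hN : N ≤ Λ) (h1 : cov N ≤ 1) :
    ∃ (Λ₁ : Submodule ℤ (V (Fin (rk N)))) (Λ₂ : Submodule ℤ (V (Fin (r - rk N)))),
      Stab Λ₁ ∧ rsp Λ₁ = ⊤ ∧ Stab Λ₂ ∧ rsp Λ₂ = ⊤ ∧
        gm t (vor Λ₁) * gm t (vor Λ₂) ≤ gm t (vor Λ) := by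
  have hk1 : Module.finrank ℝ (rsp N) = rk N := rfl
  have hsum : rk N + Module.finrank ℝ (rsp N)ᗮ = r := by
    have := Submodule.finrank_add_finrank_orthogonal (rsp N)
    rwa [finrank_euclideanSpace_fin] at this
  have hk2 : Module.finrank ℝ (rsp N)ᗮ = r - rk N := by omega
  obtain ⟨f₁, hf₁, hs₁⟩ := exists_coord (rsp N) hk1
  obtain ⟨f₂, hf₂, hs₂⟩ := exists_coord (rsp N)ᗮ hk2
  have hprj : ∀ x, prj (rsp N) x = (rsp N)ᗮ.starProjection x := fun _ => rfl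
  have hsec : Stab (sec Λ (rsp N)) :=
    ⟨h.1.sub (sec_le _ _), fun N' hN' => h.2 N' (hN'.trans (sec_le _ _))⟩
  have hq : rsp (img (prj (rsp N)) Λ) = (rsp N)ᗮ := by
    rw [rsp_img, hf]
    refine le_antisymm ?_ fun x hx => ⟨x, trivial, ?_⟩
    · rintro _ ⟨x, -, rfl⟩
      exact l2b_prj_mem _ x
    · rw [hprj]
      exact Submodule.starProjection_eq_self_iff.2 hx
  have hS₁ : Stab (img f₁ (sec Λ (rsp N))) := by
    refine hsec.map_iso f₁ fun x hx => ?_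
    rw [rsp_sec_rsp hN] at hx
    rw [hf₁, Submodule.starProjection_eq_self_iff.2 hx]
  have hS₂ : Stab (img f₂ (img (prj (rsp N)) Λ)) := by
    refine (h.quot hN h1).map_iso f₂ fun x hx => ?_
    rw [hq] at hx
    rw [hf₂, Submodule.starProjection_eq_self_iff.2 hx]
  have hz₂ : ∀ v, f₂ v = 0 ↔ v ∈ rsp N := fun v => by
    rw [← norm_eq_zero, hf₂, norm_eq_zero, ← hprj, prj_eq_zero_iff]
  have hn : ∀ x, ‖x‖ ^ 2 = ‖f₁ x‖ ^ 2 + ‖f₂ x‖ ^ 2 := fun x => by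
    rw [hf₁, hf₂]
    exact Submodule.norm_sq_eq_add_norm_sq_starProjection x (rsp N)
  refine ⟨_, _, hS₁, ?_, hS₂, ?_, ?_⟩
  · rw [rsp_img, rsp_sec_rsp hN, hs₁]
  · rw [rsp_img, hq, hs₂]
  · have hm₁ := hS₁.1.measurableSet_voro
    have hm₂ := hS₂.1.measurableSet_voro
    rw [← hS₁.1.gm_voro, ← hS₂.1.gm_voro, ← gm_prod ht (by omega) f₁ f₂ hn hm₁ hm₂]
    refine gm_le_of_pack ht h.1 ?_ ?_
    · exact (f₁.continuous_of_finiteDimensional.measurable hm₁).inter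
        (f₂.continuous_of_finiteDimensional.measurable hm₂)
    · rintro x ⟨hx₁, hx₂⟩ y ⟨hy₁, hy₂⟩ hv
      have e₂ : f₂ x = f₂ y := by
        refine pack_voro _ _ hx₂ _ hy₂ ⟨prj (rsp N) (x - y), ⟨x - y, hv, rfl⟩, ?_⟩
        have h0 := (hz₂ _).2 (sub_prj_mem (rsp N) (x - y))
        rw [map_sub, sub_eq_zero] at h0
        change f₂ (prj (rsp N) (x - y)) = _
        rw [← h0, map_sub]
      have h2 : f₂ (x - y) = 0 := by rw [map_sub, e₂, sub_self]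
      have e₁ : f₁ x = f₁ y := by
        refine pack_voro _ _ hx₁ _ hy₁ ⟨x - y, ⟨hv, (hz₂ _).1 h2⟩, ?_⟩
        exact map_sub f₁ x y
      have h1' : f₁ (x - y) = 0 := by rw [map_sub, e₁, sub_self]
      have h3 := hn (x - y)
      rw [h1', h2, norm_zero, norm_zero] at h3
      have h4 : ‖x - y‖ = 0 := by
        have : ‖x - y‖ ^ 2 = 0 := by rw [h3]; norm_num
        exact pow_eq_zero_iff (two_ne_zero) |>.1 this
      exact sub_eq_zero.1 (norm_eq_zero.1 h4)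

end Crest.Agent.R152
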