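import Crest.Agent.R152.RMGm

/-! # Row 152, reverse Minkowski: the theta bound -/

set_option autoImplicit false
open Filter MeasureTheory Topology Set

noncomputable section
namespace Crest.Agent.R152

variable {r : ℕ} {t : ℝ}

theorem RMTheta_meas {K : Set (V (Fin r))} (hK : MeasurableSet K) (v : V (Fin r)) :
    MeasurableSet {x | x - v ∈ K} := (measurable_sub_const v) hK

theorem RMTheta_shift {K : Set (V (Fin r))} (hK : MeasurableSet K) (v : V (Fin r))
    (f : V (Fin r) → ℝ) : ∫ x in {x | x - v ∈ K}, f x = ∫ x in K, f (x + v) := by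
  rw [← integral_indicator (RMTheta_meas hK v), ← integral_indicator hK,
    ← integral_add_right_eq_self _ v]
  congr 1
  funext x
  by_cases hx : x ∈ K
  · rw [indicator_of_mem hx, indicator_of_mem (by simpa using hx)]
  · rw [indicator_of_notMem hx, indicator_of_notMem (by simpa using hx)]

theorem RMTheta_neg {K : Set (V (Fin r))} (hK : MeasurableSet K) (hs : ∀ x ∈ K, -x ∈ K)
    (f : V (Fin r) → ℝ) : ∫ x in K, f x = ∫ x in K, f (-x) := by
  rw [← integral_indicator hK, ← integral_indicator hK, ← integral_neg_eq_self]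
  congr 1
  funext x
  by_cases hx : x ∈ K
  · rw [indicator_of_mem hx, indicator_of_mem (hs x hx)]
  · rw [indicator_of_notMem hx, indicator_of_notMem fun h => hx (by simpa using hs _ h)]

theorem RMTheta_cosh (a : ℝ) (x v : V (Fin r)) :
    2 * (Real.exp (-a * ‖v‖ ^ 2) * Real.exp (-a * ‖x‖ ^ 2)) ≤
      Real.exp (-a * ‖x + v‖ ^ 2) + Real.exp (-a * ‖-x + v‖ ^ 2) := by
  rw [norm_add_sq_real, norm_add_sq_real, inner_neg_left, norm_neg, ← Real.exp_add]
  obtain ⟨s, hs⟩ : ∃ s, s = 2 * a * inner ℝ x v := ⟨_, rfl⟩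
  have e1 : -a * (‖x‖ ^ 2 + 2 * inner ℝ x v + ‖v‖ ^ 2) = -a * ‖v‖ ^ 2 + -a * ‖x‖ ^ 2 + -s := by
    rw [hs]; ring
  have e2 : -a * (‖x‖ ^ 2 + 2 * -inner ℝ x v + ‖v‖ ^ 2) = -a * ‖v‖ ^ 2 + -a * ‖x‖ ^ 2 + s := by
    rw [hs]; ring
  rw [e1, e2, Real.exp_add _ s, Real.exp_add _ (-s), ← mul_add (Real.exp _), mul_comm]
  refine mul_le_mul_of_nonneg_left ?_ (Real.exp_pos _).le
  linarith [Real.add_one_le_exp s, Real.add_one_le_exp (-s)]

/-- For a symmetric set, `∫_K e^{-a‖x+v‖²} = ∫_K (e^{-a‖x+v‖²} + e^{-a‖x-v‖²})/2 ≥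
e^{-a‖v‖²} ∫_K e^{-a‖x‖²}` (`cosh ≥ 1`). -/
theorem gm_translate (ht : 0 < t) {K : Set (V (Fin r))} (hK : MeasurableSet K)
    (hs : ∀ x ∈ K, -x ∈ K) (v : V (Fin r)) :
    Real.exp (-(t ^ 2 / 2) * ‖v‖ ^ 2) * gm t K ≤ gm t {x | x - v ∈ K} := by
  have hi := integrable_gauss (r := r) ht
  have h1 := hi.comp_add_right v
  have h2 := h1.comp_neg
  have h3 := RMTheta_neg hK hs fun x => Real.exp (-(t ^ 2 / 2) * ‖x + v‖ ^ 2)
  have h4 := setIntegral_mono ((hi.const_mul (Real.exp (-(t ^ 2 / 2) * ‖v‖ ^ 2))).const_mul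
    2).integrableOn (h1.add h2).integrableOn (s := K) fun x => RMTheta_cosh (t ^ 2 / 2) x v
  simp only [Pi.add_apply] at h4
  rw [integral_add h1.integrableOn h2.integrableOn, integral_const_mul, integral_const_mul,
    ← h3] at h4
  rw [gm, gm, RMTheta_shift hK, mul_left_comm]
  exact mul_le_mul_of_nonneg_left (by linarith) (by positivity)

/-- The translates of `voro Λ` are disjoint and the total mass is one
(`integral_biUnion_finset`, `setIntegral_le_integral`). -/
theorem theta_bound (ht : 0 < t) {Λ : Submodule ℤ (V (Fin r))} (h : IsLat Λ)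
    (S : Finset (V (Fin r))) (hS : ∀ v ∈ S, v ∈ Λ) :
    (∑ v ∈ S, Real.exp (-(t ^ 2 / 2) * ‖v‖ ^ 2)) * gm t (vor Λ) ≤ 1 := by
  have hi := integrable_gauss (r := r) ht
  have hm := h.measurableSet_voro
  rw [← h.gm_voro, Finset.sum_mul]
  refine (Finset.sum_le_sum fun v _ => gm_translate ht hm (fun _ => neg_mem_voro) v).trans ?_
  rw [← gm_univ (r := r) ht]
  simp only [gm]
  rw [← Finset.mul_sum, ← integral_biUnion_finset S (fun v _ => RMTheta_meas hm v) ?_
    fun _ _ => hi.integrableOn, Measure.restrict_univ]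
  · exact mul_le_mul_of_nonneg_left (setIntegral_le_integral hi
      (Eventually.of_forall fun _ => (Real.exp_pos _).le)) (by positivity)
  · intro v hv w hw hvw
    refine Set.disjoint_left.2 fun x hx hx' => hvw ?_
    have := pack_voro Λ _ hx _ hx' (by
      rw [sub_sub_sub_cancel_left]
      exact sub_mem (hS w hw) (hS v hv))
    exact sub_right_injective this

end Crest.Agent.R152
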