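import Crest.Agent.R152.Lat3
import Crest.Agent.R152.RMTheta
import Crest.Agent.R152.RMSplit
import Crest.Agent.R152.RMMin
import Crest.Agent.R152.RMOpen
import Crest.Agent.R152.RMInt
import Crest.Agent.R152.RMPos

/-! # Row 152: the weak reverse Minkowski theorem (see DESIGN.md, part RM) -/

set_option autoImplicit false
open Filter MeasureTheory Topology Set

noncomputable section
namespace Crest.Agent.R152

open Matrix in
/-- The induction on the rank. -/
theorem gm_lower {t η : ℝ} (ht : 0 < t) (hη : 0 < η) (hη1 : η ≤ 1 / 2) {n : ℕ}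
    (hpos : ∀ r : ℕ, 1 ≤ r → r ≤ n → ∀ K : Set (V (Fin r)), IsCompact K → Convex ℝ K →
      (∀ x ∈ K, -x ∈ K) → K ∈ 𝓝 (0 : V (Fin r)) → 1 ≤ volume K →
      ∃ M : Matrix (Fin r) (Fin r) ℝ, M.det = 1 ∧ 1 - η ≤ (t / Real.sqrt (2 * Real.pi)) ^ r *
        ∫ x in K, Real.exp (-(t ^ 2 / 2) * ∑ i, ((M *ᵥ x.ofLp) i) ^ 2))
    (r : ℕ) : r ≤ n → ∀ Λ : Submodule ℤ (V (Fin r)), Stab Λ → rsp Λ = ⊤ →
      Real.exp (-(2 * η * r)) ≤ gm t (vor Λ) := by
  induction r using Nat.strong_induction_on with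
  | _ r ih =>
  intro hr Λ h hf
  rcases Nat.eq_zero_or_pos r with rfl | hr0
  · have : vor Λ = univ := eq_univ_of_forall fun x v _ => by
      rw [Subsingleton.elim (x - v) x]
    rw [this, gm_univ ht]
    simp
  obtain ⟨Λ₀, h0, hf0, hc0, hmin⟩ := exists_minimiser ht h hf
  refine le_trans ?_ (hmin Λ h hf le_rfl)
  by_cases hint : ∀ N, N ≤ Λ₀ → 0 < rk N → rk N < r → 1 < cov N
  · obtain ⟨c, hc, hopen⟩ := stab_open h0 hf0 hint
    obtain ⟨M, hM, hle⟩ := hpos r hr0 hr (vor Λ₀) (h0.1.isCompact_vor hf0) (convex_vor _)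
      (fun x hx => neg_mem_vor hx) h0.1.vor_mem_nhds
      (le_trans (ENNReal.one_le_ofReal.2 (h0.2 _ le_rfl)) (h0.1.cov_le_volume hf0))
    refine le_trans ?_ (hle.trans (interior_case ht h0.1 hf0 hc (fun M hM hMc => ?_) M hM))
    · have h1 : (1 : ℝ) ≤ r := by exact_mod_cast hr0
      have h2 : Real.exp (-(2 * η * r)) ≤ Real.exp (-(2 * η)) := Real.exp_le_exp.2 (by nlinarith)
      refine h2.trans ?_
      rw [Real.exp_neg, inv_le_iff_one_le_mul₀ (Real.exp_pos _)]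
      have h3 := mul_le_mul_of_nonneg_left (Real.add_one_le_exp (2 * η))
        (by linarith : 0 ≤ 1 - η)
      nlinarith
    · obtain ⟨-, a2, a3⟩ := cov_img_det h0.1 hf0 (M := M) (by rw [hM]; exact one_ne_zero)
      exact hmin _ (hopen M hM hMc) a2 (by rw [a3, hM, abs_one, one_mul]; exact hc0)
  · push Not at hint
    obtain ⟨N, hN, h1, h2, h3⟩ := hint
    obtain ⟨Λ₁, Λ₂, a1, a2, a3, a4, a5⟩ := split_case ht h0 hf0 hN h3
    have b1 := ih _ h2 (by omega) Λ₁ a1 a2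
    have b2 := ih _ (by omega : r - rk N < r) (by omega) Λ₂ a3 a4
    refine le_trans (le_of_eq ?_)
      ((mul_le_mul b1 b2 (Real.exp_pos _).le (gm_nonneg ht _)).trans a5)
    rw [← Real.exp_add, Nat.cast_sub h2.le]
    congr 1
    ring

theorem rm : RMStmt := by
  intro ε δ hε hδ
  have hη : 0 < min (δ / 4) (1 / 2) := lt_min (by positivity) (by norm_num)
  have hev : ∀ᶠ n : ℕ in atTop, (n : ℝ) ^ (-ε) < δ :=
    ((tendsto_rpow_neg_atTop hε).comp tendsto_natCast_atTop_atTop).eventually_lt_const hδ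
  filter_upwards [position (half_pos hε) hη, hev, eventually_ge_atTop 1] with n hpos hn hn1
  intro E _ _ _ Λ hΛ hrk hst S hS
  classical
  have hn0 : (0 : ℝ) < n := by exact_mod_cast hn1
  have ht : 0 < (n : ℝ) ^ (ε / 2) := Real.rpow_pos_of_pos hn0 _
  obtain ⟨f, hf1, hf2⟩ := exists_coord (rsp Λ) (k := rk Λ) rfl
  have hf : ∀ x ∈ rsp Λ, ‖f x‖ = ‖x‖ := fun x hx => by
    rw [hf1, Submodule.starProjection_eq_self_iff.2 hx]
  have hst' : Stab (img f Λ) := Stab.map_iso ⟨hΛ, hst⟩ f hf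
  have h1 := gm_lower ht hη (min_le_right _ _) hpos (rk Λ) hrk (img f Λ) hst'
    (by rw [rsp_img, hf2])
  have h2 := theta_bound ht hst'.1 (S.image f) fun v hv => by
    obtain ⟨w, hw, rfl⟩ := Finset.mem_image.1 hv
    exact ⟨w, (hS w hw).1, rfl⟩
  have hinj : InjOn f S := fun v hv w hw hvw => by
    have := hf (v - w) (mem_rsp (Λ.sub_mem (hS v hv).1 (hS w hw).1))
    rw [map_sub, hvw, sub_self, norm_zero] at this
    exact sub_eq_zero.1 (norm_eq_zero.1 this.symm)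
  rw [Finset.sum_image hinj] at h2
  have h3 : ∀ v ∈ S, Real.exp (-(δ * n / 2)) ≤
      Real.exp (-(((n : ℝ) ^ (ε / 2)) ^ 2 / 2) * ‖f v‖ ^ 2) := fun v hv => by
    rw [hf v (mem_rsp (hS v hv).1)]
    have a1 := pow_le_pow_left₀ (norm_nonneg v) (hS v hv).2 2
    have a2 : ((n : ℝ) ^ (ε / 2)) ^ 2 * ((n : ℝ) ^ (1 / 2 - ε)) ^ 2 = (n : ℝ) ^ (-ε) * n := by
      rw [← mul_pow, ← Real.rpow_add hn0, ← Real.rpow_natCast, ← Real.rpow_mul hn0.le,
        ← Real.rpow_add_one hn0.ne']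
      congr 1
      push_cast
      ring
    have a3 := mul_le_mul_of_nonneg_left a1 (sq_nonneg ((n : ℝ) ^ (ε / 2)))
    have a4 := mul_le_mul_of_nonneg_right hn.le hn0.le
    exact Real.exp_le_exp.2 (by linarith)
  have h4 := Finset.card_nsmul_le_sum S _ _ h3
  rw [nsmul_eq_mul] at h4
  have h5 : Real.exp (-(δ * n / 2)) ≤ Real.exp (-(2 * min (δ / 4) (1 / 2) * rk Λ)) := by
    have a1 : (rk Λ : ℝ) ≤ n := by exact_mod_cast hrk
    have a2 := mul_le_mul (min_le_left (δ / 4) (1 / 2)) a1 (Nat.cast_nonneg _) (by positivity)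
    exact Real.exp_le_exp.2 (by linarith)
  have h6 := (mul_le_mul h4 (h5.trans h1) (Real.exp_pos _).le
    (le_trans (by positivity) h4)).trans h2
  rw [mul_assoc, ← Real.exp_add, show -(δ * n / 2) + -(δ * n / 2) = -(δ * n) by ring,
    Real.exp_neg, mul_inv_le_iff₀ (Real.exp_pos _), one_mul] at h6
  exact h6

theorem rmRel : RMRel := rmRel_of_rm rm

end Crest.Agent.R152
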