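import Crest.Agent.R152.CoreB5
import Crest.Agent.R152.RMMain
import Crest.Agent.R152.PrC

/-! # Row 152: the cost of one row -/

set_option autoImplicit false
open Matrix Filter
open Crest.FinProb Crest.ProbabilityR.SignMatrix

noncomputable section
namespace Crest.Agent.R152

/-- The hypotheses under which row `j` is predicted. -/
def HB {n : ℕ} (θ η δ : ℝ) (Z : Submodule ℤ (V (Fin n))) (S : Finset (Fin n)) (j : Fin n)
    (ω : Om n) : Prop :=
  (mat ω).det ≠ 0 ∧ T1 η (1 / δ) (mat ω) ∧ T2 η (2 / δ) (mat ω) ∧ RelH θ η δ Z (mat ω) ∧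
    Drop (mat ω) Z (Real.log n / δ) (preS S j) j

private theorem b6_single (n : ℕ) (j : Fin n) :
    (EuclideanSpace.single j (1 : ℝ) : V (Fin n)) = zv (Pi.single j 1) := by
  ext k
  by_cases h : k = j
  · subst h; simp [zv]
  · simp [zv, h]

private theorem b6_act_apply {n : ℕ} (B : Matrix (Fin n) (Fin n) ℤ) (j k : Fin n) :
    act B (EuclideanSpace.single j (1 : ℝ)) k = (B k j : ℝ) := by
  rw [b6_single, act_zv]
  simp [zv]

private theorem b6_sup_le {n : ℕ} {Z : Submodule ℤ (V (Fin n))} (hZ : Z ≤ Zl (Fin n))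
    (S : Finset (Fin n)) : Z ⊔ Zc S ≤ Zl (Fin n) := sup_le hZ (sec_le _ _)

private theorem b6_Rc_le {n : ℕ} {Z Np : Submodule ℤ (V (Fin n))} (hZ : Z ≤ Zl (Fin n))
    (S : Finset (Fin n)) {c : ℝ} {E : Submodule ℤ (V (Fin n ⊕ Fin n))}
    (hE : NN (Z ⊔ Zc S) Np c ≤ E) : Rc S ≤ (rsp E).map fstL := by
  intro y hy
  refine ⟨inlL y, ?_, fstL_inl y⟩
  refine rsp_mono hE ?_
  refine rsp_mono (le_sup_left : _ ≤ NN (Z ⊔ Zc S) Np c) ?_
  rw [rsp_img, rsp_sec_rsp (b6_sup_le hZ S)]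
  refine ⟨y, ?_, rfl⟩
  refine rsp_mono le_sup_right ?_
  rw [rsp_Zc]; exact hy

private theorem b6_ev1 {η : ℝ} (hη : 0 < η) : ∀ᶠ n : ℕ in atTop,
    Real.sqrt (2 * n) ≤ (n : ℝ) ^ η * (n : ℝ) ^ (1 / 2 - η / 2) := by
  have h := ((tendsto_rpow_atTop hη).comp tendsto_natCast_atTop_atTop).eventually_ge_atTop 2
  filter_upwards [h, eventually_ge_atTop 1] with n h2 hn
  have hn' : (0 : ℝ) < n := by exact_mod_cast hn
  rw [← Real.rpow_add hn']
  refine Real.sqrt_le_iff.2 ⟨by positivity, ?_⟩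
  rw [← Real.rpow_natCast, ← Real.rpow_mul hn'.le]
  have e : (η + (1 / 2 - η / 2)) * ((2 : ℕ) : ℝ) = η + 1 := by push_cast; ring
  rw [e, Real.rpow_add hn', Real.rpow_one]
  exact mul_le_mul_of_nonneg_right h2 hn'.le

private theorem b6_ev2 {a b : ℝ} (hb : 0 < b) : ∀ᶠ n : ℕ in atTop,
    (n : ℝ) ^ a ≤ Real.exp (b * n) := by
  have h := (tendsto_exp_mul_div_rpow_atTop a b hb).comp tendsto_natCast_atTop_atTop
  filter_upwards [h.eventually_ge_atTop 1, eventually_ge_atTop 1] with n h2 hn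
  have hn' : (0 : ℝ) < n := by exact_mod_cast hn
  have hp : (0 : ℝ) < (n : ℝ) ^ a := Real.rpow_pos_of_pos hn' a
  simp only [Function.comp] at h2
  rwa [le_div_iff₀ hp, one_mul] at h2

theorem row_cost {p θ δ η : ℝ} (h0 : 0 < p) (h1 : p < 1) (hθ : 0 < θ) (hδ : 0 < δ) (hδ1 : δ ≤ 1)
    (hη : 0 < η) (hη1 : η ≤ θ * δ / 40) :
    ∀ᶠ n : ℕ in atTop, ∀ (Z : Submodule ℤ (V (Fin n))), Z ≤ Zl (Fin n) →
      ∀ S : Finset (Fin n), (S.card : ℝ) ≤ η * n → ∀ j ∈ S, ∀ ω : Om n,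
        bernoulliProb p {x : Fin n → Bool | ∃ ω' : Om n, HB θ η δ Z S j ω' ∧
          (∀ i k, k ∈ Sᶜ → (i ∈ Sᶜ ∨ i ∈ (∅ : Finset (Fin n)) ∨ i < j) →
            ω' s(i, k) = ω s(i, k)) ∧
          ∀ k ∈ Sᶜ, ω' s(j, k) = x k} ≤ Real.exp (θ / 4 * Real.log (mx p) * n) := by
  classical
  have hmx0 := mx_pos p
  have hmx1 := mx_lt_one h0 h1
  have hlog : Real.log (mx p) < 0 := Real.log_neg hmx0 hmx1
  have hd' : 0 < θ * (-Real.log (mx p)) / 8 := by
    have : 0 < -Real.log (mx p) := by linarith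
    positivity
  filter_upwards [codim_bound hθ hδ hδ1 hη hη1, rmRel (η / 2) _ (half_pos hη) hd', b6_ev1 hη,
    b6_ev2 (a := 1 / δ) hd', eventually_ge_atTop 2] with n hcod hrm hev1 hev2 hn2
  intro Z hZ S hS j hj ω
  have hn0 : (0 : ℝ) < n := by exact_mod_cast (by omega : 0 < n)
  have hn1 : (1 : ℝ) < n := by exact_mod_cast (by omega : 1 < n)
  have hlam : 0 < Real.log n / δ := div_pos (Real.log_pos hn1) hδ
  have hexp : Real.exp (Real.log n / δ) = (n : ℝ) ^ (1 / δ) := by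
    rw [Real.rpow_def_of_pos hn0]; congr 1; ring
  set c : ℝ := (n : ℝ) ^ (1 / 2 - 1 / δ) with hc
  have hc0 : 0 < c := Real.rpow_pos_of_pos hn0 _
  have hK : 0 < (n : ℝ) ^ η := Real.rpow_pos_of_pos hn0 _
  have hRel : IsLat (Rel (mat ω) (Z ⊔ Zc S) (preS S j)) :=
    isLat_Zl.sub ((sec_le _ _).trans (sec_le _ _))
  obtain ⟨Np, hNp⟩ := exists_isMin hRel bot_le (2 * (Real.log n / δ))
  have hE : ∀ o : ℕ, ∃ E, IsMin (Real.log ((n : ℝ) ^ η)) (NN (Z ⊔ Zc S) Np c)
      (LL (mat ω) (Z ⊔ Zc S) (preS S j) o c) E := fun o =>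
    exists_isMin (isLat_LL _ _ _ o hc0).1 (NN_le_LL hNp.2.1 o c) _
  choose E hE using hE
  have hF := fun o : ℕ => hrm (V (Fin n ⊕ Fin n)) _ _ (E o) _
    (isLat_LL (mat ω) (Z ⊔ Zc S) (preS S j) o hc0).1
    (isLat_LL (mat ω) (Z ⊔ Zc S) (preS S j) o hc0).2 hK (hE o)
  choose F hF1 hF2 using hF
  set G : Finset ℕ := (Finset.Icc 1 ⌊(n : ℝ) ^ (1 / δ)⌋₊).filter fun o =>
    (Module.finrank ℝ ((rsp (E o)).map fstL) : ℝ) + θ / 2 * n ≤ n with hG
  have key := P_le_card_mul (p := p) h0.le h1.le (G.sigma F)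
    (fun a => {x : Fin n → Bool | sv x - fstL a.2 ∈ (rsp (E a.1)).map fstL})
    (B := {x : Fin n → Bool | ∃ ω' : Om n, HB θ η δ Z S j ω' ∧
          (∀ i k, k ∈ Sᶜ → (i ∈ Sᶜ ∨ i ∈ (∅ : Finset (Fin n)) ∨ i < j) →
            ω' s(i, k) = ω s(i, k)) ∧
          ∀ k ∈ Sᶜ, ω' s(j, k) = x k})
    (c := Real.exp (θ / 2 * Real.log (mx p) * n)) ?_ ?_
  · refine key.trans ?_
    have hcard : ((G.sigma F).card : ℝ) ≤ (n : ℝ) ^ (1 / δ) *
        Real.exp (θ * (-Real.log (mx p)) / 8 * n) := by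
      rw [Finset.card_sigma, Nat.cast_sum]
      refine (Finset.sum_le_card_nsmul _ _ _ fun o _ => hF1 o).trans ?_
      rw [nsmul_eq_mul]
      refine mul_le_mul_of_nonneg_right ?_ (Real.exp_pos _).le
      have h1 : G.card ≤ ⌊(n : ℝ) ^ (1 / δ)⌋₊ := by
        refine (Finset.card_filter_le _ _).trans ?_
        simp
      exact (Nat.cast_le.2 h1).trans (Nat.floor_le (by positivity))
    calc ((G.sigma F).card : ℝ) * Real.exp (θ / 2 * Real.log (mx p) * n)
        ≤ (Real.exp (θ * (-Real.log (mx p)) / 8 * n) *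
            Real.exp (θ * (-Real.log (mx p)) / 8 * n)) *
            Real.exp (θ / 2 * Real.log (mx p) * n) := by
          refine mul_le_mul_of_nonneg_right (hcard.trans ?_) (Real.exp_pos _).le
          exact mul_le_mul_of_nonneg_right hev2 (Real.exp_pos _).le
      _ = Real.exp (θ / 4 * Real.log (mx p) * n) := by
          rw [← Real.exp_add, ← Real.exp_add]; congr 1; ring
  · rintro x ⟨ω', ⟨hdet, hT1, hT2, hRH, hDrop⟩, hag, hx⟩
    have hcg : ∀ i ∈ preS S j, ∀ k, k ∉ S → mat ω k i = mat ω' k i := by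
      intro i hi k hk
      rw [mat_apply, mat_apply, Sym2.eq_swap, hag i k (Finset.mem_compl.2 hk)]
      rcases Finset.mem_union.1 hi with h | h
      · exact Or.inl h
      · exact Or.inr (Or.inr (Finset.mem_filter.1 h).2)
    have hjR : j ∉ preS S j := by
      intro h
      rcases Finset.mem_union.1 h with h | h
      · exact Finset.mem_compl.1 h hj
      · exact lt_irrefl _ (Finset.mem_filter.1 h).2
    have hNp' : IsMin (2 * (Real.log n / δ)) ⊥ (Rel (mat ω') (Z ⊔ Zc S) (preS S j)) Np := by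
      rw [← Rel_congr Z hcg]; exact hNp
    obtain ⟨o, ho1, ho2, α, hα, hrel, w, hw, hαw⟩ :=
      relation_of_drop (le_sup_left : Z ≤ Z ⊔ Zc S) hlam hjR hDrop hNp'
    rw [hexp] at ho2 hαw
    have hE' : IsMin (Real.log ((n : ℝ) ^ η)) (NN (Z ⊔ Zc S) Np c)
        (LL (mat ω') (Z ⊔ Zc S) (preS S j) o c) (E o) := by
      rw [← LL_congr Z hcg]; exact hE o
    have hgood := hcod (mat ω') Z Np S (preS S j) o (E o) (mat_isSS ω') hdet hT1 hT2 hZ hRH hS
      Finset.subset_union_left ho1 ho2 hNp' hE'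
    have hu : inlL (act (mat ω') (EuclideanSpace.single j (1 : ℝ))) + c • inrL α ∈
        LL (mat ω) (Z ⊔ Zc S) (preS S j) o c := by
      rw [LL_congr Z hcg]
      refine ⟨_, ?_, α, hα, rsp_mono le_sup_left hrel, rfl⟩
      rw [b6_single, act_zv]; exact zv_mem _
    have hclose : ∃ w' ∈ rsp (E o),
        ‖inlL (act (mat ω') (EuclideanSpace.single j (1 : ℝ))) + c • inrL α - w'‖ ≤
          (n : ℝ) ^ η * (n : ℝ) ^ (1 / 2 - η / 2) := by
      refine ⟨c • inrL w, ?_, le_trans ?_ hev1⟩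
      · refine rsp_mono (hE o).1 ?_
        refine rsp_mono (le_sup_right : _ ≤ NN (Z ⊔ Zc S) Np c) ?_
        rw [rsp_img]
        exact ⟨w, hw, rfl⟩
      · refine Real.le_sqrt_of_sq_le ?_
        have e : inlL (act (mat ω') (EuclideanSpace.single j (1 : ℝ))) + c • inrL α - c • inrL w =
            inlL (act (mat ω') (EuclideanSpace.single j (1 : ℝ))) + inrL (c • (α - w)) := by
          rw [map_smul, map_sub, smul_sub]; abel
        rw [e, norm_inl_inr, norm_act_single (mat_isSS ω'), norm_smul, Real.norm_of_nonneg hc0.le]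
        have h2 : c * ‖α - w‖ ≤ (n : ℝ) ^ (1 / 2 : ℝ) := by
          refine (mul_le_mul_of_nonneg_left hαw hc0.le).trans (le_of_eq ?_)
          rw [hc, ← Real.rpow_add hn0]; congr 1; ring
        have h3 : (c * ‖α - w‖) ^ 2 ≤ ((n : ℝ) ^ (1 / 2 : ℝ)) ^ 2 :=
          pow_le_pow_left₀ (by positivity) h2 2
        rw [← Real.sqrt_eq_rpow, Real.sq_sqrt hn0.le] at h3
        linarith
    obtain ⟨f, hf, huf⟩ := hF2 o _ hu hclose
    refine ⟨⟨o, f⟩, Finset.mem_sigma.2 ⟨?_, hf⟩, ?_⟩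
    · exact Finset.mem_filter.2 ⟨Finset.mem_Icc.2 ⟨ho1, Nat.le_floor ho2⟩, hgood⟩
    · have h1 : act (mat ω') (EuclideanSpace.single j (1 : ℝ)) - fstL f ∈
          (rsp (E o)).map fstL := by
        refine ⟨_, huf, ?_⟩
        rw [map_sub, map_add, map_smul, fstL_inl, fstL_inr, smul_zero, add_zero]
      have h2 : sv x - act (mat ω') (EuclideanSpace.single j (1 : ℝ)) ∈ (rsp (E o)).map fstL := by
        refine b6_Rc_le hZ S (hE o).1 ?_
        intro k hk
        rw [PiLp.sub_apply, b6_act_apply, mat_apply, Sym2.eq_swap, hx k (Finset.mem_compl.2 hk)]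
        simp [sv, zv, sz]
      have h3 := add_mem h2 h1
      rw [sub_add_sub_cancel] at h3
      exact h3
  · rintro ⟨o, f⟩ ha
    have hgood := (Finset.mem_filter.1 (Finset.mem_sigma.1 ha).1).2
    refine (odlyzko h0.le h1.le _ _).trans ?_
    rw [Fintype.card_fin, ← Real.exp_log hmx0, ← Real.exp_nat_mul, Real.exp_log hmx0]
    refine Real.exp_le_exp.2 ?_
    have hθn : 0 ≤ θ / 2 * n := by positivity
    have hle : Module.finrank ℝ ((rsp (E o)).map fstL) ≤ n := by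
      have : (Module.finrank ℝ ((rsp (E o)).map fstL) : ℝ) ≤ n := by
        simp only at hgood; linarith
      exact_mod_cast this
    rw [Nat.cast_sub hle]
    simp only at hgood
    nlinarith

end Crest.Agent.R152
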