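import Crest.Agent.R152.PrA

/-! # Row 152: exposing rows one at a time -/

set_option autoImplicit false
open Matrix Filter MeasureTheory
open Crest.FinProb Crest.ProbabilityR.SignMatrix Crest.Agent.Lib.BiasedCube

noncomputable section
namespace Crest.Agent.R152

open Classical in
theorem PrB_P_eq_Ex {ι : Type} [Fintype ι] [DecidableEq ι] (p : ℝ) (A : Set (ι → Bool)) :
    bernoulliProb p A = Ex p (fun x => if x ∈ A then 1 else 0) := by
  unfold bernoulliProb Ex
  rw [Finset.sum_filter]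
  refine Finset.sum_congr rfl fun x _ => ?_
  by_cases hx : x ∈ A <;> simp [hx]

theorem PrB_cond {ι : Type} [Fintype ι] [DecidableEq ι] {p : ℝ} (h0 : 0 ≤ p) (h1 : p ≤ 1)
    (T : Finset ι) {A B : Set (ι → Bool)} {c : ℝ}
    (hA : ∀ ω y, T.piecewise y ω ∈ A → ω ∈ A)
    (h : ∀ ω : ι → Bool, bernoulliProb p {y | T.piecewise y ω ∈ B} ≤ c) :
    bernoulliProb p (A ∩ B) ≤ bernoulliProb p A * c := by
  classical
  rw [PrB_P_eq_Ex, PrB_P_eq_Ex, ← Ex_Ex_piecewise p T, ← Ex_mul_const]
  refine Ex_mono h0 h1 fun ω => ?_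
  by_cases hω : ω ∈ A
  · rw [if_pos hω, one_mul]
    refine le_trans ?_ (h ω)
    rw [PrB_P_eq_Ex]
    refine Ex_mono h0 h1 fun y => ?_
    by_cases hy : T.piecewise y ω ∈ A ∩ B
    · rw [if_pos hy, if_pos (show y ∈ {y | T.piecewise y ω ∈ B} from hy.2)]
    · rw [if_neg hy]
      split_ifs <;> norm_num
  · rw [if_neg hω, zero_mul]
    refine (Ex_mono h0 h1 fun y => ?_).trans (Ex_const (ι := ι) p 0).le
    rw [if_neg fun hy => hω (hA ω y hy.1)]

/-- **Exposure lemma.** Rows `j ∈ G` are revealed in increasing order on the columns `U`. When row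
`j` is revealed, the visible entries are those in the columns `U` of the rows in `U`, in `Vis`, or
before `j`. -/
theorem expose {n : ℕ} {p : ℝ} (h0 : 0 ≤ p) (h1 : p ≤ 1) (U Vis G : Finset (Fin n))
    (hU : Disjoint G U) (hV : Disjoint G Vis) (H : Fin n → Om n → Prop) {w : ℝ} (hw : 0 ≤ w)
    (h : ∀ j ∈ G, ∀ ω : Om n, bernoulliProb p {x : Fin n → Bool | ∃ ω' : Om n, H j ω' ∧
      (∀ i k, k ∈ U → (i ∈ U ∨ i ∈ Vis ∨ i < j) → ω' s(i, k) = ω s(i, k)) ∧
      ∀ k ∈ U, ω' s(j, k) = x k} ≤ w) :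
    bernoulliProb p {ω : Om n | ∀ j ∈ G, H j ω} ≤ w ^ G.card := by
  refine le_trans (P_mono h0 h1 (B := {ω : Om n | ∀ j ∈ G, ∃ ω' : Om n, H j ω' ∧
      (∀ i k, k ∈ U → (i ∈ U ∨ i ∈ Vis ∨ i < j) → ω' s(i, k) = ω s(i, k)) ∧
      ∀ k ∈ U, ω' s(j, k) = ω s(j, k)})
    fun ω hω j hj => ⟨ω, hω j hj, fun _ _ _ _ => rfl, fun _ _ => rfl⟩) ?_
  induction G using Finset.induction_on_max with
  | empty => simpa using P_le_one h0 h1 _
  | insert a G ha ih =>
    have haG : a ∉ G := fun h' => lt_irrefl _ (ha a h')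
    rw [Finset.disjoint_insert_left] at hU hV
    have ih' := ih hU.2 hV.2 fun j hj => h j (Finset.mem_insert_of_mem hj)
    have hT : ∀ i k, k ∈ U → (i ∈ U ∨ i ∈ Vis ∨ i < a) →
        s(i, k) ∉ U.image fun k => s(a, k) := by
      intro i k hk hi hm
      obtain ⟨k', -, e⟩ := Finset.mem_image.1 hm
      rcases Sym2.eq_iff.1 e with ⟨rfl, -⟩ | ⟨rfl, -⟩
      · rcases hi with hi | hi | hi
        · exact hU.1 hi
        · exact hV.1 hi
        · exact lt_irrefl _ hi
      · exact hU.1 hk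
    rw [Finset.card_insert_of_notMem haG, pow_succ]
    refine le_trans (P_mono h0 h1 fun ω hω => ?_) ((PrB_cond h0 h1 (U.image fun k => s(a, k))
      (B := {ω : Om n | ∃ ω' : Om n, H a ω' ∧
        (∀ i k, k ∈ U → (i ∈ U ∨ i ∈ Vis ∨ i < a) → ω' s(i, k) = ω s(i, k)) ∧
        ∀ k ∈ U, ω' s(a, k) = ω s(a, k)}) ?_ fun ω => ?_).trans
      (mul_le_mul_of_nonneg_right ih' hw))
    · exact ⟨fun j hj => hω j (Finset.mem_insert_of_mem hj), hω a (Finset.mem_insert_self _ _)⟩
    · intro ω y hy j hj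
      obtain ⟨ω', e1, e2, e3⟩ := hy j hj
      refine ⟨ω', e1, fun i k hk hi => ?_, fun k hk => ?_⟩
      · rw [e2 i k hk hi, Finset.piecewise_eq_of_notMem _ _ _
          (hT i k hk (hi.imp_right fun hi => hi.imp_right fun hi => hi.trans (ha j hj)))]
      · rw [e3 k hk, Finset.piecewise_eq_of_notMem _ _ _ (hT j k hk (.inr (.inr (ha j hj))))]
    · refine le_trans ?_ (h a (Finset.mem_insert_self _ _) ω)
      rw [← P_comp_inj (fun k => s(a, k)) fun k k' e => Sym2.congr_right.1 e]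
      refine P_mono h0 h1 fun y hy => ?_
      obtain ⟨ω', e1, e2, e3⟩ := hy
      refine ⟨ω', e1, fun i k hk hi => ?_, fun k hk => ?_⟩
      · rw [e2 i k hk hi, Finset.piecewise_eq_of_notMem _ _ _ (hT i k hk hi)]
      · rw [e3 k hk, Finset.piecewise_eq_of_mem _ _ _ (Finset.mem_image_of_mem _ hk)]
        rfl

/-- Revealing the deleted row: if, given the principal minor `B`, the deleted row must lie in a set
of probability at most `w`, the event has probability at most `w`. -/
theorem expose_del {m : ℕ} {p : ℝ} (h0 : 0 ≤ p) (h1 : p ≤ 1) (i : Fin (m + 1))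
    (Q : Matrix (Fin m) (Fin m) ℤ → (Fin m → Bool) → Prop) {w : ℝ}
    (h : ∀ B, bernoulliProb p {x : Fin m → Bool | Q B x} ≤ w) :
    bernoulliProb p {ω : Om (m + 1) | Q (del (mat ω) i) (fun k => ω s(i, i.succAbove k))} ≤ w := by
  refine P_le_of_cond h0 h1 (Finset.univ.image fun k : Fin m => s(i, i.succAbove k)) fun ω => ?_
  refine le_trans ?_ (h (del (mat ω) i))
  rw [← P_comp_inj (fun k : Fin m => s(i, i.succAbove k))
    fun k k' e => Fin.succAbove_right_injective (Sym2.congr_right.1 e)]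
  refine P_mono h0 h1 fun y hy => ?_
  have e1 : del (mat ((Finset.univ.image fun k : Fin m => s(i, i.succAbove k)).piecewise y ω)) i =
      del (mat ω) i := by
    ext a b
    simp only [Matrix.submatrix_apply, mat_apply]
    rw [Finset.piecewise_eq_of_notMem]
    intro hm
    obtain ⟨k, -, e⟩ := Finset.mem_image.1 hm
    rcases Sym2.eq_iff.1 e with ⟨e, -⟩ | ⟨e, -⟩
    · exact Fin.succAbove_ne i a e.symm
    · exact Fin.succAbove_ne i b e.symm
  have e2 : (fun k => (Finset.univ.image fun k : Fin m => s(i, i.succAbove k)).piecewise y ω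
      s(i, i.succAbove k)) = y ∘ fun k : Fin m => s(i, i.succAbove k) := by
    funext k
    exact Finset.piecewise_eq_of_mem _ _ _ (Finset.mem_image_of_mem _ (Finset.mem_univ k))
  have hy' : Q (del (mat ((Finset.univ.image fun k : Fin m =>
      s(i, i.succAbove k)).piecewise y ω)) i) (fun k => (Finset.univ.image fun k : Fin m =>
        s(i, i.succAbove k)).piecewise y ω s(i, i.succAbove k)) := hy
  rw [e1, e2] at hy'
  exact hy'

/-- Fixing the structure on a block determines the block. -/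
def KerJ (R : Type) [CommRing R] {n : ℕ} (U J : Finset (Fin n))
    (B : Matrix (Fin n) (Fin n) ℤ) : Prop :=
  ∃ W : Fin n → Fin n → R, ∀ j ∈ J, (∀ k, k ∉ U → W j k = 0) ∧
    (∀ i ∈ U, ((B.map (Int.cast : ℤ → R)) *ᵥ W j) i = 0) ∧
    ∀ j' ∈ J, W j j' = if j = j' then 1 else 0

theorem P_KerJ (R : Type) [CommRing R] (h2 : (2 : R) ≠ 0) {n : ℕ} {p : ℝ} (h0 : 0 ≤ p)
    (h1 : p ≤ 1) {U J : Finset (Fin n)} (hJ : J ⊆ U) :
    bernoulliProb p {ω : Om n | KerJ R U J (mat ω)} ≤ mx p ^ (J.card * (J.card + 1) / 2) := by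
  have hc : J.card * (J.card + 1) / 2 = J.sym2.card := by
    rw [Finset.card_sym2, Nat.choose_two_right, Nat.add_sub_cancel, mul_comm]
  rw [hc]
  refine P_determined h0 h1 J.sym2 fun ω hω ω' hω' hag => ?_
  obtain ⟨W, hW⟩ := hω
  obtain ⟨W', hW'⟩ := hω'
  funext e
  by_cases he : e ∈ J.sym2
  swap
  · exact hag e he
  induction e using Sym2.ind with
  | h j j' =>
    obtain ⟨hj, hj'⟩ := Finset.mk_mem_sym2_iff.1 he
    obtain ⟨a1, a2, a3⟩ := hW j hj
    obtain ⟨b1, b2, b3⟩ := hW' j' hj'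
    have z : ∀ u v : Fin n → R, (∀ k, k ∉ U → u k = 0) → (∀ k ∈ U, v k = 0) → u ⬝ᵥ v = 0 := by
      intro u v hu hv
      refine Finset.sum_eq_zero fun k _ => ?_
      by_cases hk : k ∈ U
      · rw [hv k hk, mul_zero]
      · rw [hu k hk, zero_mul]
    have c1 := z _ _ a1 b2
    have c2 : W j ⬝ᵥ ((mat ω).map (Int.cast : ℤ → R)) *ᵥ W' j' = 0 := by
      have hs : ((mat ω).map (Int.cast : ℤ → R))ᵀ = (mat ω).map (Int.cast : ℤ → R) := by
        ext a b
        simp only [Matrix.transpose_apply, Matrix.map_apply, mat_apply, Sym2.eq_swap]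
      rw [Matrix.dotProduct_mulVec, ← Matrix.mulVec_transpose, hs, dotProduct_comm]
      exact z _ _ b1 a2
    have c3 : W j ⬝ᵥ ((mat ω).map (Int.cast : ℤ → R) - (mat ω').map (Int.cast : ℤ → R)) *ᵥ W' j' =
        ((mat ω).map (Int.cast : ℤ → R) - (mat ω').map (Int.cast : ℤ → R)) j j' := by
      have hz : ∀ a b, ¬ (a ∈ J ∧ b ∈ J) →
          ((mat ω).map (Int.cast : ℤ → R) - (mat ω').map (Int.cast : ℤ → R)) a b = 0 := by
        intro a b hab
        simp only [Matrix.sub_apply, Matrix.map_apply, mat_apply]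
        rw [hag _ fun h => hab (Finset.mk_mem_sym2_iff.1 h), sub_self]
      generalize (mat ω).map (Int.cast : ℤ → R) - (mat ω').map (Int.cast : ℤ → R) = D at hz
      have d1 : ∀ a, (D *ᵥ W' j') a = D a j' := by
        intro a
        change ∑ b, D a b * W' j' b = D a j'
        rw [Finset.sum_eq_single j', b3 j' hj', if_pos rfl, mul_one]
        · intro b _ hb
          by_cases hbJ : b ∈ J
          · rw [b3 b hbJ, if_neg (Ne.symm hb), mul_zero]
          · rw [hz a b fun h => hbJ h.2, zero_mul]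
        · exact fun h => absurd (Finset.mem_univ _) h
      unfold dotProduct
      rw [Finset.sum_eq_single j, a3 j hj, if_pos rfl, one_mul, d1]
      · intro a _ ha
        by_cases haJ : a ∈ J
        · rw [a3 a haJ, if_neg (Ne.symm ha), zero_mul]
        · rw [d1, hz a j' fun h => haJ h.1, mul_zero]
      · exact fun h => absurd (Finset.mem_univ _) h
    rw [Matrix.sub_mulVec, dotProduct_sub, c1, c2, sub_self] at c3
    simp only [Matrix.sub_apply, Matrix.map_apply, mat_apply] at c3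
    revert c3
    cases ω s(j, j') <;> cases ω' s(j, j') <;> simp only [sg] <;> intro c3
    · trivial
    · exact absurd (by simp at c3; linear_combination c3) h2
    · exact absurd (by simp at c3; linear_combination -c3) h2
    · trivial

end Crest.Agent.R152
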