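import Crest.Agent.R152.CoreB1
import Crest.Agent.R152.CoreB6
import Crest.Agent.R152.PrB

/-! # Row 152: dense relations on a fixed subspace are very unlikely -/

set_option autoImplicit false
open Matrix Filter
open Crest.FinProb Crest.ProbabilityR.SignMatrix

noncomputable section
namespace Crest.Agent.R152

private theorem CoreB_cls (n J k : ℕ) : (cls n J k).card ≤ n / J + 1 := by
  rw [← Finset.card_range (n / J + 1)]
  refine Finset.card_le_card_of_injOn (fun i => i.1 / J) (fun i _ => ?_) fun i hi j hj hij => ?_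
  · exact Finset.mem_coe.2 (Finset.mem_range.2 (Nat.lt_succ_of_le (Nat.div_le_div_right i.2.le)))
  · have h1 : i.1 % J = k := (Finset.mem_filter.1 hi).2
    have h2 : j.1 % J = k := (Finset.mem_filter.1 hj).2
    have h3 : i.1 / J = j.1 / J := hij
    apply Fin.ext
    rw [← Nat.div_add_mod i.1 J, ← Nat.div_add_mod j.1 J, h1, h2, h3]

theorem relH_unlikely {p θ δ : ℝ} (h0 : 0 < p) (h1 : p < 1) (hθ : 0 < θ) (hδ : 0 < δ)
    (hδ1 : δ ≤ 1) : ∃ η : ℝ, 0 < η ∧ ∃ cb : ℝ, 0 < cb ∧ ∀ᶠ n : ℕ in atTop,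
      ∀ (Z : Submodule ℤ (V (Fin n))), Z ≤ Zl (Fin n) →
        bernoulliProb p {ω : Om n | (mat ω).det ≠ 0 ∧ T1 η (1 / δ) (mat ω) ∧
          T2 η (2 / δ) (mat ω) ∧ RelH θ η δ Z (mat ω)} ≤ Real.exp (-(cb * (n : ℝ) ^ 2)) := by
  classical
  set η : ℝ := θ * δ / 40 with hηdef
  have hη : 0 < η := by positivity
  set J : ℕ := ⌈2 / η⌉₊ with hJdef
  have hJ : 0 < J := Nat.ceil_pos.2 (by positivity)
  have hJ' : (0 : ℝ) < J := by exact_mod_cast hJ
  have hJη : 2 ≤ J * η := (div_le_iff₀ hη).1 (Nat.le_ceil _)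
  have hh : 0 < -Real.log (mx p) := neg_pos.2 (Real.log_neg (mx_pos p) (mx_lt_one h0 h1))
  set a : ℝ := θ / 4 * -Real.log (mx p) * (δ / (2 * J)) with ha
  have ha0 : 0 < a := by positivity
  refine ⟨η, hη, a / 2, half_pos ha0, ?_⟩
  filter_upwards [row_cost h0 h1 hθ hδ hδ1 hη le_rfl, eventually_ge_atTop 2, eventually_ge_atTop J,
    tendsto_natCast_atTop_atTop.eventually_ge_atTop (2 / η),
    tendsto_natCast_atTop_atTop.eventually_ge_atTop (4 / a)] with n hrow hn2 hnJ hnη hna Z hZ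
  have hn0 : (0 : ℝ) ≤ n := Nat.cast_nonneg n
  have hS : ∀ k, ((cls n J k).card : ℝ) ≤ η * n := by
    intro k
    have h2 : ((cls n J k).card : ℝ) ≤ (n / J : ℕ) + 1 := by exact_mod_cast CoreB_cls n J k
    have h3 : ((n / J : ℕ) : ℝ) ≤ n / J := Nat.cast_div_le
    have h4 : (n : ℝ) / J ≤ η * n / 2 := by
      rw [div_le_iff₀ hJ']
      nlinarith
    rw [div_le_iff₀ hη] at hnη
    linarith
  let s : Finset (ℕ × Finset (Fin n)) := (Finset.range J ×ˢ Finset.univ).filter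
    fun c => c.2 ⊆ cls n J c.1 ∧ δ * n / (2 * J) ≤ c.2.card
  have hs : (s.card : ℝ) ≤ Real.exp (2 * n) := by
    have h2 : s.card ≤ J * 2 ^ n := (Finset.card_filter_le _ _).trans (by simp)
    have h3 : (J : ℝ) ≤ Real.exp n := by
      have : (J : ℝ) ≤ n := by exact_mod_cast hnJ
      linarith [Real.add_one_le_exp (n : ℝ)]
    have h4 : (2 : ℝ) ^ n ≤ Real.exp n := by
      rw [← Real.exp_one_pow]
      exact pow_le_pow_left₀ (by norm_num) (by linarith [Real.add_one_le_exp (1 : ℝ)]) n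
    calc (s.card : ℝ) ≤ J * 2 ^ n := by exact_mod_cast h2
      _ ≤ Real.exp n * Real.exp n := by gcongr
      _ = _ := by rw [← Real.exp_add, two_mul]
  refine (P_le_card_mul h0.le h1.le s
    (fun c => {ω : Om n | ∀ j ∈ c.2, HB θ η δ Z (cls n J c.1) j ω}) ?_
    (c := Real.exp (-(a * (n : ℝ) ^ 2))) ?_).trans ?_
  · rintro ω ⟨c1, c2, c3, c4⟩
    obtain ⟨k, hk, G, hG, hc, hd⟩ := many_drops hn2 hθ.le hδ c4 hJ
    exact ⟨(k, G), Finset.mem_filter.2 ⟨Finset.mem_product.2 ⟨Finset.mem_range.2 hk,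
      Finset.mem_univ _⟩, hG, hc⟩, fun j hj => ⟨c1, c2, c3, c4, hd j hj⟩⟩
  · rintro ⟨k, G⟩ hc
    obtain ⟨-, hG, hc⟩ := Finset.mem_filter.1 hc
    refine (expose h0.le h1.le (cls n J k)ᶜ ∅ G (disjoint_compl_right.mono_left hG)
      (Finset.disjoint_empty_right _) (HB θ η δ Z (cls n J k)) (Real.exp_pos _).le
      fun j hj ω => hrow Z hZ _ (hS k) j (hG hj) ω).trans ?_
    rw [← Real.exp_nat_mul, Real.exp_le_exp]
    have h2 := mul_le_mul_of_nonneg_right hc
      (show 0 ≤ θ / 4 * -Real.log (mx p) * n by positivity)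
    have h3 : a * (n : ℝ) ^ 2 = δ * n / (2 * J) * (θ / 4 * -Real.log (mx p) * n) := by
      rw [ha]; ring
    rw [h3]
    linarith
  · refine (mul_le_mul_of_nonneg_right hs (Real.exp_pos _).le).trans ?_
    rw [← Real.exp_add, Real.exp_le_exp]
    rw [div_le_iff₀ ha0] at hna
    nlinarith

end Crest.Agent.R152
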