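import Crest.Agent.R152.CoreC0

/-! # Row 152: failure of Sparse gives a dense subspace -/

set_option autoImplicit false
open Matrix Filter
open Crest.FinProb Crest.ProbabilityR.SignMatrix

noncomputable section
namespace Crest.Agent.R152

/-- `zv` as a linear map. -/
def coreC_zv (n : ℕ) : (Fin n → ℤ) →ₗ[ℤ] V (Fin n) where
  toFun := zv
  map_add' x y := by ext i; simp [zv]
  map_smul' c x := by ext i; simp [zv]

theorem coreC_cov {n : ℕ} {B : Matrix (Fin n) (Fin n) ℤ} (hB : B.det ≠ 0)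
    {L : Submodule ℤ (Fin n → ℤ)} (hL : ∀ z, B *ᵥ z ∈ L) :
    img (act B) (Zl (Fin n)) ≤ L.map (coreC_zv n) ∧ L.map (coreC_zv n) ≤ Zl (Fin n) ∧
      cov (L.map (coreC_zv n)) = L.toAddSubgroup.index := by
  have h1 : img (act B) (Zl (Fin n)) ≤ L.map (coreC_zv n) := by
    intro y hy
    obtain ⟨x, hx, rfl⟩ := mem_img.1 hy
    obtain ⟨z, rfl⟩ := exists_zv hx
    exact ⟨_, hL z, (act_zv B z).symm⟩
  have h2 : L.map (coreC_zv n) ≤ Zl (Fin n) := by
    rintro _ ⟨z, -, rfl⟩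
    exact zv_mem z
  refine ⟨h1, h2, ?_⟩
  have h3 := (cov_index isLat_Zl h2
    (((isLat_Zl.img (act B) fun x _ hx => act_inj hB hx).2.symm.le).trans (rk_mono h1))).2
  have e : (Zl (Fin n)).toAddSubgroup = (⊤ : AddSubgroup _).map (coreC_zv n).toAddMonoidHom := by
    ext x
    constructor
    · intro hx
      obtain ⟨z, rfl⟩ := exists_zv hx
      exact ⟨z, trivial, rfl⟩
    · rintro ⟨z, -, rfl⟩
      exact zv_mem z
  have hi : Function.Injective (coreC_zv n).toAddMonoidHom := fun x y h => by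
    funext i
    have : (x i : ℝ) = y i := congrArg (fun v : V (Fin n) => v i) h
    exact_mod_cast this
  rw [h3, cov_Zl, mul_one, e, Submodule.map_toAddSubgroup]
  congr 1
  exact (AddSubgroup.relIndex_map_map_of_injective _ _ hi).trans (AddSubgroup.relIndex_top_right _)

theorem coreC_inner {n : ℕ} (x y x' y' : V (Fin n)) :
    inner ℝ (inlL x + inrL y) (inlL x' + inrL y') = inner ℝ x x' + inner ℝ y y' := by
  simp [PiLp.inner_apply, inlL, inrL, Fintype.sum_sum_type]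

theorem coreC_norm {n : ℕ} (x y : V (Fin n)) : ‖inlL x + inrL y‖ ^ 2 = ‖x‖ ^ 2 + ‖y‖ ^ 2 := by
  simp only [← real_inner_self_eq_norm_sq, coreC_inner]

theorem coreC_span (n : ℕ) : Zl (Fin n) =
    Submodule.span ℤ (Set.range fun i : Fin n => EuclideanSpace.single i (1 : ℝ)) := by
  refine le_antisymm (fun x hx => ?_) (Submodule.span_le.2 ?_)
  · obtain ⟨z, rfl⟩ := exists_zv hx
    have : zv z = ∑ i, z i • EuclideanSpace.single i (1 : ℝ) := by
      ext j
      simp [zv, Pi.single_apply]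
    rw [this]
    exact Submodule.sum_mem _ fun i _ => Submodule.smul_mem _ _ (Submodule.subset_span ⟨i, rfl⟩)
  · rintro _ ⟨i, rfl⟩ j
    exact ⟨if j = i then 1 else 0, by simp [Pi.single_apply]⟩

theorem coreC_act {n : ℕ} (B : Matrix (Fin n) (Fin n) ℤ) (j : Fin n) :
    act B (EuclideanSpace.single j (1 : ℝ)) =
      ∑ i, (B i j : ℝ) • EuclideanSpace.single i (1 : ℝ) := by
  ext k
  simp [act, Pi.single_apply]

theorem coreC_gvol {n : ℕ} {B : Matrix (Fin n) (Fin n) ℤ} (hB : B.IsSymm) {a : ℝ}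
    (φ : V (Fin n) →ₗ[ℝ] V (Fin n ⊕ Fin n)) (h0 : ∀ z, φ z = 0 → z = 0)
    (hφ : ∀ v, φ (act B v) = inlL (act B v) + inrL (a • v)) :
    (|(B.det : ℝ)| * cov (img φ (Zl (Fin n)))) ^ 2 = ((B.map (Int.cast : ℤ → ℝ)) *
      (B.map (Int.cast : ℤ → ℝ)) + (a ^ 2) • (1 : Matrix (Fin n) (Fin n) ℝ)).det := by
  have hli : LinearIndependent ℝ fun i : Fin n => EuclideanSpace.single i (1 : ℝ) :=
    (EuclideanSpace.orthonormal_single (𝕜 := ℝ)).linearIndependent
  have h1 := gvol_mul (fun i : Fin n => φ (EuclideanSpace.single i (1 : ℝ)))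
    (B.map (Int.cast : ℤ → ℝ))
  rw [← Int.cast_det] at h1
  rw [coreC_span, lat1c_img_span, cov_span (lat1c_li φ hli fun x _ => h0 x), ← h1, gvol_sq]
  congr 1
  ext j k
  have e : ∀ j, ∑ i, B.map (Int.cast : ℤ → ℝ) i j • φ (EuclideanSpace.single i (1 : ℝ)) =
      φ (act B (EuclideanSpace.single j (1 : ℝ))) := fun j => by
    rw [coreC_act, map_sum]
    simp only [map_smul, Matrix.map_apply]
  rw [Matrix.gram_apply, e, e, hφ, hφ, coreC_inner, Matrix.add_apply, Matrix.mul_apply]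
  congr 1
  · rw [PiLp.inner_apply]
    refine Finset.sum_congr rfl fun i _ => ?_
    simp [act, hB.apply j i, mul_comm]
  · rw [real_inner_smul_left, real_inner_smul_right, EuclideanSpace.inner_single_left]
    simp [Matrix.one_apply, Pi.single_apply, sq]

theorem dense_of_not_sparse {θ δ εK : ℝ} (hθ : 0 < θ) (hθ1 : θ ≤ 1 / 8) (hδ : 0 < δ)
    (hK : 0 < εK) (hKθ : εK ≤ θ / 8) :
    ∀ᶠ n : ℕ in atTop, ∀ (B : Matrix (Fin n) (Fin n) ℤ), IsSS B → B.det ≠ 0 → T2 (1 / 8) 9 B →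
      ¬ Sparse θ δ B → Dense (θ / 2) (δ / 2) εK B := by
  classical
  filter_upwards [dense_of_many hθ hδ hK hKθ, eventually_ge_atTop 256] with n hn hn1 B hS hB hT hsp
  have hn2 : (256 : ℝ) ≤ n := by exact_mod_cast hn1
  have hfr := frob_act hS
  rw [Fintype.card_fin] at hfr
  rw [Sparse, not_and_or] at hsp
  rcases hsp with h | h
  · push Not at h
    obtain ⟨L, hL, h1, h2⟩ := h
    obtain ⟨c1, c2, c3⟩ := coreC_cov hB hL
    have e : img LinearMap.id (L.map (coreC_zv n)) = L.map (coreC_zv n) := by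
      ext y
      simp [mem_img]
    refine hn B hB (V (Fin n)) LinearMap.id (fun z => le_rfl) ?_ _ c1 c2 (by rwa [e, c3]) _
      (fun x hx => ⟨⟨_, (Finset.mem_filter.1 hx).2, rfl⟩, ?_⟩) h2.le
    · simp only [LinearMap.id_apply, hfr]
      nlinarith
    · rw [LinearMap.id_apply, norm_sv_sq, Fintype.card_fin]
      linarith
  · push Not at h
    obtain ⟨h1, h2⟩ := h
    let e := LinearEquiv.ofInjectiveEndo (act B)
      ((injective_iff_map_eq_zero _).2 fun x hx => act_inj hB hx)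
    have he : ∀ v, e.symm (act B v) = v := fun v => e.symm_apply_apply v
    obtain ⟨a, ha⟩ : ∃ a : ℝ, a = (((n : ℝ) + 1) ^ 4)⁻¹ := ⟨_, rfl⟩
    have ha0 : 0 < a := by rw [ha]; positivity
    have ha1 : a ≤ 1 := by
      rw [ha]
      exact inv_le_one_of_one_le₀ (one_le_pow₀ (by linarith))
    obtain ⟨φ, hφ⟩ : ∃ φ : V (Fin n) →ₗ[ℝ] V (Fin n ⊕ Fin n),
        ∀ z, φ z = inlL z + inrL (a • e.symm z) :=
      ⟨inlL + inrL ∘ₗ (a • e.symm.toLinearMap), fun z => rfl⟩
    have hle : ∀ z, ‖z‖ ≤ ‖φ z‖ := fun z => by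
      refine le_of_sq_le_sq ?_ (norm_nonneg _)
      rw [hφ, coreC_norm]
      exact le_add_of_nonneg_right (sq_nonneg _)
    refine hn B hB _ φ hle ?_ _ (img_act_le B le_rfl) le_rfl ?_ _
      (fun x hx => ⟨zv_mem _, ?_⟩) h2.le
    · simp only [hφ, coreC_norm, he, Finset.sum_add_distrib, hfr, norm_smul, PiLp.norm_single,
        norm_one, mul_one, Finset.sum_const, Finset.card_univ, Fintype.card_fin, nsmul_eq_mul,
        Real.norm_of_nonneg ha0.le]
      have : a ^ 2 ≤ 1 := pow_le_one₀ ha0.le ha1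
      nlinarith
    · have hg := coreC_gvol hS.1 (a := a) φ
        (fun z hz => norm_le_zero_iff.1 ((hle z).trans_eq (by rw [hz, norm_zero])))
        fun v => by rw [hφ, he]
      have hn0 : (0 : ℝ) < n := by linarith
      have h3 := hT (a ^ 2) (by
        rw [ha, Real.rpow_neg hn0.le, inv_pow, ← pow_mul, Real.rpow_ofNat]
        refine inv_anti₀ (by positivity) ?_
        calc ((n : ℝ) + 1) ^ (4 * 2) ≤ (2 * n) ^ 8 := by gcongr; linarith
          _ = 256 * (n : ℝ) ^ 8 := by ring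
          _ ≤ n * (n : ℝ) ^ 8 := by gcongr
          _ = _ := by ring)
      rw [← hg] at h3
      have hc := cov_pos (img φ (Zl (Fin n)))
      have h4 : (n : ℝ) ^ ((n : ℝ) / 4) * (n : ℝ) ^ (θ * n) ≤
          (n : ℝ) ^ ((n : ℝ) / 4) * cov (img φ (Zl (Fin n))) := by
        refine le_of_sq_le_sq (le_trans ?_ (h3.trans ?_)) (by positivity)
        · rw [← Real.rpow_add hn0, ← Real.rpow_natCast, ← Real.rpow_mul hn0.le]
          refine Real.rpow_le_rpow_of_exponent_le (by linarith) ?_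
          push_cast
          nlinarith
        · gcongr
      exact le_of_mul_le_mul_left h4 (by positivity)
    · obtain ⟨u, hu, hu'⟩ := (Finset.mem_filter.1 hx).2
      have e1 : sv x = act B (WithLp.toLp 2 u) := by
        ext i
        exact (congrFun hu i).symm
      have e2 : ‖(WithLp.toLp 2 u : V (Fin n))‖ ^ 2 ≤ n * (((n : ℝ) + 1) ^ 4) ^ 2 := by
        rw [EuclideanSpace.norm_sq_eq]
        refine (Finset.sum_le_card_nsmul _ _ ((((n : ℝ) + 1) ^ 4) ^ 2) fun i _ => ?_).trans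
          (by simp)
        exact pow_le_pow_left₀ (norm_nonneg _) (hu' i) 2
      rw [hφ, coreC_norm, norm_sv_sq, Fintype.card_fin, e1, he, norm_smul, mul_pow,
        Real.norm_of_nonneg ha0.le]
      have e3 : a ^ 2 * (n * (((n : ℝ) + 1) ^ 4) ^ 2) = n := by
        rw [ha]
        field_simp
      have := mul_le_mul_of_nonneg_left e2 (sq_nonneg a)
      linarith

theorem Sparse.mono {n : ℕ} (hn : 1 ≤ n) {θ θ' δ δ' : ℝ} (hθ : θ' ≤ θ) (hδ : δ' ≤ δ)
    {B : Matrix (Fin n) (Fin n) ℤ} (h : Sparse θ' δ' B) : Sparse θ δ B := by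
  have hn' : (1 : ℝ) ≤ n := by exact_mod_cast hn
  have h1 : Real.exp (δ' * n) ≤ Real.exp (δ * n) := by gcongr
  exact ⟨fun L hL hi => (h.1 L hL ((Real.rpow_le_rpow_of_exponent_le hn' (by gcongr)).trans
    hi)).trans h1, fun hd => (h.2 hd).trans h1⟩

end Crest.Agent.R152
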