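import Crest.Agent.R152.CoreDefs

/-! # Row 152: from the dense subspace to relations on a family member -/

set_option autoImplicit false
open Matrix Filter
open Crest.FinProb Crest.ProbabilityR.SignMatrix

noncomputable section
namespace Crest.Agent.R152

theorem coreD_cov {n : ℕ} {B : Matrix (Fin n) (Fin n) ℤ} (hB : IsSS B) (hd : B.det ≠ 0)
    {N₀ Zh : Submodule ℤ (V (Fin n))} (hN₀ : N₀ ≤ Zl (Fin n)) (hZ : Zh ≤ Zl (Fin n))
    (hr : rsp Zh ≤ rsp N₀) :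
    cov (Pre B Zh) ≤ Real.sqrt (2 * n) ^ (rk N₀ - rk Zh) * Real.exp ((n : ℝ) / 2) *
      (cov Zh * cov (Pre B N₀)) := by
  have hP : Pre B N₀ ≤ Zl (Fin n) := sec_le _ _
  have hle : Pre B Zh ≤ Pre B N₀ := fun x hx =>
    mem_sec.2 ⟨(mem_sec.1 hx).1, hr (mem_sec.1 hx).2⟩
  have r1 : rk (Pre B N₀) = rk N₀ := rk_sec_comap hd hN₀
  have r2 : rk (Pre B Zh) = rk Zh := rk_sec_comap hd hZ
  have h1 := cov_map_rel (isLat_Zl.sub hP) hle (act B) (fun x _ hx => act_inj hd hx)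
    (c := Real.sqrt (2 * n) ^ (rk N₀ - rk Zh) * Real.exp ((n : ℝ) / 2)) (fun v => by
      have := gvol_frob_sign (act B) (n := n) (by
        rw [frob_act hB, Fintype.card_fin]
        nlinarith [sq_nonneg (n : ℝ)]) v
      rw [← r1, ← r2]
      rwa [Fintype.card_fin] at this)
  have h2 := cov_submod isLat_Zl (img_act_le B hP) (sec_le (Zl (Fin n)) (rsp Zh))
  have e : img (act B) (Pre B N₀) ⊓ sec (Zl (Fin n)) (rsp Zh) = img (act B) (Pre B Zh) := by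
    apply le_antisymm
    · rintro y ⟨hy, hy'⟩
      obtain ⟨x, hx, rfl⟩ := mem_img.1 hy
      exact mem_img.2 ⟨x, mem_sec.2 ⟨hP hx, (mem_sec.1 hy').2⟩, rfl⟩
    · intro y hy
      obtain ⟨x, hx, rfl⟩ := mem_img.1 hy
      exact ⟨mem_img.2 ⟨x, hle hx, rfl⟩, mem_sec.2
        ⟨img_act_le B le_rfl (mem_img.2 ⟨x, (mem_sec.1 hx).1, rfl⟩), (mem_sec.1 hx).2⟩⟩
  rw [e] at h2
  have h3 := one_le_cov (sup_le (img_act_le B hP) (sec_le (Zl (Fin n)) (rsp Zh)))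
  have h4 : cov (sec (Zl (Fin n)) (rsp Zh)) ≤ cov Zh :=
    cov_le_of_rk (isLat_Zl.sub (sec_le _ _)) (l2b_le_sec hZ) (l2b_rk_sec hZ).le
  have p1 := cov_pos (img (act B) (Pre B N₀))
  have p2 := cov_pos (img (act B) (Pre B Zh))
  have p3 := cov_pos (Pre B N₀)
  have h5 : cov (img (act B) (Pre B Zh)) ≤ cov (img (act B) (Pre B N₀)) * cov Zh :=
    (le_mul_of_one_le_right p2.le h3).trans (h2.trans (mul_le_mul_of_nonneg_left h4 p1.le))
  refine le_of_mul_le_mul_left (h1.trans ?_) p1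
  have hc : 0 ≤ Real.sqrt (2 * n) ^ (rk N₀ - rk Zh) * Real.exp ((n : ℝ) / 2) := by positivity
  refine (mul_le_mul_of_nonneg_left (mul_le_mul_of_nonneg_right h5 p3.le) hc).trans_eq ?_
  ring

theorem relH_of_dense {θ δ a εK η : ℝ} (hθ : 0 < θ) (ha : a + εK ≤ θ / 4) (hη : η ≤ δ / 6) :
    ∀ᶠ n : ℕ in atTop, ∀ (B : Matrix (Fin n) (Fin n) ℤ), IsSS B → B.det ≠ 0 →
      ∀ (N₀ Z : Submodule ℤ (V (Fin n))), N₀ ≤ Zl (Fin n) → cov N₀ ≤ (n : ℝ) ^ (εK * n) →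
        cov (Pre B N₀) ≤ (n : ℝ) ^ (((n : ℝ) - rk N₀) / 2 - θ * n) →
        Z ≤ Zl (Fin n) → cov Z ≤ (n : ℝ) ^ (a * n) → δ * n / 2 ≤ rk Z →
        (rk Z : ℝ) ≤ rk (Z ⊓ sec (Zl (Fin n)) (rsp N₀)) + η * n →
        RelH (θ / 2) η (δ / 3) Z B := by
  filter_upwards [(Real.tendsto_log_atTop.comp tendsto_natCast_atTop_atTop).eventually_ge_atTop
    (4 / θ), eventually_ge_atTop 1] with n hn hn1 B hB hd N₀ Z hN₀ hc₀ hcP hZ hcZ hrZ hrk
  have hn1' : (1 : ℝ) ≤ n := by exact_mod_cast hn1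
  have hn0 : (0 : ℝ) < n := by linarith
  obtain ⟨Zh, hZh⟩ : ∃ Zh, Zh = Z ⊓ sec (Zl (Fin n)) (rsp N₀) := ⟨_, rfl⟩
  have hZ1 : Zh ≤ Z := hZh ▸ inf_le_left
  have hZ2 : Zh ≤ sec (Zl (Fin n)) (rsp N₀) := hZh ▸ inf_le_right
  have hr : rsp Zh ≤ rsp N₀ := (rsp_mono hZ2).trans (rsp_sec_le _ _)
  have r2 : rk (Pre B Zh) = rk Zh := rk_sec_comap hd (hZ1.trans hZ)
  have hk : rk Zh ≤ rk N₀ := (rk_mono hZ2).trans (l2b_rk_sec hN₀).le
  have hk' : rk N₀ ≤ n := (rk_mono hN₀).trans (by rw [rk_Zl, Fintype.card_fin])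
  have c1 : cov Zh ≤ cov Z * cov N₀ := by
    have h2 := cov_submod isLat_Zl hZ (sec_le (Zl (Fin n)) (rsp N₀))
    rw [← hZh] at h2
    have h3 := one_le_cov (sup_le hZ (sec_le (Zl (Fin n)) (rsp N₀)))
    have h4 : cov (sec (Zl (Fin n)) (rsp N₀)) ≤ cov N₀ :=
      cov_le_of_rk (isLat_Zl.sub (sec_le _ _)) (l2b_le_sec hN₀) (l2b_rk_sec hN₀).le
    exact (le_mul_of_one_le_right (cov_pos _).le h3).trans
      (h2.trans (mul_le_mul_of_nonneg_left h4 (cov_pos _).le))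
  rw [← hZh] at hrk
  refine ⟨Pre B Zh, fun x hx => mem_sec.2 ⟨(mem_sec.1 hx).1, rsp_mono hZ1 (mem_sec.1 hx).2⟩,
    ?_, by rwa [r2], ?_⟩
  · rw [r2]
    nlinarith [mul_le_mul_of_nonneg_right hη hn0.le]
  · refine (coreD_cov hB hd hN₀ (hZ1.trans hZ) hr).trans ?_
    have c2 : cov Zh * cov (Pre B N₀) ≤ (n : ℝ) ^ (a * n) * (n : ℝ) ^ (εK * n) *
        (n : ℝ) ^ (((n : ℝ) - rk N₀) / 2 - θ * n) :=
      mul_le_mul (c1.trans (mul_le_mul hcZ hc₀ (cov_pos _).le (by positivity))) hcP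
        (cov_pos _).le (by positivity)
    refine (mul_le_mul_of_nonneg_left c2 (by positivity)).trans ?_
    have e1 : Real.sqrt (2 * n) = Real.exp ((Real.log 2 + Real.log n) / 2) := by
      rw [← Real.log_mul two_ne_zero hn0.ne', Real.sqrt_eq_rpow, Real.rpow_def_of_pos (by positivity)]
      congr 1
      ring
    rw [e1, ← Real.exp_nat_mul, r2, Nat.cast_sub hk]
    simp only [Real.rpow_def_of_pos hn0, ← Real.exp_add]
    rw [Real.exp_le_exp]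
    have hL : 4 / θ ≤ Real.log n := hn
    rw [div_le_iff₀ hθ] at hL
    have hL0 : 0 ≤ Real.log n := Real.log_nonneg hn1'
    have h2 : Real.log 2 ≤ 1 := by linarith [Real.log_two_lt_d9]
    have h2' : 0 ≤ Real.log 2 := Real.log_nonneg one_le_two
    have hkR : (rk Zh : ℝ) ≤ rk N₀ := by exact_mod_cast hk
    have hkR' : (rk N₀ : ℝ) ≤ n := by exact_mod_cast hk'
    have hk0 : (0 : ℝ) ≤ rk Zh := Nat.cast_nonneg _
    generalize (rk Zh : ℝ) = k at *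
    generalize (rk N₀ : ℝ) = k₀ at *
    generalize Real.log n = L at *
    generalize Real.log 2 = l at *
    have h6 : (k₀ - k) * l ≤ n := by nlinarith
    have h7 : L * n * (a + εK) ≤ L * n * (θ / 4) :=
      mul_le_mul_of_nonneg_left ha (mul_nonneg hL0 hn0.le)
    have h8 : 4 * n ≤ L * θ * n := mul_le_mul_of_nonneg_right hL hn0.le
    nlinarith

end Crest.Agent.R152
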