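import Crest.Agent.R152.PrB

/-! # Row 152: few kernel vectors modulo o -/

set_option autoImplicit false
open Matrix Filter MeasureTheory
open Crest.FinProb Crest.ProbabilityR.SignMatrix Crest.Agent.Lib.BiasedCube

noncomputable section
namespace Crest.Agent.R152

/-- Reductions modulo `l` of the kernel vectors modulo `qm l`. -/
def KB {n : ℕ} (l : ℕ) (B : Matrix (Fin n) (Fin n) ℤ) : Set (Fin n → ZMod l) :=
  {v | ∃ w : Fin n → ℤ, (∀ i, ((qm l : ℕ) : ℤ) ∣ (B *ᵥ w) i) ∧ v = fun i => (w i : ZMod l)}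

private theorem t1_cast {n : ℕ} (B : Matrix (Fin n) (Fin n) ℤ) (o : ℕ) (w : Fin n → ℤ) :
    (B.map (Int.cast : ℤ → ZMod o)) *ᵥ (fun i => (w i : ZMod o)) = 0 ↔
      ∀ i, (o : ℤ) ∣ (B *ᵥ w) i := by
  rw [funext_iff]
  refine forall_congr' fun i => ?_
  rw [← ZMod.intCast_zmod_eq_zero_iff_dvd]
  simp [Matrix.mulVec, dotProduct]

private theorem t1_dvd_qm (l : ℕ) : l ∣ qm l := by
  unfold qm
  split_ifs with h
  · rw [h]; norm_num
  · exact dvd_rfl

private theorem t1_step {n : ℕ} (B : Matrix (Fin n) (Fin n) ℤ) {l o' : ℕ} (hl : l.Prime)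
    (ho' : 0 < o') (hq : qm l ∣ l * o') :
    Nat.card {α : Fin n → ZMod (l * o') // (B.map (Int.cast : ℤ → ZMod (l * o'))) *ᵥ α = 0} ≤
      Nat.card {α : Fin n → ZMod o' // (B.map (Int.cast : ℤ → ZMod o')) *ᵥ α = 0} *
        (KB l B).ncard := by
  classical
  haveI : NeZero l := ⟨hl.ne_zero⟩
  haveI : NeZero o' := ⟨ho'.ne'⟩
  haveI : NeZero (l * o') := ⟨mul_ne_zero hl.ne_zero ho'.ne'⟩
  rw [Nat.card_eq_fintype_card, Nat.card_eq_fintype_card, Fintype.card_subtype,
    Fintype.card_subtype]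
  let red : (Fin n → ZMod (l * o')) → Fin n → ZMod l := fun α i =>
    ZMod.castHom (dvd_mul_right l o') (ZMod l) (α i)
  have hval : ∀ α : Fin n → ZMod (l * o'), (B.map (Int.cast : ℤ → ZMod (l * o'))) *ᵥ α = 0 →
      ∀ i, ((l * o' : ℕ) : ℤ) ∣ (B *ᵥ fun i => ((α i).val : ℤ)) i := fun α hα =>
    (t1_cast B _ _).1 (by simpa using hα)
  refine (Finset.card_le_mul_card_image (f := red) _ _ fun v hv => ?_).trans
    (Nat.mul_le_mul_left _ ?_)
  · obtain ⟨α₁, h1, rfl⟩ := Finset.mem_image.1 hv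
    have h1' := (Finset.mem_filter.1 h1).2
    have hd : ∀ α : Fin n → ZMod (l * o'), red α = red α₁ → ∀ i, l ∣ ((α - α₁) i).val := by
      intro α hα i
      rw [← ZMod.natCast_eq_zero_iff, ZMod.natCast_val, ← ZMod.castHom_apply (h := dvd_mul_right l o'),
        Pi.sub_apply, map_sub, sub_eq_zero]
      exact congrFun hα i
    refine Finset.card_le_card_of_injOn
      (fun α i => (((((α - α₁) i).val / l : ℕ) : ℤ) : ZMod o')) (fun α hα => ?_)
      (fun α hα α' hα' h => ?_)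
    · obtain ⟨h2, h3⟩ := Finset.mem_filter.1 hα
      refine Finset.mem_filter.2 ⟨Finset.mem_univ _, (t1_cast B _ _).2 fun i => ?_⟩
      have h4 := hval (α - α₁) (by rw [Matrix.mulVec_sub, (Finset.mem_filter.1 h2).2, h1', sub_self]) i
      have h5 : (fun i => (((α - α₁) i).val : ℤ)) =
          (l : ℤ) • fun i => ((((α - α₁) i).val / l : ℕ) : ℤ) := by
        funext j
        rw [Pi.smul_apply, smul_eq_mul, ← Nat.cast_mul, Nat.mul_div_cancel' (hd α h3 j)]
      rw [h5, Matrix.mulVec_smul, Pi.smul_apply, smul_eq_mul, Nat.cast_mul] at h4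
      exact (mul_dvd_mul_iff_left (by exact_mod_cast hl.ne_zero)).1 h4
    · have h3 := hd α (Finset.mem_filter.1 hα).2
      have h3' := hd α' (Finset.mem_filter.1 hα').2
      rw [← sub_left_inj (a := α₁)]
      funext i
      have h4 := congrFun h i
      simp only [Int.cast_natCast] at h4
      have lt : ∀ x : ZMod (l * o'), x.val / l < o' := fun x =>
        Nat.div_lt_of_lt_mul (ZMod.val_lt x)
      have h5 := congrArg ZMod.val h4
      rw [ZMod.val_cast_of_lt (lt _), ZMod.val_cast_of_lt (lt _)] at h5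
      apply ZMod.val_injective
      rw [← Nat.mul_div_cancel' (h3 i), ← Nat.mul_div_cancel' (h3' i), h5]
  · rw [← Set.ncard_coe_finset]
    refine Set.ncard_le_ncard (fun v hv => ?_) (Set.toFinite _)
    obtain ⟨α, h1, rfl⟩ := Finset.mem_image.1 hv
    refine ⟨fun i => ((α i).val : ℤ), fun i => (Int.natCast_dvd_natCast.2 hq).trans
      (hval α (Finset.mem_filter.1 h1).2 i), funext fun i => ?_⟩
    simp [red]

theorem T1_of_KB {n : ℕ} (B : Matrix (Fin n) (Fin n) ℤ) {ρ C : ℝ} (hρ : 0 ≤ ρ)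
    (h : ∀ l : ℕ, l.Prime → (l : ℝ) ≤ (n : ℝ) ^ C →
      ((KB l B).ncard : ℝ) ≤ (l : ℝ) ^ (ρ * n)) : T1 ρ C B := by
  intro o
  induction o using Nat.strong_induction_on with
  | _ o ih =>
    intro ho hC
    have hρn : 0 ≤ ρ * n := mul_nonneg hρ (Nat.cast_nonneg _)
    by_cases h2 : o ≤ 2
    · haveI : NeZero o := ⟨by omega⟩
      have h3 : Nat.card {α : Fin n → ZMod o // (B.map (Int.cast : ℤ → ZMod o)) *ᵥ α = 0} ≤
          2 ^ n := by
        refine (Nat.card_le_card_of_injective _ Subtype.val_injective).trans ?_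
        rw [Nat.card_eq_fintype_card, Fintype.card_fun, ZMod.card, Fintype.card_fin]
        exact Nat.pow_le_pow_left h2 n
      have h4 : (1 : ℝ) ≤ (o : ℝ) ^ (ρ * n) := Real.one_le_rpow (by exact_mod_cast ho) hρn
      refine le_trans (by exact_mod_cast h3) (le_mul_of_one_le_right (by positivity) h4)
    obtain ⟨l, hl, hq⟩ : ∃ l : ℕ, l.Prime ∧ qm l ∣ o := by
      rcases Nat.four_dvd_or_exists_odd_prime_and_dvd_of_two_lt (not_le.1 h2) with h4 | ⟨l, hl, h4, h5⟩
      · exact ⟨2, Nat.prime_two, h4⟩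
      · refine ⟨l, hl, ?_⟩
        rw [qm, if_neg (by rintro rfl; exact absurd h5 (by decide))]
        exact h4
    obtain ⟨o', rfl⟩ := (t1_dvd_qm l).trans hq
    have ho' : 0 < o' := Nat.pos_of_mul_pos_left ho
    have h3 : o' < l * o' := lt_mul_of_one_lt_left ho' hl.one_lt
    have h4 : l ≤ l * o' := Nat.le_mul_of_pos_right l ho'
    have h5 := ih o' h3 ho' (le_trans (by exact_mod_cast h3.le) hC)
    have h6 := h l hl (le_trans (by exact_mod_cast h4) hC)
    refine le_trans (by exact_mod_cast t1_step B hl ho' hq)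
      ((mul_le_mul h5 h6 (Nat.cast_nonneg _) (by positivity)).trans (le_of_eq ?_))
    rw [Nat.cast_mul, Real.mul_rpow (Nat.cast_nonneg _) (Nat.cast_nonneg _)]
    ring

private theorem t1_unit {l : ℕ} (hl : l.Prime) {x : ZMod (qm l)}
    (hx : ZMod.castHom (t1_dvd_qm l) (ZMod l) x ≠ 0) : IsUnit x := by
  have hq : qm l ∣ l ^ 2 := by
    unfold qm
    split_ifs with h
    · rw [h]; norm_num
    · exact dvd_pow_self l two_ne_zero
  haveI : NeZero (qm l) := ⟨fun h => by
    rw [h, zero_dvd_iff] at hq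
    exact pow_ne_zero 2 hl.ne_zero hq⟩
  rw [← ZMod.natCast_zmod_val x] at hx ⊢
  rw [map_natCast, Ne, ZMod.natCast_eq_zero_iff] at hx
  rw [ZMod.isUnit_iff_coprime]
  exact Nat.Coprime.coprime_dvd_right hq
    (((Nat.Prime.coprime_iff_not_dvd hl).2 hx).symm.pow_right 2)

private theorem t1_kerJ_step {n : ℕ} (B : Matrix (Fin n) (Fin n) ℤ) {l : ℕ} (hl : l.Prime)
    {J : Finset (Fin n)} (hJ : KerJ (ZMod (qm l)) Finset.univ J B)
    (h : l ^ J.card < (KB l B).ncard) :
    ∃ j₀, j₀ ∉ J ∧ KerJ (ZMod (qm l)) Finset.univ (insert j₀ J) B := by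
  haveI : Fact l.Prime := ⟨hl⟩
  obtain ⟨W, hW⟩ := hJ
  obtain ⟨_, ⟨w, hw, rfl⟩, _, ⟨w', hw', rfl⟩, hne, heq⟩ :=
    Set.exists_ne_map_eq_of_ncard_lt_of_maps_to (s := KB l B) (t := Set.univ)
      (f := fun (v : Fin n → ZMod l) (j : J) => v j) (by
        rwa [Set.ncard_univ, Nat.card_eq_fintype_card, Fintype.card_fun, ZMod.card,
          Fintype.card_coe]) (fun _ _ => Set.mem_univ _)
  obtain ⟨j₀, hj₀⟩ := Function.ne_iff.1 hne
  set red := ZMod.castHom (t1_dvd_qm l) (ZMod l) with hred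
  set A := B.map (Int.cast : ℤ → ZMod (qm l)) with hA
  set u : Fin n → ZMod (qm l) := fun i => ((w - w') i : ℤ) with hu
  have hu0 : A *ᵥ u = 0 := (t1_cast B _ _).2 fun i => by
    rw [Matrix.mulVec_sub]
    exact dvd_sub (hw i) (hw' i)
  have hru : ∀ i, red (u i) = (w i : ZMod l) - w' i := fun i => by simp [hu]
  have hruJ : ∀ j ∈ J, red (u j) = 0 := fun j hj => by
    rw [hru, sub_eq_zero]
    exact congrFun heq ⟨j, hj⟩
  have hW0 : ∀ j ∈ J, A *ᵥ W j = 0 := fun j hj =>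
    funext fun i => (hW j hj).2.1 i (Finset.mem_univ i)
  set u' : Fin n → ZMod (qm l) := u - ∑ j ∈ J, u j • W j with hu'
  have h1 : A *ᵥ u' = 0 := by
    rw [hu', Matrix.mulVec_sub, hu0, Matrix.mulVec_sum, zero_sub, neg_eq_zero]
    exact Finset.sum_eq_zero fun j hj => by rw [Matrix.mulVec_smul, hW0 j hj, smul_zero]
  have h2 : ∀ j' ∈ J, u' j' = 0 := fun j' hj' => by
    rw [hu', Pi.sub_apply, Finset.sum_apply, Finset.sum_eq_single_of_mem j' hj']
    · simp [(hW j' hj').2.2 j' hj']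
    · intro j hj hne'
      simp [(hW j hj).2.2 j' hj', hne']
  have h3 : red (u' j₀) ≠ 0 := by
    rw [hu', Pi.sub_apply, Finset.sum_apply, map_sub, map_sum, Finset.sum_eq_zero, sub_zero, hru]
    · exact sub_ne_zero.2 hj₀
    · intro j hj
      rw [Pi.smul_apply, smul_eq_mul, map_mul, hruJ j hj, zero_mul]
  have hj₀J : j₀ ∉ J := fun hj => h3 (by rw [h2 j₀ hj, map_zero])
  obtain ⟨c, hc⟩ := (t1_unit hl h3).exists_left_inv
  refine ⟨j₀, hj₀J, fun j => if j = j₀ then c • u' else W j - W j j₀ • c • u', fun j hj =>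
    ⟨fun k hk => absurd (Finset.mem_univ k) hk, fun i _ => ?_, fun j' hj' => ?_⟩⟩
  · rcases Finset.mem_insert.1 hj with rfl | hj
    · simp only [if_true]
      rw [← hA, Matrix.mulVec_smul, h1, smul_zero]
      rfl
    · have : j ≠ j₀ := fun e => hj₀J (e ▸ hj)
      simp only [if_neg this]
      rw [← hA, Matrix.mulVec_sub, Matrix.mulVec_smul, Matrix.mulVec_smul, h1, hW0 j hj]
      simp
  · rcases Finset.mem_insert.1 hj with rfl | hj
    · simp only [if_true, Pi.smul_apply, smul_eq_mul]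
      rcases Finset.mem_insert.1 hj' with rfl | hj'
      · simp [hc]
      · have : j ≠ j' := fun e => hj₀J (e ▸ hj')
        simp [h2 j' hj', this]
    · have : j ≠ j₀ := fun e => hj₀J (e ▸ hj)
      simp only [if_neg this, Pi.sub_apply, Pi.smul_apply, smul_eq_mul]
      rcases Finset.mem_insert.1 hj' with rfl | hj'
      · simp [hc, this]
      · simp [h2 j' hj', (hW j hj).2.2 j' hj']

theorem kerJ_of_KB {n : ℕ} (B : Matrix (Fin n) (Fin n) ℤ) {l : ℕ} (hl : l.Prime) {k : ℕ}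
    (h : l ^ k < (KB l B).ncard) :
    ∃ J : Finset (Fin n), J.card = k + 1 ∧ KerJ (ZMod (qm l)) Finset.univ J B := by
  have step : ∀ J : Finset (Fin n), KerJ (ZMod (qm l)) Finset.univ J B →
      l ^ J.card < (KB l B).ncard →
      ∃ J' : Finset (Fin n), J'.card = J.card + 1 ∧ KerJ (ZMod (qm l)) Finset.univ J' B := by
    intro J h1 h2
    obtain ⟨j₀, h3, h4⟩ := t1_kerJ_step B hl h1 h2
    exact ⟨_, Finset.card_insert_of_notMem h3, h4⟩
  induction k with
  | zero => exact step ∅ ⟨0, by simp⟩ h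
  | succ k ih =>
    obtain ⟨J, h1, h2⟩ := ih (lt_of_le_of_lt (Nat.pow_le_pow_right hl.pos (Nat.le_succ k)) h)
    rw [← h1] at h ⊢
    exact step J h2 h

theorem neg_T1 {p : ℝ} (h0 : 0 < p) (h1 : p < 1) {ρ : ℝ} (hρ : 0 < ρ) (C : ℝ) :
    Neg p (fun n => {ω : Om n | ¬ T1 ρ C (mat ω)}) := by
  intro D
  have ha : 0 < -Real.log (mx p) := neg_pos.2 (Real.log_neg (mx_pos p) (mx_lt_one h0 h1))
  set a := -Real.log (mx p) with ha'
  have hc : 0 < a * ρ ^ 2 / 2 := by positivity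
  filter_upwards [eventually_ge_atTop 1, (tendsto_natCast_atTop_atTop (R := ℝ)).eventually
    (eventually_ge_atTop ((D + |C| + 2) / (a * ρ ^ 2 / 2)))] with n hn1 hn
  rw [div_le_iff₀ hc] at hn
  have hn1' : (1 : ℝ) ≤ n := by exact_mod_cast hn1
  set k := ⌊ρ * n⌋₊ with hk
  have hρn : 0 ≤ ρ * n := by positivity
  have hb := P_le_card_mul h0.le h1.le
    (((Finset.range (⌊(n : ℝ) ^ C⌋₊ + 1)).filter Nat.Prime) ×ˢ
      (Finset.univ.filter fun J : Finset (Fin n) => J.card = k + 1))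
    (fun x => {ω : Om n | KerJ (ZMod (qm x.1)) Finset.univ x.2 (mat ω)})
    (B := {ω : Om n | ¬ T1 ρ C (mat ω)}) (c := mx p ^ ((k + 1) * (k + 1 + 1) / 2))
    (fun ω hω => by
      by_contra hcon
      refine hω (T1_of_KB _ hρ.le fun l hl hlC => ?_)
      by_contra hlt
      have h2 : (l : ℝ) ^ (k : ℝ) ≤ (l : ℝ) ^ (ρ * n) :=
        Real.rpow_le_rpow_of_exponent_le (by exact_mod_cast hl.one_le) (Nat.floor_le hρn)
      rw [Real.rpow_natCast] at h2
      obtain ⟨J, h3, h4⟩ := kerJ_of_KB (mat ω) hl (k := k)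
        (by exact_mod_cast h2.trans_lt (not_le.1 hlt))
      exact hcon ⟨(l, J), Finset.mem_product.2 ⟨Finset.mem_filter.2 ⟨Finset.mem_range.2
        (Nat.lt_succ_of_le (Nat.le_floor hlC)), hl⟩, Finset.mem_filter.2 ⟨Finset.mem_univ _, h3⟩⟩,
        h4⟩)
    (fun x hx => by
      obtain ⟨h2, h3⟩ := Finset.mem_product.1 hx
      have hl := (Finset.mem_filter.1 h2).2
      rw [← (Finset.mem_filter.1 h3).2]
      refine P_KerJ _ (fun h4 => ?_) h0.le h1.le (Finset.subset_univ _)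
      have h5 := Nat.le_of_dvd two_pos ((ZMod.natCast_eq_zero_iff 2 (qm x.1)).1 (by exact_mod_cast h4))
      have := hl.two_le
      unfold qm at h5
      split_ifs at h5 <;> omega)
  refine hb.trans ?_
  have c1 : ((((Finset.range (⌊(n : ℝ) ^ C⌋₊ + 1)).filter Nat.Prime) ×ˢ
      (Finset.univ.filter fun J : Finset (Fin n) => J.card = k + 1)).card : ℝ) ≤
      Real.exp ((|C| + 2) * n) := by
    rw [Finset.card_product, Nat.cast_mul]
    have b1 : (((Finset.range (⌊(n : ℝ) ^ C⌋₊ + 1)).filter Nat.Prime).card : ℝ) ≤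
        Real.exp (|C| * n) * Real.exp n := by
      have b2 : (n : ℝ) ^ C ≤ Real.exp (|C| * n) := by
        rw [Real.rpow_def_of_pos (by linarith), Real.exp_le_exp, mul_comm]
        refine (mul_le_mul_of_nonneg_right (le_abs_self C) (Real.log_nonneg hn1')).trans
          (mul_le_mul_of_nonneg_left ?_ (abs_nonneg C))
        linarith [Real.log_le_sub_one_of_pos (by linarith : (0 : ℝ) < n)]
      have b3 : (((Finset.range (⌊(n : ℝ) ^ C⌋₊ + 1)).filter Nat.Prime).card : ℝ) ≤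
          ⌊(n : ℝ) ^ C⌋₊ + 1 := by
        exact_mod_cast (Finset.card_filter_le _ _).trans (Finset.card_range _).le
      have b4 := Nat.floor_le (a := (n : ℝ) ^ C) (by positivity)
      have b5 := Real.add_one_le_exp (n : ℝ)
      have b6 : 1 ≤ Real.exp (|C| * n) := Real.one_le_exp (by positivity)
      nlinarith
    have b7 : ((Finset.univ.filter fun J : Finset (Fin n) => J.card = k + 1).card : ℝ) ≤
        Real.exp n := by
      have b8 : (Finset.univ.filter fun J : Finset (Fin n) => J.card = k + 1).card ≤ 2 ^ n :=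
        (Finset.card_filter_le _ _).trans (by simp)
      refine le_trans (by exact_mod_cast b8 : _ ≤ (2 : ℝ) ^ n) ?_
      rw [← Real.exp_one_pow]
      exact pow_le_pow_left₀ zero_le_two (by linarith [Real.add_one_le_exp (1 : ℝ)]) n
    refine (mul_le_mul b1 b7 (Nat.cast_nonneg _) (by positivity)).trans (le_of_eq ?_)
    rw [← Real.exp_add, ← Real.exp_add]
    congr 1
    ring
  have c2 : mx p ^ ((k + 1) * (k + 1 + 1) / 2) ≤ Real.exp (-(a * ρ ^ 2 / 2 * n * n)) := by
    rw [← Real.exp_log (mx_pos p), ← Real.exp_nat_mul, Real.exp_le_exp]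
    have b1 : (k + 1) * (k + 1) ≤ 2 * ((k + 1) * (k + 1 + 1) / 2) := by
      have : (k + 1) * (k + 1 + 1) = (k + 1) * (k + 1) + (k + 1) := by ring
      omega
    have b2 : ((k : ℝ) + 1) * (k + 1) ≤ 2 * (((k + 1) * (k + 1 + 1) / 2 : ℕ) : ℝ) := by
      exact_mod_cast b1
    have b3 : ρ * n ≤ k + 1 := (Nat.lt_floor_add_one _).le
    have b4 := mul_le_mul b3 b3 hρn (by positivity)
    have b5 := mul_le_mul_of_nonneg_left (b4.trans b2) ha.le
    have b6 : Real.log (mx p) = -a := by rw [ha', neg_neg]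
    rw [b6]
    nlinarith
  refine (mul_le_mul c1 c2 (pow_nonneg (mx_pos p).le _) (Real.exp_pos _).le).trans ?_
  rw [← Real.exp_add, Real.exp_le_exp]
  have := mul_le_mul_of_nonneg_right hn (by linarith : (0 : ℝ) ≤ n)
  nlinarith

end Crest.Agent.R152
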