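import Crest.Agent.R152.PrT2B

/-! # Row 152: the Gaussian integral bound -/

set_option autoImplicit false
open Matrix Filter MeasureTheory
open Crest.FinProb Crest.ProbabilityR.SignMatrix Crest.Agent.Lib.BiasedCube

noncomputable section
namespace Crest.Agent.R152

/-- The one pair majorant. -/
def T2C_h (τ a b : ℝ) (w : ℝ × ℝ) : ℝ :=
  Real.exp (-a * w.1 ^ 2) * Real.exp (-b * w.2 ^ 2) +
    16 / τ * (Real.exp (-(τ / 4) * w.1 ^ 2) * Real.exp (-(τ / 4) * w.2 ^ 2))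

theorem T2C_h_nonneg {τ : ℝ} (hτ : 0 < τ) (a b : ℝ) (w : ℝ × ℝ) : 0 ≤ T2C_h τ a b w := by
  unfold T2C_h; positivity

theorem T2C_h_int {τ a b : ℝ} (hτ : 0 < τ) (ha : 0 < a) (hb : 0 < b) :
    Integrable (T2C_h τ a b) ∧
      ∫ w, T2C_h τ a b w = Real.pi / √(a * b) + 64 * Real.pi / τ ^ 2 := by
  have h4 : 0 < τ / 4 := by positivity
  have i1 : Integrable (fun w : ℝ × ℝ => Real.exp (-a * w.1 ^ 2) * Real.exp (-b * w.2 ^ 2)) :=
    (integrable_exp_neg_mul_sq ha).mul_prod (integrable_exp_neg_mul_sq hb)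
  have i2 : Integrable (fun w : ℝ × ℝ =>
      Real.exp (-(τ / 4) * w.1 ^ 2) * Real.exp (-(τ / 4) * w.2 ^ 2)) :=
    (integrable_exp_neg_mul_sq h4).mul_prod (integrable_exp_neg_mul_sq h4)
  refine ⟨i1.add (i2.const_mul _), ?_⟩
  unfold T2C_h
  rw [integral_add i1 (i2.const_mul _), integral_const_mul]
  have e1 : ∀ a b : ℝ, ∫ w : ℝ × ℝ, Real.exp (-a * w.1 ^ 2) * Real.exp (-b * w.2 ^ 2) =
      √(Real.pi / a) * √(Real.pi / b) := fun a b => by
    rw [← integral_gaussian, ← integral_gaussian]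
    exact integral_prod_mul (μ := volume) (ν := volume) (fun x : ℝ => Real.exp (-a * x ^ 2))
      fun x : ℝ => Real.exp (-b * x ^ 2)
  rw [e1, e1, Real.mul_self_sqrt (by positivity), ← Real.sqrt_mul (by positivity),
    div_mul_div_comm, Real.sqrt_div (by positivity), Real.sqrt_mul_self Real.pi_pos.le]
  field_simp
  ring

theorem T2C_pt {τ : ℝ} (hτ : 0 < τ) (a b y z : ℝ) :
    Real.exp (-(τ / 2) * (y ^ 2 + z ^ 2)) *
      (if |y| ≤ 1 / 2 ∧ |z| ≤ 1 / 2 then Real.exp (-(a * y ^ 2 + b * z ^ 2)) else 1) ≤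
      T2C_h τ a b (y, z) := by
  unfold T2C_h
  simp only
  split_ifs with h
  · have h1 : Real.exp (-(τ / 2) * (y ^ 2 + z ^ 2)) ≤ 1 :=
      Real.exp_le_one_iff.2 (by nlinarith [sq_nonneg y, sq_nonneg z])
    have h2 : Real.exp (-(a * y ^ 2 + b * z ^ 2)) =
        Real.exp (-a * y ^ 2) * Real.exp (-b * z ^ 2) := by
      rw [← Real.exp_add]; congr 1; ring
    have h3 := mul_le_of_le_one_left (Real.exp_pos (-(a * y ^ 2 + b * z ^ 2))).le h1
    rw [← h2]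
    exact h3.trans (le_add_of_nonneg_right (by positivity))
  · have h1 : 1 / 4 ≤ y ^ 2 + z ^ 2 := by
      rcases not_and_or.1 h with h | h
      · have := not_le.1 h
        nlinarith [sq_abs y, sq_nonneg z]
      · have := not_le.1 h
        nlinarith [sq_abs z, sq_nonneg y]
    have h2 : Real.exp (-(τ / 16)) ≤ 16 / τ := by
      rw [Real.exp_neg, ← inv_div τ 16]
      exact inv_anti₀ (by positivity) (by linarith [Real.add_one_le_exp (τ / 16)])
    have h3 : Real.exp (-(τ / 2) * (y ^ 2 + z ^ 2)) ≤ Real.exp (-(τ / 16)) *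
        (Real.exp (-(τ / 4) * y ^ 2) * Real.exp (-(τ / 4) * z ^ 2)) := by
      rw [← Real.exp_add, ← Real.exp_add]
      exact Real.exp_le_exp.2 (by nlinarith)
    rw [mul_one]
    exact (h3.trans (mul_le_mul_of_nonneg_right h2 (by positivity))).trans
      (le_add_of_nonneg_left (by positivity))

theorem T2C_split {c : ℝ} (hc : 0 < c) (hc1 : c ≤ 1) {n : ℕ} (hn : 1 ≤ n) {Y Z : ℝ} (hY0 : 0 ≤ Y)
    (hZ0 : 0 ≤ Z) (hY : Y ≤ n / 4) (hZ : Z ≤ n / 4) : ∃ k ∈ Finset.range n,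
      Real.exp (-c * (Y * Z)) ≤ Real.exp (1 + 1 / c) ^ n *
        Real.exp (-((k + 1 : ℝ) * Y + n / (k + 1) * Z)) := by
  have hn' : (1 : ℝ) ≤ n := by exact_mod_cast hn
  have h0 : 0 ≤ c * Z := by positivity
  have h1 := Nat.floor_le h0
  have h2 := Nat.lt_floor_add_one (c * Z)
  refine ⟨⌊c * Z⌋₊, Finset.mem_range.2 ?_, ?_⟩
  · have : (⌊c * Z⌋₊ : ℝ) < n := by nlinarith
    exact_mod_cast this
  · rw [← Real.exp_nat_mul, ← Real.exp_add]
    refine Real.exp_le_exp.2 ?_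
    have h3 : (n : ℝ) / (⌊c * Z⌋₊ + 1) * Z ≤ n * (1 / c) := by
      rw [div_mul_eq_mul_div, mul_div_assoc]
      refine mul_le_mul_of_nonneg_left ?_ (by positivity)
      rw [div_le_div_iff₀ (by positivity) hc]
      linarith
    have h4 := mul_le_mul_of_nonneg_right h1 hY0
    nlinarith

theorem T2C_small {n : ℕ} (y z : Fin n → ℝ) :
    ∑ i ∈ smallIdx y z, y i ^ 2 ≤ n / 4 ∧ ∑ i ∈ smallIdx y z, z i ^ 2 ≤ n / 4 := by
  have hc : ((smallIdx y z).card : ℝ) ≤ n := by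
    have := Finset.card_le_univ (smallIdx y z)
    rw [Fintype.card_fin] at this
    exact_mod_cast this
  have key : ∀ w : Fin n → ℝ, (∀ i ∈ smallIdx y z, |w i| ≤ 1 / 2) →
      ∑ i ∈ smallIdx y z, w i ^ 2 ≤ n / 4 := fun w hw => by
    have := Finset.sum_le_card_nsmul (smallIdx y z) (fun i => w i ^ 2) (1 / 4) fun i hi => by
      have := hw i hi
      nlinarith [sq_abs (w i), abs_nonneg (w i)]
    rw [nsmul_eq_mul] at this
    linarith
  exact ⟨key y fun i hi => (Finset.mem_filter.1 hi).2.1, key z fun i hi => (Finset.mem_filter.1 hi).2.2⟩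

theorem T2C_bound {c : ℝ} (hc : 0 < c) (hc1 : c ≤ 1) {n : ℕ} (hn : 1 ≤ n) {τ : ℝ} (hτ : 0 < τ)
    (y z : Fin n → ℝ) :
    Real.exp (-(τ / 2) * (∑ i, y i ^ 2 + ∑ i, z i ^ 2)) *
        Real.exp (-c * ((∑ i ∈ smallIdx y z, y i ^ 2) * ∑ i ∈ smallIdx y z, z i ^ 2)) ≤
      Real.exp (1 + 1 / c) ^ n *
        ∑ k ∈ Finset.range n, ∏ i, T2C_h τ (k + 1) (n / (k + 1)) (y i, z i) := by
  obtain ⟨k, hk, h⟩ := T2C_split hc hc1 hn (Finset.sum_nonneg fun i _ => sq_nonneg (y i))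
    (Finset.sum_nonneg fun i _ => sq_nonneg (z i)) (T2C_small y z).1 (T2C_small y z).2
  refine (mul_le_mul_of_nonneg_left h (Real.exp_pos _).le).trans ?_
  rw [mul_left_comm]
  refine mul_le_mul_of_nonneg_left (le_trans ?_ (Finset.single_le_sum
    (f := fun k : ℕ => ∏ i, T2C_h τ (k + 1) (n / (k + 1)) (y i, z i))
    (fun k _ => Finset.prod_nonneg fun i _ => T2C_h_nonneg hτ _ _ _) hk)) (by positivity)
  refine le_trans (le_of_eq ?_) (Finset.prod_le_prod (fun i _ => ?_)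
    fun i _ => T2C_pt hτ (k + 1) (n / (k + 1)) (y i) (z i))
  · rw [Finset.prod_mul_distrib, ← Real.exp_sum, ← Finset.prod_filter, ← Real.exp_sum]
    congr 2
    · rw [← Finset.mul_sum, Finset.sum_add_distrib]
    · rw [Finset.sum_neg_distrib, Finset.sum_add_distrib, ← Finset.mul_sum, ← Finset.mul_sum]
      rfl
  · refine mul_nonneg (Real.exp_pos _).le ?_
    split_ifs
    · exact (Real.exp_pos _).le
    · exact zero_le_one

theorem T2C_prod {n : ℕ} {h : ℝ × ℝ → ℝ} (hi : Integrable h) :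
    Integrable (fun yz : (Fin n → ℝ) × (Fin n → ℝ) => ∏ i, h (yz.1 i, yz.2 i)) ∧
      ∫ yz : (Fin n → ℝ) × (Fin n → ℝ), ∏ i, h (yz.1 i, yz.2 i) = (∫ w, h w) ^ n := by
  have hmp := volume_measurePreserving_arrowProdEquivProdArrow ℝ ℝ (Fin n)
  constructor
  · rw [← hmp.integrable_comp_emb (MeasurableEquiv.measurableEmbedding _)]
    exact Integrable.fintype_prod (f := fun _ : Fin n => h) fun _ => hi
  · rw [← hmp.integral_comp']
    have := integral_fintype_prod_volume_eq_pow (ι := Fin n) h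
    rw [Fintype.card_fin] at this
    exact this

theorem gauss_int_bound {c : ℝ} (hc : 0 < c) (hc1 : c ≤ 1) : ∃ C : ℝ, 0 < C ∧ ∀ᶠ n : ℕ in atTop,
    ∫⁻ yz : (Fin n → ℝ) × (Fin n → ℝ), ENNReal.ofReal
      (Real.exp (-((n : ℝ) ^ (1 / 4 : ℝ) / 2) * (∑ i, yz.1 i ^ 2 + ∑ i, yz.2 i ^ 2)) *
        Real.exp (-c * ((∑ i ∈ smallIdx yz.1 yz.2, yz.1 i ^ 2) *
          ∑ i ∈ smallIdx yz.1 yz.2, yz.2 i ^ 2))) ≤
      ENNReal.ofReal ((C / Real.sqrt n) ^ n) := by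
  refine ⟨2 * Real.exp (1 + 1 / c) * (65 * Real.pi), by positivity, ?_⟩
  filter_upwards [eventually_ge_atTop 1] with n hn
  have hn' : (0 : ℝ) < n := by exact_mod_cast hn
  set τ : ℝ := (n : ℝ) ^ (1 / 4 : ℝ) with hτd
  have hτ : 0 < τ := Real.rpow_pos_of_pos hn' _
  have hτ2 : τ ^ 2 = √n := by
    rw [hτd, ← Real.rpow_natCast, ← Real.rpow_mul hn'.le, Real.sqrt_eq_rpow]
    norm_num
  have hk : ∀ k : ℕ, Integrable (T2C_h τ (k + 1) (n / (k + 1))) ∧
      ∫ w, T2C_h τ (k + 1) (n / (k + 1)) w = 65 * Real.pi / √n := fun k => by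
    obtain ⟨h1, h2⟩ := T2C_h_int (a := (k + 1 : ℝ)) (b := n / (k + 1)) hτ (by positivity)
      (by positivity)
    refine ⟨h1, ?_⟩
    rw [h2, hτ2, mul_div_cancel₀ _ (by positivity)]
    ring
  have hi : Integrable fun yz : (Fin n → ℝ) × (Fin n → ℝ) =>
      ∑ k ∈ Finset.range n, ∏ i, T2C_h τ (k + 1) (n / (k + 1)) (yz.1 i, yz.2 i) :=
    integrable_finsetSum _ fun k _ => (T2C_prod (hk k).1).1
  refine le_trans (b := ∫⁻ yz : (Fin n → ℝ) × (Fin n → ℝ), ENNReal.ofReal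
    (Real.exp (1 + 1 / c) ^ n *
      ∑ k ∈ Finset.range n, ∏ i, T2C_h τ (k + 1) (n / (k + 1)) (yz.1 i, yz.2 i)))
    (lintegral_mono fun yz => ENNReal.ofReal_le_ofReal (T2C_bound hc hc1 hn hτ yz.1 yz.2)) ?_
  rw [← ofReal_integral_eq_lintegral_ofReal (hi.const_mul _) (ae_of_all _ fun yz =>
    mul_nonneg (by positivity) (Finset.sum_nonneg fun k _ =>
      Finset.prod_nonneg fun i _ => T2C_h_nonneg hτ _ _ _))]
  refine ENNReal.ofReal_le_ofReal ?_
  have e : ∀ k ∈ Finset.range n, ∫ yz : (Fin n → ℝ) × (Fin n → ℝ),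
      ∏ i, T2C_h τ (k + 1) (n / (k + 1)) (yz.1 i, yz.2 i) = (65 * Real.pi / √n) ^ n :=
    fun k _ => (T2C_prod (hk k).1).2.trans (by rw [(hk k).2])
  rw [integral_const_mul, integral_finsetSum _ fun k _ => (T2C_prod (hk k).1).1,
    Finset.sum_congr rfl e, Finset.sum_const, Finset.card_range, nsmul_eq_mul, mul_div_assoc _ (65 * Real.pi), mul_pow,
    mul_pow]
  have h2 : (n : ℝ) ≤ 2 ^ n := by exact_mod_cast Nat.lt_two_pow_self.le
  have h3 : 0 ≤ Real.exp (1 + 1 / c) ^ n * (65 * Real.pi / √n) ^ n := by positivity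
  nlinarith [mul_le_mul_of_nonneg_right h2 h3]

end Crest.Agent.R152
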