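import Crest.Agent.R152.PrT2A
import Crest.Agent.R152.PrT2C

/-! # Row 152: the regularised determinant is large -/

set_option autoImplicit false
open Matrix Filter MeasureTheory
open Crest.FinProb Crest.ProbabilityR.SignMatrix Crest.Agent.Lib.BiasedCube

noncomputable section
namespace Crest.Agent.R152

theorem PrT2_gauss (n : ℕ) {τ : ℝ} (hτ : 0 < τ) :
    Integrable fun yz : (Fin n → ℝ) × (Fin n → ℝ) =>
      Real.exp (-(τ / 2) * (∑ i, yz.1 i ^ 2 + ∑ i, yz.2 i ^ 2)) := by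
  have h1 : Integrable (fun y : Fin n → ℝ => ∏ i, Real.exp (-(τ / 2) * y i ^ 2)) :=
    Integrable.fintype_prod (f := fun _ t => Real.exp (-(τ / 2) * t ^ 2))
      fun _ => integrable_exp_neg_mul_sq (by positivity)
  refine (h1.mul_prod h1).congr (Eventually.of_forall fun yz => ?_)
  simp only [← Real.exp_sum, ← Real.exp_add, ← Finset.mul_sum, mul_add]

theorem PrT2_ex {n : ℕ} {p : ℝ} (h0 : 0 ≤ p) (h1 : p ≤ 1) {τ : ℝ} (hτ : 0 < τ) {M : ℝ}
    (hM : 0 ≤ M)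
    (h : ∫⁻ yz : (Fin n → ℝ) × (Fin n → ℝ), ENNReal.ofReal
      (Real.exp (-(τ / 2) * (∑ i, yz.1 i ^ 2 + ∑ i, yz.2 i ^ 2)) *
        Real.exp (-(p * (1 - p) / 4) * ((∑ i ∈ smallIdx yz.1 yz.2, yz.1 i ^ 2) *
          ∑ i ∈ smallIdx yz.1 yz.2, yz.2 i ^ 2))) ≤ ENNReal.ofReal M) :
    Ex p (fun ω : Om n => 1 / Real.sqrt ((mat ω).map (Int.cast : ℤ → ℝ) *
      (mat ω).map (Int.cast : ℤ → ℝ) + (τ ^ 2) • (1 : Matrix (Fin n) (Fin n) ℝ)).det) ≤ M := by
  have hint : ∀ ω : Om n, Integrable fun yz : (Fin n → ℝ) × (Fin n → ℝ) =>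
      bernoulliWeight p ω * (Real.exp (-(τ / 2) * (∑ i, yz.1 i ^ 2 + ∑ i, yz.2 i ^ 2)) *
        Real.cos (yz.2 ⬝ᵥ (((mat ω).map (Int.cast : ℤ → ℝ)) *ᵥ yz.1))) := by
    intro ω
    refine Integrable.const_mul (Integrable.mul_bdd (c := 1) (PrT2_gauss n hτ) ?_
      (Eventually.of_forall fun yz => Real.abs_cos_le_one _)) _
    refine Continuous.aestronglyMeasurable ?_
    fun_prop
  have e1 : Ex p (fun ω : Om n => 1 / Real.sqrt ((mat ω).map (Int.cast : ℤ → ℝ) *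
      (mat ω).map (Int.cast : ℤ → ℝ) + (τ ^ 2) • (1 : Matrix (Fin n) (Fin n) ℝ)).det) =
      (1 / (2 * Real.pi)) ^ n * ∫ yz : (Fin n → ℝ) × (Fin n → ℝ),
        Real.exp (-(τ / 2) * (∑ i, yz.1 i ^ 2 + ∑ i, yz.2 i ^ 2)) *
          Ex p (fun ω : Om n =>
            Real.cos (yz.2 ⬝ᵥ (((mat ω).map (Int.cast : ℤ → ℝ)) *ᵥ yz.1))) := by
    rw [Ex_congr p fun ω => det_gauss _ ((mat_isSS ω).1.map _) hτ, Ex_const_mul]
    congr 1
    simp only [← Ex_const_mul]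
    unfold Ex
    rw [integral_finsetSum _ fun ω _ => hint ω]
    exact Finset.sum_congr rfl fun ω _ => (integral_const_mul _ _).symm
  have e2 : ‖∫ yz : (Fin n → ℝ) × (Fin n → ℝ),
        Real.exp (-(τ / 2) * (∑ i, yz.1 i ^ 2 + ∑ i, yz.2 i ^ 2)) *
          Ex p (fun ω : Om n =>
            Real.cos (yz.2 ⬝ᵥ (((mat ω).map (Int.cast : ℤ → ℝ)) *ᵥ yz.1)))‖ₑ ≤
        ENNReal.ofReal M := by
    refine (enorm_integral_le_lintegral_enorm _).trans (le_trans (lintegral_mono fun yz => ?_) h)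
    rw [Real.enorm_eq_ofReal_abs, abs_mul, abs_of_pos (Real.exp_pos _)]
    exact ENNReal.ofReal_le_ofReal
      (mul_le_mul_of_nonneg_left (char_bound h0 h1 _ _) (Real.exp_pos _).le)
  rw [Real.enorm_eq_ofReal_abs, ENNReal.ofReal_le_ofReal_iff hM] at e2
  rw [e1]
  have h2 : (1 / (2 * Real.pi)) ^ n ≤ 1 := by
    refine pow_le_one₀ (by positivity) ?_
    rw [div_le_one (by positivity)]
    linarith [Real.pi_gt_three]
  have h3 : 0 ≤ (1 / (2 * Real.pi)) ^ n := by positivity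
  calc _ ≤ (1 / (2 * Real.pi)) ^ n * M :=
        mul_le_mul_of_nonneg_left ((le_abs_self _).trans e2) h3
    _ ≤ M := mul_le_of_le_one_left hM h2

theorem PrT2_det {n : ℕ} (hn : 1 ≤ n) {B : Matrix (Fin n) (Fin n) ℤ} (hB : IsSS B) {ε C w : ℝ}
    (hw0 : 0 < w) (hw : w * (max C 0 + 1) = 1 / 2) (hL : Real.log 2 ≤ ε * w / 2 * Real.log n)
    (hD : (n : ℝ) ^ ((1 - ε * w / 2) * n) ≤ (B.map (Int.cast : ℤ → ℝ) * B.map (Int.cast : ℤ → ℝ) +
      (((n : ℝ) ^ (1 / 4 : ℝ)) ^ 2) • (1 : Matrix (Fin n) (Fin n) ℝ)).det) : T2 ε C B := by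
  intro a ha
  have hn1 : (1 : ℝ) ≤ n := by exact_mod_cast hn
  have hn0 : (0 : ℝ) < n := by linarith
  have hS : (B.map (Int.cast : ℤ → ℝ)).IsSymm := hB.1.map _
  have hC0 := le_max_right C 0
  have hw1 : w ≤ 1 := by nlinarith
  have ha0 : 0 < (n : ℝ) ^ (-max C 0) := Real.rpow_pos_of_pos hn0 _
  have ha1 : (n : ℝ) ^ (-max C 0) ≤ a :=
    (Real.rpow_le_rpow_of_exponent_le hn1 (neg_le_neg (le_max_left C 0))).trans ha
  refine le_trans ?_ (det_reg_mono _ hS ha0.le ha1)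
  have hH := det_reg_holder _ hS ha0 hn0 hw0.le hw1
  have e : ((n : ℝ) ^ (-max C 0)) ^ w * (n : ℝ) ^ (1 - w) = ((n : ℝ) ^ (1 / 4 : ℝ)) ^ 2 := by
    rw [← Real.rpow_mul hn0.le, ← Real.rpow_add hn0, ← Real.rpow_natCast, ← Real.rpow_mul hn0.le]
    congr 1
    push_cast
    linarith
  rw [e] at hH
  have hd0 := det_reg_pos _ hS ha0
  have hdn := det_reg_pos _ hS hn0
  have hle := det_reg_le hB
  generalize (B.map (Int.cast : ℤ → ℝ) * B.map (Int.cast : ℤ → ℝ) +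
    (n : ℝ) ^ (-max C 0) • (1 : Matrix (Fin n) (Fin n) ℝ)).det = d0 at *
  generalize (B.map (Int.cast : ℤ → ℝ) * B.map (Int.cast : ℤ → ℝ) +
    (n : ℝ) • (1 : Matrix (Fin n) (Fin n) ℝ)).det = dn at *
  have h1 := Real.log_le_log (Real.rpow_pos_of_pos hn0 _) (hD.trans hH)
  rw [Real.log_mul (Real.rpow_pos_of_pos hd0 _).ne' (Real.rpow_pos_of_pos hdn _).ne',
    Real.log_rpow hn0, Real.log_rpow hd0, Real.log_rpow hdn] at h1
  have h2 := Real.log_le_log hdn hle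
  rw [Real.log_pow, Real.log_mul (by norm_num) hn0.ne'] at h2
  rw [← Real.log_le_log_iff (Real.rpow_pos_of_pos hn0 _) hd0, Real.log_rpow hn0]
  have h3 := mul_le_mul_of_nonneg_left h2 (sub_nonneg.2 hw1)
  have h4 := mul_le_mul_of_nonneg_left hL hn0.le
  have h5 : 0 ≤ w * (n * Real.log 2) :=
    mul_nonneg hw0.le (mul_nonneg hn0.le (Real.log_nonneg (by norm_num)))
  refine le_of_mul_le_mul_left ?_ hw0
  linarith

theorem neg_T2 {p : ℝ} (h0 : 0 < p) (h1 : p < 1) {ε : ℝ} (hε : 0 < ε) (C : ℝ) :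
    Neg p (fun n => {ω : Om n | ¬ T2 ε C (mat ω)}) := by
  intro K
  have hc : 0 < p * (1 - p) / 4 := by
    have : 0 < 1 - p := by linarith
    positivity
  have hc1 : p * (1 - p) / 4 ≤ 1 := by nlinarith [sq_nonneg (p - 1 / 2)]
  obtain ⟨C₀, hC₀, hG⟩ := gauss_int_bound hc hc1
  have hC1 : 0 < max C 0 + 1 := by have := le_max_right C 0; linarith
  set w : ℝ := 1 / (2 * (max C 0 + 1)) with hw
  have hw0 : 0 < w := by positivity
  have hww : w * (max C 0 + 1) = 1 / 2 := by rw [hw]; field_simp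
  have hlog : Tendsto (fun n : ℕ => Real.log n) atTop atTop :=
    Real.tendsto_log_atTop.comp tendsto_natCast_atTop_atTop
  have he : 0 < ε * w / 2 := by positivity
  filter_upwards [hG, eventually_ge_atTop 1,
    (hlog.const_mul_atTop he).eventually_ge_atTop (Real.log 2),
    (hlog.const_mul_atTop he).eventually_ge_atTop (2 * (Real.log C₀ + K))] with n hGn hn hL1 hL2
  have hn0 : (0 : ℝ) < n := by exact_mod_cast hn
  have hτ : 0 < (n : ℝ) ^ (1 / 4 : ℝ) := Real.rpow_pos_of_pos hn0 _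
  have hE := PrT2_ex h0.le h1.le hτ (by positivity) hGn
  have hA : 0 < (n : ℝ) ^ ((1 - ε * w / 2) * n) := Real.rpow_pos_of_pos hn0 _
  have hM := P_markov (ι := Sym2 (Fin n)) h0.le h1.le
    (g := fun ω : Om n => 1 / Real.sqrt ((mat ω).map (Int.cast : ℤ → ℝ) *
      (mat ω).map (Int.cast : ℤ → ℝ) +
        (((n : ℝ) ^ (1 / 4 : ℝ)) ^ 2) • (1 : Matrix (Fin n) (Fin n) ℝ)).det)
    (fun _ => by positivity) (a := 1 / Real.sqrt ((n : ℝ) ^ ((1 - ε * w / 2) * n)))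
    (by positivity)
  refine le_trans (P_mono h0.le h1.le ?_) (hM.trans ?_)
  · intro ω hω
    simp only [Set.mem_ofPred_eq] at hω ⊢
    have hlt := not_le.1 fun h => hω (PrT2_det hn (mat_isSS ω) hw0 hww hL1 h)
    have hpos := det_reg_pos ((mat ω).map (Int.cast : ℤ → ℝ)) ((mat_isSS ω).1.map _)
      (pow_pos hτ 2)
    exact one_div_le_one_div_of_le (Real.sqrt_pos.2 hpos) (Real.sqrt_le_sqrt hlt.le)
  · rw [div_div_eq_mul_div, div_one]
    refine (mul_le_mul_of_nonneg_right hE (Real.sqrt_nonneg _)).trans ?_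
    have hs : 0 < Real.sqrt n := Real.sqrt_pos.2 hn0
    rw [← Real.log_le_iff_le_exp (by positivity), Real.log_mul (by positivity) (by positivity),
      Real.log_pow, Real.log_div hC₀.ne' hs.ne', Real.log_sqrt hn0.le, Real.log_sqrt hA.le,
      Real.log_rpow hn0]
    have h2 := mul_le_mul_of_nonneg_left hL2 hn0.le
    linarith

end Crest.Agent.R152
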