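import Crest.Agent.R152.CoreA
import Crest.Agent.R152.CoreB
import Crest.Agent.R152.CoreC
import Crest.Agent.R152.CoreD
import Crest.Agent.R152.PrT1
import Crest.Agent.R152.PrT2

/-! # Row 152: the core theorem -/

set_option autoImplicit false
open Matrix Filter
open Crest.FinProb Crest.ProbabilityR.SignMatrix

noncomputable section
namespace Crest.Agent.R152

private theorem core_sparse_aux {p θ δ : ℝ} (h0 : 0 < p) (h1 : p < 1) (hθ : 0 < θ) (hδ : 0 < δ)
    (hθ1 : θ ≤ 1 / 8) (hδ1 : δ ≤ 1) :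
    Neg p (fun n => {ω : Om n | (mat ω).det ≠ 0 ∧ ¬ Sparse θ δ (mat ω)}) := by
  obtain ⟨η, hη, cb, hcb, hun⟩ := relH_unlikely (θ := θ / 4) (δ := δ / 6) h0 h1 (by positivity)
    (by positivity) (by linarith)
  set η1 : ℝ := min η (δ / 12) with hη1
  have hη1p : 0 < η1 := lt_min hη (by positivity)
  have hη1a : η1 ≤ η := min_le_left _ _
  have hη1b : η1 ≤ δ / 12 := min_le_right _ _
  set c : ℝ := min (cb / 10) (min (θ / 8) (1 / 8)) with hc
  have hcp : 0 < c := lt_min (by positivity) (lt_min (by positivity) (by norm_num))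
  have hca : c ≤ cb / 10 := min_le_left _ _
  have hcb' : c ≤ θ / 8 := (min_le_right _ _).trans (min_le_left _ _)
  have hcc : c ≤ 1 / 8 := (min_le_right _ _).trans (min_le_right _ _)
  set eK : ℝ := min (c * η1 / 2) (θ / 16) with heK
  have heKp : 0 < eK := lt_min (by positivity) (by positivity)
  have heKa : eK ≤ c * η1 / 2 := min_le_left _ _
  have heKb : eK ≤ θ / 16 := min_le_right _ _
  have heKc : 2 * eK / c ≤ η1 := by
    rw [div_le_iff₀ hcp]; linarith
  have hD := dense_of_not_sparse (εK := eK) hθ hθ1 hδ heKp (by linarith)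
  have hF := exists_family (δ := δ / 2) (c := c) (by positivity) hcp hcc
  have hR := relH_of_dense (θ := θ / 2) (δ := δ / 2) (a := c / 2) (εK := eK) (η := η1)
    (by positivity) (by linarith) (by linarith)
  -- the main event
  have hmain : Neg p (fun n => {ω : Om n | (mat ω).det ≠ 0 ∧ ¬ Sparse θ δ (mat ω) ∧
      T1 η (1 / (δ / 6)) (mat ω) ∧ T2 η (2 / (δ / 6)) (mat ω) ∧ T2 (1 / 8) 9 (mat ω)}) := by
    intro C
    have hC : ∀ᶠ n : ℕ in atTop, C ≤ cb / 2 * (n : ℝ) := by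
      have : Tendsto (fun n : ℕ => cb / 2 * (n : ℝ)) atTop atTop :=
        Tendsto.const_mul_atTop (by positivity) tendsto_natCast_atTop_atTop
      exact this.eventually_ge_atTop C
    filter_upwards [hun, hD, hF, hR, hC] with n hun hD hF hR hC
    obtain ⟨𝓕, hcard, hZ, hfam⟩ := hF
    have hle := P_le_card_mul h0.le h1.le 𝓕
      (fun Z => {ω : Om n | (mat ω).det ≠ 0 ∧ T1 η (1 / (δ / 6)) (mat ω) ∧
          T2 η (2 / (δ / 6)) (mat ω) ∧ RelH (θ / 4) η (δ / 6) Z (mat ω)})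
      (B := {ω : Om n | (mat ω).det ≠ 0 ∧ ¬ Sparse θ δ (mat ω) ∧
        T1 η (1 / (δ / 6)) (mat ω) ∧ T2 η (2 / (δ / 6)) (mat ω) ∧ T2 (1 / 8) 9 (mat ω)})
      (c := Real.exp (-(cb * (n : ℝ) ^ 2))) ?_ (fun Z hZ' => hun Z (hZ Z hZ').1)
    · refine hle.trans ?_
      calc (𝓕.card : ℝ) * Real.exp (-(cb * (n : ℝ) ^ 2))
          ≤ Real.exp (5 * c * (n : ℝ) ^ 2) * Real.exp (-(cb * (n : ℝ) ^ 2)) :=
            mul_le_mul_of_nonneg_right hcard (Real.exp_pos _).le
        _ = Real.exp (5 * c * (n : ℝ) ^ 2 + -(cb * (n : ℝ) ^ 2)) := (Real.exp_add _ _).symm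
        _ ≤ Real.exp (-(C * n)) := by
            apply Real.exp_le_exp.2
            have hn : (0 : ℝ) ≤ n := Nat.cast_nonneg n
            have h2 : C * n ≤ cb / 2 * n * n := mul_le_mul_of_nonneg_right hC hn
            have h3 : 5 * c * (n : ℝ) ^ 2 ≤ cb / 2 * (n : ℝ) ^ 2 :=
              mul_le_mul_of_nonneg_right (by linarith) (sq_nonneg _)
            nlinarith
    · rintro ω ⟨hdet, hns, hT1, hT2, hT2'⟩
      obtain ⟨N₀, T, f, hN₀, hcov, hT, hx, hpre⟩ := hD _ (mat_isSS ω) hdet hT2' hns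
      obtain ⟨Z, hZF, hrk, hex⟩ := hfam N₀ T f eK hN₀ hcov hT hx
      refine ⟨Z, hZF, hdet, hT1, hT2, ?_⟩
      have hn : (0 : ℝ) ≤ n := Nat.cast_nonneg n
      obtain ⟨Nt, a1, a2, a3, a4⟩ := hR _ (mat_isSS ω) hdet N₀ Z hN₀ hcov hpre (hZ Z hZF).1
        (hZ Z hZF).2 hrk (hex.trans (by
          have := mul_le_mul_of_nonneg_right heKc hn
          linarith))
      refine ⟨Nt, a1, ?_, ?_, ?_⟩
      · have : δ / 6 = δ / 2 / 3 := by ring
        rw [this]; exact a2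
      · have := mul_le_mul_of_nonneg_right hη1a hn
        linarith
      · have : θ / 4 = θ / 2 / 2 := by ring
        rw [this]; exact a4
  have hall := Neg.union h0.le h1.le (Neg.union h0.le h1.le (Neg.union h0.le h1.le hmain
    (neg_T1 h0 h1 hη (1 / (δ / 6)))) (neg_T2 h0 h1 hη (2 / (δ / 6))))
    (neg_T2 h0 h1 (ε := 1 / 8) (by norm_num) 9)
  refine Neg.mono h0.le h1.le hall (Eventually.of_forall fun n ω hω => ?_)
  obtain ⟨hdet, hns⟩ := hω
  by_cases a1 : T1 η (1 / (δ / 6)) (mat ω)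
  · by_cases a2 : T2 η (2 / (δ / 6)) (mat ω)
    · by_cases a3 : T2 (1 / 8) 9 (mat ω)
      · exact Or.inl (Or.inl (Or.inl ⟨hdet, hns, a1, a2, a3⟩))
      · exact Or.inr a3
    · exact Or.inl (Or.inr a2)
  · exact Or.inl (Or.inl (Or.inr a1))

theorem core_sparse {p θ δ : ℝ} (h0 : 0 < p) (h1 : p < 1) (hθ : 0 < θ) (hδ : 0 < δ) :
    Neg p (fun n => {ω : Om n | (mat ω).det ≠ 0 ∧ ¬ Sparse θ δ (mat ω)}) := by
  have h := core_sparse_aux (θ := min θ (1 / 8)) (δ := min δ 1) h0 h1 (lt_min hθ (by norm_num))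
    (lt_min hδ one_pos) (min_le_right _ _) (min_le_right _ _)
  refine Neg.mono h0.le h1.le h ?_
  filter_upwards [eventually_ge_atTop 1] with n hn ω hω
  exact ⟨hω.1, fun hs => hω.2 (Sparse.mono hn (min_le_left _ _) (min_le_left _ _) hs)⟩

end Crest.Agent.R152
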