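import Crest.Agent.R152.CoreA1

/-! # Row 152: a small family of subspaces -/

set_option autoImplicit false
open Matrix Filter
open Crest.FinProb Crest.ProbabilityR.SignMatrix

noncomputable section
namespace Crest.Agent.R152

/-- The dense part over a sublattice of `N₀` is almost contained in the span of `N₀`. -/
theorem excess_le {n : ℕ} (hn : 2 ≤ n) {c εK : ℝ} (hc : 0 < c)
    {Nw Ep N₀ : Submodule ℤ (V (Fin n))} (hm : IsMin (-(c * Real.log n / 2)) Nw (Zl (Fin n)) Ep)
    (h₀ : N₀ ≤ Zl (Fin n)) (hcov : cov N₀ ≤ (n : ℝ) ^ (εK * n))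
    (hw : Nw ≤ sec (Zl (Fin n)) (rsp N₀)) :
    (rk Ep : ℝ) ≤ rk (Ep ⊓ sec (Zl (Fin n)) (rsp N₀)) + 2 * εK / c * n := by
  have hn1 : (1 : ℝ) < n := by exact_mod_cast hn
  have hL : 0 < Real.log n := Real.log_pos hn1
  set V0 := sec (Zl (Fin n)) (rsp N₀) with hV0
  have hV : V0 ≤ Zl (Fin n) := sec_le _ _
  have h1 : cov V0 ≤ cov N₀ :=
    cov_le_of_rk (isLat_Zl.sub hV) (l2b_le_sec h₀) (l2b_rk_sec h₀).le
  have h2 : Real.log (cov V0) ≤ εK * n * Real.log n := by
    rw [← Real.log_rpow (by linarith)]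
    exact Real.log_le_log (cov_pos _) (h1.trans hcov)
  have h3 := hm.2.2 (Ep ⊓ V0) (le_inf hm.1 hw) (inf_le_left.trans hm.2.1)
  have h4 := cov_submod isLat_Zl hm.2.1 hV
  have h5 : 1 ≤ cov (Ep ⊔ V0) := one_le_cov (sup_le hm.2.1 hV)
  have h6 : Real.log (cov (Ep ⊓ V0)) ≤ Real.log (cov Ep) + Real.log (cov V0) := by
    rw [← Real.log_mul (cov_pos _).ne' (cov_pos _).ne']
    exact Real.log_le_log (cov_pos _)
      ((le_mul_of_one_le_right (cov_pos _).le h5).trans h4)
  unfold R152.hn at h3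
  have h7 : c * Real.log n / 2 * ((rk Ep : ℝ) - rk (Ep ⊓ V0)) ≤
      c * Real.log n / 2 * (2 * εK / c * n) := by
    have e : c * Real.log n / 2 * (2 * εK / c * n) = εK * n * Real.log n := by
      field_simp
    rw [e]
    linarith
  have h8 := le_of_mul_le_mul_left h7 (by positivity)
  linarith

/-- The lattice generated by the differences `sv (w k) - sv x₀`. -/
private def caN {n l : ℕ} (x₀ : Fin n → Bool) (w : Fin l → Fin n → Bool) :
    Submodule ℤ (V (Fin n)) := Submodule.span ℤ (Set.range fun k => sv (w k) - sv x₀)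

private theorem caN_le {n l : ℕ} {x₀ : Fin n → Bool} {w : Fin l → Fin n → Bool}
    {E : Submodule ℤ (V (Fin n))} : caN x₀ w ≤ E ↔ ∀ k, sv (w k) - sv x₀ ∈ E := by
  unfold caN
  rw [Submodule.span_le, Set.range_subset_iff]
  rfl

private theorem caN_le_Zl {n l : ℕ} (x₀ : Fin n → Bool) (w : Fin l → Fin n → Bool) :
    caN x₀ w ≤ Zl (Fin n) :=
  caN_le.mpr fun _ => sub_mem (zv_mem _) (zv_mem _)

private theorem ca_hn_Zl (n : ℕ) (lam : ℝ) : hn (-lam) (Zl (Fin n)) = lam * n := by
  simp [hn, cov_Zl, rk_Zl]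

theorem exists_family {δ c : ℝ} (hδ : 0 < δ) (hc : 0 < c) (hc1 : c ≤ 1 / 8) :
    ∀ᶠ n : ℕ in atTop, ∃ 𝓕 : Finset (Submodule ℤ (V (Fin n))),
      (𝓕.card : ℝ) ≤ Real.exp (5 * c * (n : ℝ) ^ 2) ∧
      (∀ Z ∈ 𝓕, Z ≤ Zl (Fin n) ∧ cov Z ≤ (n : ℝ) ^ (c / 2 * n)) ∧
      ∀ (N₀ : Submodule ℤ (V (Fin n))) (T : Finset (Fin n → Bool)) (f : V (Fin n)) (εK : ℝ),
        N₀ ≤ Zl (Fin n) → cov N₀ ≤ (n : ℝ) ^ (εK * n) → Real.exp (δ * n) ≤ T.card →
        (∀ x ∈ T, sv x - f ∈ rsp N₀) →
        ∃ Z ∈ 𝓕, δ * n / 2 ≤ rk Z ∧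
          (rk Z : ℝ) ≤ rk (Z ⊓ sec (Zl (Fin n)) (rsp N₀)) + 2 * εK / c * n := by
  classical
  have hev : ∀ᶠ n : ℕ in atTop, 1 / c ≤ (n : ℝ) :=
    tendsto_natCast_atTop_atTop.eventually_ge_atTop _
  filter_upwards [greedy_step hδ hc hc1, hev, eventually_ge_atTop 2] with n hg hcn hn2
  have hn1 : (1 : ℝ) < n := by exact_mod_cast hn2
  have hL : 0 < Real.log n := Real.log_pos hn1
  set l : ℕ := ⌊4 * c * n⌋₊ with hl
  have hl1 : (l : ℝ) ≤ 4 * c * n := Nat.floor_le (by positivity)
  have hl2 : 4 * c * n < l + 1 := Nat.lt_floor_add_one _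
  choose Z hZ using fun t : (Fin n → Bool) × (Fin l → Fin n → Bool) =>
    exists_isMin isLat_Zl (caN_le_Zl t.1 t.2) (-(c * Real.log n / 2))
  refine ⟨Finset.univ.image Z, ?_, ?_, ?_⟩
  · have h1 : (Finset.univ.image Z).card ≤ 2 ^ (n * (l + 1)) := by
      refine Finset.card_image_le.trans (le_of_eq ?_)
      simp only [Finset.card_univ, Fintype.card_prod, Fintype.card_fun, Fintype.card_bool,
        Fintype.card_fin]
      rw [← pow_mul, ← pow_add]
      congr 1
      ring
    have h2 : ((Finset.univ.image Z).card : ℝ) ≤ 2 ^ (n * (l + 1)) := by exact_mod_cast h1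
    refine h2.trans ?_
    have h3 : (2 : ℝ) ^ (n * (l + 1)) ≤ Real.exp 1 ^ (n * (l + 1)) := by
      refine pow_le_pow_left₀ (by norm_num) ?_ _
      have := Real.add_one_le_exp (1 : ℝ)
      linarith
    refine h3.trans ?_
    rw [← Real.exp_nat_mul]
    refine Real.exp_le_exp.mpr ?_
    rw [div_le_iff₀ hc] at hcn
    push_cast
    have h4 : (n : ℝ) * (l + 1) ≤ n * (5 * c * n) :=
      mul_le_mul_of_nonneg_left (by linarith) (by linarith)
    nlinarith
  · intro Z' hZ'
    obtain ⟨t, -, rfl⟩ := Finset.mem_image.mp hZ'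
    refine ⟨(hZ t).2.1, ?_⟩
    have h1 := (hZ t).2.2 _ (caN_le_Zl t.1 t.2) le_rfl
    rw [ca_hn_Zl] at h1
    unfold hn at h1
    have h2 : 0 ≤ c * Real.log n / 2 * rk (Z t) := by positivity
    rw [Real.rpow_def_of_pos (by linarith), ← Real.exp_log (cov_pos (Z t))]
    refine Real.exp_le_exp.mpr ?_
    linarith
  · intro N₀ T f εK h₀ hcov hT hf
    have hTne : T.Nonempty := by
      rw [← Finset.card_pos]
      have : (0 : ℝ) < T.card := lt_of_lt_of_le (Real.exp_pos _) hT
      exact_mod_cast this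
    obtain ⟨x₀, hx₀⟩ := hTne
    have found : ∃ w : Fin l → Fin n → Bool, (∀ k, w k ∈ T) ∧ δ * n / 2 ≤ rk (Z (x₀, w)) := by
      by_contra hnf
      push Not at hnf
      have step : ∀ (w : Fin l → Fin n → Bool) (a : ℝ), (∀ k, w k ∈ T) →
          (∀ E, caN x₀ w ≤ E → E ≤ Zl (Fin n) → a ≤ hn (-(c * Real.log n)) E) →
          ∃ x ∈ T, ∀ E, caN x₀ w ≤ E → sv x - sv x₀ ∈ E → E ≤ Zl (Fin n) →
            a + Real.log n / 4 ≤ hn (-(c * Real.log n)) E := by
        intro w a hw ha
        obtain ⟨Em, hEm⟩ := exists_isMin isLat_Zl (caN_le_Zl x₀ w) (-(c * Real.log n))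
        obtain ⟨x, hx, h⟩ := hg _ _ Em (hZ (x₀, w)) hEm (hnf w hw) T x₀ hT
        refine ⟨x, hx, fun E e1 e2 e3 => ?_⟩
        have := h E e1 e2 e3
        have := ha Em hEm.1 hEm.2.1
        linarith
      have ind : ∀ i : ℕ, i ≤ l → ∃ w : Fin l → Fin n → Bool, (∀ k, w k ∈ T) ∧
          (∀ k : Fin l, i ≤ k.1 → w k = x₀) ∧ ∀ E, caN x₀ w ≤ E → E ≤ Zl (Fin n) →
            i * (Real.log n / 4) ≤ hn (-(c * Real.log n)) E := by
        intro i
        induction i with
        | zero =>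
          intro _
          refine ⟨fun _ => x₀, fun _ => hx₀, fun _ _ => rfl, fun E _ e => ?_⟩
          have h1 : 0 ≤ Real.log (cov E) := Real.log_nonneg (one_le_cov e)
          have h2 : 0 ≤ c * Real.log n * rk E := by positivity
          unfold hn
          push_cast
          linarith
        | succ i ih =>
          intro hi
          obtain ⟨w, hw, hp, ha⟩ := ih (by omega)
          obtain ⟨x, hx, h⟩ := step w _ hw ha
          refine ⟨Function.update w ⟨i, hi⟩ x, fun k => ?_, fun k hk => ?_, fun E e1 e3 => ?_⟩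
          · by_cases e : k = ⟨i, hi⟩
            · rw [e, Function.update_self]; exact hx
            · rw [Function.update_of_ne e]; exact hw k
          · have e : k ≠ ⟨i, hi⟩ := by
              intro e
              rw [e] at hk
              exact absurd hk (by simp)
            rw [Function.update_of_ne e]
            exact hp k (by omega)
          · rw [caN_le] at e1
            have e2 : sv x - sv x₀ ∈ E := by
              have := e1 ⟨i, hi⟩
              rwa [Function.update_self] at this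
            have e0 : caN x₀ w ≤ E := by
              refine caN_le.mpr fun k => ?_
              by_cases e : k = ⟨i, hi⟩
              · rw [hp k (by rw [e]), sub_self]; exact E.zero_mem
              · have := e1 k
                rwa [Function.update_of_ne e] at this
            have := h E e0 e2 e3
            push_cast
            linarith
      obtain ⟨w, hw, -, ha⟩ := ind l le_rfl
      obtain ⟨x, -, h⟩ := step w _ hw ha
      have h1 := h _ (caN_le_Zl x₀ w) (sub_mem (zv_mem _) (zv_mem _)) le_rfl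
      rw [ca_hn_Zl] at h1
      have h2 := mul_lt_mul_of_pos_right hl2 hL
      linarith
    obtain ⟨w, hw, hr⟩ := found
    refine ⟨Z (x₀, w), Finset.mem_image_of_mem _ (Finset.mem_univ _), hr,
      excess_le hn2 hc (hZ (x₀, w)) h₀ hcov (caN_le.mpr fun k => mem_sec.mpr
        ⟨sub_mem (zv_mem _) (zv_mem _), ?_⟩)⟩
    have := sub_mem (hf _ (hw k)) (hf _ hx₀)
    rwa [sub_sub_sub_cancel_right] at this

end Crest.Agent.R152
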