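import Crest.Agent.R152.CoreDefs
import Crest.Agent.R152.RMMain
import Crest.Agent.R152.PrC

/-! # Row 152: one greedy step -/

set_option autoImplicit false
open Matrix Filter
open Crest.FinProb Crest.ProbabilityR.SignMatrix

noncomputable section
namespace Crest.Agent.R152

private theorem ca1_short {n : ℕ} {c L : ℝ} (hc : 0 < c) (hL : 0 < L)
    {Nw Ep Em E : Submodule ℤ (V (Fin n))} (hp : IsMin (-(c * L / 2)) Nw (Zl (Fin n)) Ep)
    (hm : IsMin (-(c * L)) Nw (Zl (Fin n)) Em) (hE0 : Nw ≤ E) (hEZ : E ≤ Zl (Fin n))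
    (hE : hn (-(c * L)) E < hn (-(c * L)) Em + L / 4) :
    ∃ (k : ℕ) (v : Fin k → V (Fin n)), k * (2 * c) ≤ 1 ∧ (∀ i, v i ∈ Zl (Fin n)) ∧
      rsp E ≤ rsp Ep ⊔ Submodule.span ℝ (Set.range v) ∧
      ∀ i, ‖prj (rsp Ep) (v i)‖ ≤ 2 ^ (k ^ 2) * Real.exp (L / 4) := by
  have h2Z : E ⊔ Ep ≤ Zl (Fin n) := sup_le hEZ hp.2.1
  have hr := rk_modular isLat_Zl hEZ hp.2.1
  have hr2 : rk Ep ≤ rk (E ⊔ Ep) := rk_mono le_sup_right
  have hs := hn_submod isLat_Zl hEZ hp.2.1 (-(c * L / 2))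
  have h1 := hp.2.2 (E ⊔ Ep) (hE0.trans le_sup_left) h2Z
  have h2 := hm.2.2 (E ⊓ Ep) (le_inf hE0 hp.1) (inf_le_left.trans hEZ)
  obtain ⟨v, hv1, hv2, hv3⟩ := exists_rel_short (μ := c * L / 2) (by positivity) isLat_Zl hp
    (le_sup_right : Ep ≤ E ⊔ Ep) h2Z
  have hk : ((rk (E ⊔ Ep) - rk Ep : ℕ) : ℝ) = (rk (E ⊔ Ep) : ℝ) - rk Ep := Nat.cast_sub hr2
  have hr' : (rk (E ⊓ Ep) : ℝ) + rk (E ⊔ Ep) = rk E + rk Ep := by exact_mod_cast hr
  have hk0 : (0 : ℝ) ≤ (rk (E ⊔ Ep) - rk Ep : ℕ) := Nat.cast_nonneg _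
  have e1 : (rk (E ⊔ Ep) : ℝ) = rk Ep + (rk (E ⊔ Ep) - rk Ep : ℕ) := by linarith
  have e2 : (rk E : ℝ) = rk (E ⊓ Ep) + (rk (E ⊔ Ep) - rk Ep : ℕ) := by linarith
  unfold hn at hE hs h1 h2
  refine ⟨_, v, ?_, fun i => h2Z (hv1 i), hv2 ▸ rsp_mono le_sup_left, fun i => (hv3 i).trans ?_⟩
  · generalize ((rk (E ⊔ Ep) - rk Ep : ℕ) : ℝ) = k at *
    rw [e1] at hs h1
    rw [e2] at hs hE
    have : L * (k * (2 * c)) ≤ L * 1 := by nlinarith
    exact le_of_mul_le_mul_left this hL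
  · rw [mul_assoc]
    refine mul_le_mul_of_nonneg_left ?_ (by positivity)
    rw [← Real.exp_log (div_pos (cov_pos (E ⊔ Ep)) (cov_pos Ep)), ← Real.exp_add,
      Real.log_div (cov_pos _).ne' (cov_pos _).ne']
    apply Real.exp_le_exp.2
    generalize ((rk (E ⊔ Ep) - rk Ep : ℕ) : ℝ) = k at *
    rw [e1] at hs h1
    rw [e2] at hs hE
    have : 0 ≤ c * L * k := by positivity
    nlinarith

/-- While the dense part `Ep` has small rank, some difference of two points of `T` raises the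
potential by `(log n)/4`. -/
theorem greedy_step {δ c : ℝ} (hδ : 0 < δ) (hc : 0 < c) (hc1 : c ≤ 1 / 8) :
    ∀ᶠ n : ℕ in atTop, ∀ (Nw Ep Em : Submodule ℤ (V (Fin n))),
      IsMin (-(c * Real.log n / 2)) Nw (Zl (Fin n)) Ep →
      IsMin (-(c * Real.log n)) Nw (Zl (Fin n)) Em → (rk Ep : ℝ) < δ * n / 2 →
      ∀ (T : Finset (Fin n → Bool)) (x₀ : Fin n → Bool), Real.exp (δ * n) ≤ T.card →
        ∃ x ∈ T, ∀ E : Submodule ℤ (V (Fin n)), Nw ≤ E → sv x - sv x₀ ∈ E → E ≤ Zl (Fin n) →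
          hn (-(c * Real.log n)) Em + Real.log n / 4 ≤ hn (-(c * Real.log n)) E := by
  classical
  set k0 : ℕ := ⌈1 / (2 * c)⌉₊ with hk0
  have hk0pos : 0 < k0 := Nat.ceil_pos.2 (by positivity)
  have hk0r : (0 : ℝ) < k0 := by exact_mod_cast hk0pos
  have hlog : Tendsto (fun n : ℕ => Real.log n) atTop atTop :=
    Real.tendsto_log_atTop.comp tendsto_natCast_atTop_atTop
  filter_upwards [rmRel (1 / 8) (δ / (10 * k0)) (by norm_num) (by positivity),
    hlog.eventually_ge_atTop (16 * k0 ^ 2), eventually_gt_atTop 0,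
    tendsto_natCast_atTop_atTop.eventually_gt_atTop (5 * (k0 : ℝ) / δ)] with n hrm hL hn0 hnδ
  intro Nw Ep Em hp hm hrk T x₀ hT
  by_contra hcon
  push Not at hcon
  have hn0' : (0 : ℝ) < n := by exact_mod_cast hn0
  set L := Real.log n with hLdef
  have hLpos : 0 < L := lt_of_lt_of_le (by positivity) hL
  obtain ⟨S, hS, hSv⟩ := hrm (V (Fin n)) (Zl (Fin n)) Nw Ep (Real.exp (-(c * L / 2))) isLat_Zl
    (by rw [rk_Zl, Fintype.card_fin]; omega) (Real.exp_pos _) (by rwa [Real.log_exp])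
  have key : ∀ x ∈ T, ∃ g ∈ Fintype.piFinset (fun _ : Fin k0 => insert (0 : V (Fin n)) S),
      sv x - sv x₀ ∈ rsp Ep ⊔ Submodule.span ℝ (Set.range g) := by
    intro x hx
    obtain ⟨E, hE0, hEx, hEZ, hE⟩ := hcon x hx
    obtain ⟨k, v, hk, hvZ, hsp, hv⟩ := ca1_short (L := L) hc hLpos hp hm hE0 hEZ hE
    have hkk : k ≤ k0 := by
      have h1 : (k : ℝ) ≤ 1 / (2 * c) := by rw [le_div_iff₀ (by positivity)]; linarith
      exact_mod_cast h1.trans (Nat.le_ceil _)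
    have hf : ∀ i, ∃ f ∈ S, v i - f ∈ rsp Ep := by
      intro i
      refine hSv (v i) (hvZ i) ⟨v i - prj (rsp Ep) (v i), sub_prj_mem _ _, ?_⟩
      rw [sub_sub_cancel]
      refine (hv i).trans ?_
      rw [Real.rpow_def_of_pos hn0', ← hLdef, ← Real.exp_add]
      have h1 : (2 : ℝ) ^ (k ^ 2) ≤ Real.exp ((k0 ^ 2 : ℕ) * 1) := by
        rw [Real.exp_nat_mul]
        have h2 : (2 : ℝ) ≤ Real.exp 1 := by linarith [Real.add_one_le_exp 1]
        calc (2 : ℝ) ^ (k ^ 2) ≤ 2 ^ (k0 ^ 2) :=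
              pow_le_pow_right₀ (by norm_num) (Nat.pow_le_pow_left hkk 2)
          _ ≤ _ := pow_le_pow_left₀ (by norm_num) h2 _
      refine (mul_le_mul_of_nonneg_right h1 (Real.exp_pos _).le).trans ?_
      rw [← Real.exp_add]
      apply Real.exp_le_exp.2
      push_cast
      nlinarith
    choose f hfS hf using hf
    refine ⟨fun j => if h : j.1 < k then f ⟨j.1, h⟩ else 0, ?_, ?_⟩
    · refine Fintype.mem_piFinset.2 fun j => ?_
      split_ifs with h
      · exact Finset.mem_insert_of_mem (hfS _)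
      · exact Finset.mem_insert_self _ _
    · refine (hsp.trans (sup_le le_sup_left (Submodule.span_le.2 ?_))) (mem_rsp hEx)
      rintro _ ⟨i, rfl⟩
      rw [← sub_add_cancel (v i) (f i)]
      refine Submodule.add_mem_sup (hf i) (Submodule.subset_span ⟨⟨i.1, i.2.trans_le hkk⟩, ?_⟩)
      simp
  have hcard : T.card ≤ 2 ^ (rk Ep + k0) *
      (Fintype.piFinset (fun _ : Fin k0 => insert (0 : V (Fin n)) S)).card := by
    choose! G hG hG' using key
    refine Finset.card_le_mul_card_image_of_maps_to hG _ fun g _ => ?_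
    refine (odlyzko_card (rsp Ep ⊔ Submodule.span ℝ (Set.range g)) (sv x₀) _ fun x hx => ?_).trans
      (Nat.pow_le_pow_right (by norm_num) ?_)
    · obtain ⟨hx1, hx2⟩ := Finset.mem_filter.1 hx
      rw [← hx2]
      exact hG' x hx1
    · refine (Submodule.finrank_add_le_finrank_add_finrank _ _).trans (Nat.add_le_add_left ?_ _)
      exact (finrank_range_le_card (R := ℝ) g).trans (Fintype.card_fin _).le
  have h2e : (2 : ℝ) ≤ Real.exp 1 := by linarith [Real.add_one_le_exp 1]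
  have hc2 : ((Fintype.piFinset (fun _ : Fin k0 => insert (0 : V (Fin n)) S)).card : ℝ) ≤
      Real.exp (k0 * (1 + δ / (10 * k0) * n)) := by
    rw [Fintype.card_piFinset, Real.exp_nat_mul]
    simp only [Finset.prod_const, Finset.card_univ, Fintype.card_fin, Nat.cast_pow]
    refine pow_le_pow_left₀ (Nat.cast_nonneg _) ?_ _
    have h1 : ((insert (0 : V (Fin n)) S).card : ℝ) ≤ S.card + 1 := by
      exact_mod_cast Finset.card_insert_le _ _
    have h2 : 1 ≤ Real.exp (δ / (10 * k0) * n) := Real.one_le_exp (by positivity)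
    rw [Real.exp_add]
    nlinarith
  have hc3 : (2 : ℝ) ^ (rk Ep + k0) ≤ Real.exp ((rk Ep + k0 : ℕ) * 1) := by
    rw [Real.exp_nat_mul]
    exact pow_le_pow_left₀ (by norm_num) h2e _
  have hc4 : (T.card : ℝ) ≤ Real.exp ((rk Ep + k0 : ℕ) * 1) *
      Real.exp (k0 * (1 + δ / (10 * k0) * n)) := by
    refine le_trans ?_ (mul_le_mul hc3 hc2 (Nat.cast_nonneg _) (Real.exp_pos _).le)
    exact_mod_cast hcard
  rw [← Real.exp_add] at hc4
  have h5 := Real.exp_le_exp.1 (hT.trans hc4)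
  have e : (k0 : ℝ) * (1 + δ / (10 * k0) * n) = k0 + δ * n / 10 := by field_simp
  rw [e] at h5
  push_cast at h5
  rw [div_lt_iff₀ hδ] at hnδ
  nlinarith

end Crest.Agent.R152
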