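import Crest.Agent.R152.CoreDefs

/-! # Row 152: many rows create a new short relation -/

set_option autoImplicit false
open Matrix Filter
open Crest.FinProb Crest.ProbabilityR.SignMatrix

noncomputable section
namespace Crest.Agent.R152

private theorem cb1_comb {n : ℕ} (Φ : Finset (Fin n) → ℝ) {lam D : ℝ} (hlam : 0 < lam)
    (hsub : ∀ R R', Φ (R ∩ R') + Φ (R ∪ R') ≤ Φ R + Φ R')
    (hstep : ∀ R j, Φ R ≤ Φ (insert j R) + lam) (hD : lam * D ≤ Φ ∅ - Φ Finset.univ)
    {J : ℕ} (hJ : 0 < J) :
    ∃ k < J, ∃ G : Finset (Fin n), G ⊆ cls n J k ∧ D / J ≤ G.card ∧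
      ∀ j ∈ G, Φ (insert j (preS (cls n J k) j)) < Φ (preS (cls n J k) j) := by
  classical
  have hJ' : (0 : ℝ) < J := by exact_mod_cast hJ
  let A : ℕ → Finset (Fin n) := fun m => Finset.univ.filter fun i => m ≤ i.1 % J
  have hA0 : A 0 = Finset.univ := by ext i; simp [A]
  have hAJ : A J = ∅ := by
    ext i
    simp only [A, Finset.mem_filter, Finset.mem_univ, true_and, Finset.notMem_empty, iff_false,
      not_le]
    exact Nat.mod_lt _ hJ
  have h1 : ∀ m, Φ (A (m + 1)) - Φ (A m) ≤ Φ (cls n J m)ᶜ - Φ Finset.univ := by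
    intro m
    have := hsub (A m) (cls n J m)ᶜ
    have e1 : A m ∩ (cls n J m)ᶜ = A (m + 1) := by
      ext i
      simp only [A, cls, Finset.mem_inter, Finset.mem_filter, Finset.mem_univ, true_and,
        Finset.mem_compl]
      omega
    have e2 : A m ∪ (cls n J m)ᶜ = Finset.univ := by
      ext i
      simp only [A, cls, Finset.mem_union, Finset.mem_filter, Finset.mem_univ, true_and,
        Finset.mem_compl, iff_true]
      omega
    rw [e1, e2] at this
    linarith
  have h2 : ∑ _m ∈ Finset.range J, lam * (D / J) ≤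
      ∑ m ∈ Finset.range J, (Φ (cls n J m)ᶜ - Φ Finset.univ) := by
    refine le_trans ?_ (Finset.sum_le_sum fun m _ => h1 m)
    rw [Finset.sum_range_sub (fun m => Φ (A m)), hA0, hAJ, Finset.sum_const, Finset.card_range,
      nsmul_eq_mul]
    refine le_trans (le_of_eq ?_) hD
    field_simp
  obtain ⟨k, hk, hk2⟩ := Finset.exists_le_of_sum_le ⟨0, Finset.mem_range.2 hJ⟩ h2
  set S := cls n J k with hS
  let G : Finset (Fin n) := S.filter fun j => Φ (insert j (preS S j)) < Φ (preS S j)
  refine ⟨k, Finset.mem_range.1 hk, G, Finset.filter_subset _ _, ?_,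
    fun j hj => (Finset.mem_filter.1 hj).2⟩
  let P : ℕ → Finset (Fin n) := fun t => Sᶜ ∪ S.filter fun i => i.1 < t
  have hP0 : P 0 = Sᶜ := by ext i; simp [P]
  have hPn : P n = Finset.univ := by
    ext i
    simp only [P, Finset.mem_union, Finset.mem_compl, Finset.mem_filter, i.2, and_true,
      Finset.mem_univ, iff_true]
    exact (em _).symm
  have h3 : ∀ j : Fin n, Φ (P j) - Φ (P (j + 1)) ≤ if j ∈ G then lam else 0 := by
    intro j
    have e0 : P j = preS S j := rfl
    by_cases hj : j ∈ S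
    · have e1 : P (j + 1) = insert j (preS S j) := by
        ext i
        simp only [P, preS, Finset.mem_union, Finset.mem_compl, Finset.mem_filter,
          Finset.mem_insert, Fin.lt_def, Fin.ext_iff]
        constructor
        · rintro (h | ⟨h, h'⟩)
          · exact Or.inr (Or.inl h)
          · rcases Nat.lt_succ_iff_lt_or_eq.1 h' with h' | h'
            · exact Or.inr (Or.inr ⟨h, h'⟩)
            · exact Or.inl h'
        · rintro (h | h | ⟨h, h'⟩)
          · exact Or.inr ⟨(Fin.ext h : i = j) ▸ hj, by omega⟩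
          · exact Or.inl h
          · exact Or.inr ⟨h, by omega⟩
      rw [e0, e1]
      split_ifs with hG
      · linarith [hstep (preS S j) j]
      · have : ¬ Φ (insert j (preS S j)) < Φ (preS S j) := fun h =>
          hG (Finset.mem_filter.2 ⟨hj, h⟩)
        linarith [not_lt.1 this]
    · have e1 : P (j + 1) = P j := by
        ext i
        simp only [P, Finset.mem_union, Finset.mem_compl, Finset.mem_filter]
        constructor
        · rintro (h | ⟨h, h'⟩)
          · exact Or.inl h
          · rcases Nat.lt_succ_iff_lt_or_eq.1 h' with h' | h'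
            · exact Or.inr ⟨h, h'⟩
            · exact absurd ((Fin.ext h' : i = j) ▸ h) hj
        · rintro (h | ⟨h, h'⟩)
          · exact Or.inl h
          · exact Or.inr ⟨h, by omega⟩
      rw [e1, sub_self]
      split_ifs
      · exact hlam.le
      · exact le_rfl
  have h4 : Φ Sᶜ - Φ Finset.univ ≤ lam * G.card := by
    rw [← hP0, ← hPn, ← Finset.sum_range_sub' (fun t => Φ (P t)), Finset.sum_range]
    refine (Finset.sum_le_sum fun j _ => h3 j).trans (le_of_eq ?_)
    rw [Finset.sum_ite_mem, Finset.univ_inter, Finset.sum_const, nsmul_eq_mul, mul_comm]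
  exact le_of_mul_le_mul_left (hk2.trans h4) hlam

private theorem cb1_mem {n : ℕ} {B : Matrix (Fin n) (Fin n) ℤ} {Z : Submodule ℤ (V (Fin n))}
    {R : Finset (Fin n)} {x : V (Fin n)} :
    x ∈ Rel B Z R ↔ (x ∈ Zl (Fin n) ∧ ∀ i, i ∉ R → x i = 0) ∧ act B x ∈ rsp Z := Iff.rfl

private theorem cb1_le {n : ℕ} (B : Matrix (Fin n) (Fin n) ℤ) (Z : Submodule ℤ (V (Fin n)))
    (R : Finset (Fin n)) : Rel B Z R ≤ Zl (Fin n) := fun _ hx => (cb1_mem.1 hx).1.1

private theorem cb1_mono {n : ℕ} (B : Matrix (Fin n) (Fin n) ℤ) (Z : Submodule ℤ (V (Fin n)))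
    {R R' : Finset (Fin n)} (h : R ⊆ R') : Rel B Z R ≤ Rel B Z R' := fun _ hx =>
  cb1_mem.2 ⟨⟨(cb1_mem.1 hx).1.1, fun i hi => (cb1_mem.1 hx).1.2 i fun h' => hi (h h')⟩,
    (cb1_mem.1 hx).2⟩

theorem many_drops {n : ℕ} (hn : 2 ≤ n) {θ η δ : ℝ} (hθ : 0 ≤ θ) (hδ : 0 < δ)
    {B : Matrix (Fin n) (Fin n) ℤ} {Z : Submodule ℤ (V (Fin n))} (h : RelH θ η δ Z B)
    {J : ℕ} (hJ : 0 < J) :
    ∃ k < J, ∃ G : Finset (Fin n), G ⊆ cls n J k ∧ δ * n / (2 * J) ≤ G.card ∧
      ∀ j ∈ G, Drop B Z (Real.log n / δ) (preS (cls n J k) j) j := by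

  classical
  set lam := Real.log n / δ with hlam
  have hn1 : (1 : ℝ) < n := by exact_mod_cast hn
  have hlog : 0 < Real.log n := Real.log_pos hn1
  have hl : 0 < lam := div_pos hlog hδ
  have hex : ∀ R, ∃ N, IsMin lam ⊥ (Rel B Z R) N := fun R =>
    exists_isMin (isLat_Zl.sub (cb1_le B Z R)) bot_le lam
  choose M hM using hex
  have hle : ∀ R N, N ≤ Rel B Z R → R152.hn lam (M R) ≤ R152.hn lam N := fun R N h =>
    (hM R).2.2 N bot_le h
  obtain ⟨k, hk, G, hG, hc, hd⟩ := cb1_comb (fun R => R152.hn lam (M R)) (D := δ * n / 2) hl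
    (fun R R' => by
      have h1 := hn_submod isLat_Zl ((hM R).2.1.trans (cb1_le B Z R))
        ((hM R').2.1.trans (cb1_le B Z R')) lam
      have h2 := hle (R ∩ R') (M R ⊓ M R') fun x hx => by
        have a := cb1_mem.1 ((hM R).2.1 hx.1)
        have b := cb1_mem.1 ((hM R').2.1 hx.2)
        refine cb1_mem.2 ⟨⟨a.1.1, fun i hi => ?_⟩, a.2⟩
        by_cases hR : i ∈ R
        · exact b.1.2 i fun h' => hi (Finset.mem_inter.2 ⟨hR, h'⟩)
        · exact a.1.2 i hR
      have h3 := hle (R ∪ R') (M R ⊔ M R') (sup_le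
        ((hM R).2.1.trans (cb1_mono B Z Finset.subset_union_left))
        ((hM R').2.1.trans (cb1_mono B Z Finset.subset_union_right)))
      linarith)
    (fun R j => by
      obtain ⟨h1, h2⟩ := cov_sec_Rc ((hM (insert j R)).2.1.trans (cb1_le B Z _))
        (Finset.univ.erase j)
      have h3 := hle R (sec (M (insert j R)) (Rc (Finset.univ.erase j))) fun x hx => by
        obtain ⟨hx1, hx2⟩ := mem_sec.1 hx
        have a := cb1_mem.1 ((hM (insert j R)).2.1 hx1)
        refine cb1_mem.2 ⟨⟨a.1.1, fun i hi => ?_⟩, a.2⟩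
        by_cases hij : i = j
        · exact mem_Rc.1 hx2 i (by simp [hij])
        · exact a.1.2 i (by simp [hij, hi])
      rw [Finset.card_erase_of_mem (Finset.mem_univ j), Finset.card_univ, Fintype.card_fin] at h2
      have h4 : (rk (M (insert j R)) : ℝ) ≤
          rk (sec (M (insert j R)) (Rc (Finset.univ.erase j))) + 1 := by
        have : rk (M (insert j R)) ≤
          rk (sec (M (insert j R)) (Rc (Finset.univ.erase j))) + 1 := by omega
        exact_mod_cast this
      have h5 := Real.log_le_log (cov_pos _) h1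
      have h6 := mul_le_mul_of_nonneg_left h4 hl.le
      unfold R152.hn at h3 ⊢
      linarith)
    (by
      obtain ⟨Nt, h1, h2, -, h4⟩ := h
      have e0 : M ∅ = ⊥ := by
        refine le_bot_iff.1 fun x hx => ?_
        have a := cb1_mem.1 ((hM ∅).2.1 hx)
        rw [Submodule.mem_bot]
        ext i
        exact a.1.2 i (Finset.notMem_empty i)
      have h5 := hle Finset.univ Nt fun x hx =>
        cb1_mem.2 ⟨⟨(mem_sec.1 (h1 hx)).1, fun i hi => absurd (Finset.mem_univ i) hi⟩,
          (mem_sec.1 (h1 hx)).2⟩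
      have h6 := Real.log_le_log (cov_pos _) h4
      rw [Real.log_rpow (by linarith)] at h6
      have h7 := mul_le_mul_of_nonneg_left h2 hl.le
      have e1 : lam * δ = Real.log n := by rw [hlam]; field_simp
      have h8 : 0 ≤ θ * n * Real.log n := by positivity
      have h9 : 0 ≤ (rk Nt : ℝ) * Real.log n := by positivity
      have e2 : lam * (δ * n) = n * Real.log n := by rw [← mul_assoc, e1, mul_comm]
      have e3 : lam * (δ * n / 2) = n * Real.log n / 2 := by rw [← e2]; ring
      simp only [e0]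
      unfold R152.hn at h5 ⊢
      rw [cov_bot, rk_bot, e3]
      simp only [Real.log_one, Nat.cast_zero, mul_zero, sub_zero]
      nlinarith)
    hJ
  refine ⟨k, hk, G, hG, by rwa [div_div] at hc, fun j hj => ?_⟩
  exact ⟨M _, (hM _).2.1, fun N' hN' => (hd j hj).trans_le (hle _ N' hN')⟩

end Crest.Agent.R152
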