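import Crest.Agent.R152.CoreDefs

/-! # Row 152: the new relation; dependence on visible entries -/

set_option autoImplicit false
open Matrix Filter
open Crest.FinProb Crest.ProbabilityR.SignMatrix

noncomputable section
namespace Crest.Agent.R152

theorem relation_of_drop {n : ℕ} {B : Matrix (Fin n) (Fin n) ℤ} {Z Z' Np : Submodule ℤ (V (Fin n))}
    (hZ : Z ≤ Z') {lam : ℝ} (hlam : 0 < lam) {R : Finset (Fin n)} {j : Fin n} (hj : j ∉ R)
    (hd : Drop B Z lam R j) (hp : IsMin (2 * lam) ⊥ (Rel B Z' R) Np) :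
    ∃ o : ℕ, 1 ≤ o ∧ (o : ℝ) ≤ Real.exp lam ∧ ∃ α ∈ Zc R,
      (o : ℝ) • act B (EuclideanSpace.single j (1 : ℝ)) + act B α ∈ rsp Z ∧
      ∃ w ∈ rsp Np, ‖α - w‖ ≤ Real.exp lam := by
  obtain ⟨N, hN, hmin⟩ := hd
  have hZl : ∀ (Y : Submodule ℤ (V (Fin n))) (T : Finset (Fin n)), Rel B Y T ≤ Zl (Fin n) :=
    fun Y T x hx => hx.1.1
  have hsec : ∀ x ∈ N, x j = 0 → x ∈ Rel B Z R := fun x hx h0 =>
    ⟨⟨(hN hx).1.1, fun i hi => by
      by_cases hij : i = j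
      · rw [hij]; exact h0
      · exact (hN hx).1.2 i (by simp [hij, hi])⟩, (hN hx).2⟩
  obtain ⟨v, hv, o, ho, hφ, hrk, hcov⟩ := exists_step (isLat_Zl.sub (hN.trans (hZl _ _)))
    (EuclideanSpace.projₗ j : V (Fin n) →ₗ[ℝ] ℝ) (fun x hx => (hN hx).1.1 j) (by
      by_contra hc
      push Not at hc
      exact lt_irrefl _ (hmin N fun x hx => hsec x hx (hc x hx)))
  have hker := rsp_sec_le N (LinearMap.ker (EuclideanSpace.projₗ j : V (Fin n) →ₗ[ℝ] ℝ))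
  have h1 : sec N (LinearMap.ker (EuclideanSpace.projₗ j : V (Fin n) →ₗ[ℝ] ℝ)) ≤ Rel B Z R :=
    fun x hx => hsec x hx.1 hx.2
  generalize sec N (LinearMap.ker (EuclideanSpace.projₗ j : V (Fin n) →ₗ[ℝ] ℝ)) = N₁
    at hrk hcov hker h1
  have hw := sub_prj_mem (rsp N₁) v
  generalize prj (rsp N₁) v = p at hcov hw
  have hvj : v j = o := hφ
  have hpj : p j = o := by
    have : v j - p j = 0 := hker hw
    linarith
  have ho1 : (1 : ℝ) ≤ o := by exact_mod_cast ho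
  have hop : (o : ℝ) ≤ ‖p‖ := by
    rw [← hpj]
    exact (le_abs_self _).trans (PiLp.norm_apply_le p j)
  have hp0 : 0 < ‖p‖ := by linarith
  have hN1 : hn lam N = hn lam N₁ + Real.log ‖p‖ - lam := by
    unfold hn
    rw [hcov, Real.log_mul (cov_pos _).ne' hp0.ne', hrk]
    push_cast
    ring
  have hlt : ‖p‖ ≤ Real.exp lam := by
    have := hmin N₁ h1
    exact ((Real.log_lt_iff_lt_exp hp0).1 (by linarith)).le
  have h1' : N₁ ≤ Rel B Z' R := fun x hx => ⟨(h1 hx).1, rsp_mono hZ (h1 hx).2⟩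
  have hle : rsp N₁ ≤ rsp Np := by
    have a1 := hmin (N₁ ⊓ Np) (inf_le_left.trans h1)
    have a2 := hp.2.2 (N₁ ⊔ Np) bot_le (sup_le h1' hp.2.1)
    have a3 := hn_submod isLat_Zl (h1.trans (hZl _ _)) (hp.2.1.trans (hZl _ _)) (2 * lam)
    have a4 := Real.log_nonneg (ho1.trans hop)
    have a5 : hn (2 * lam) (N₁ ⊓ Np) ≤ hn (2 * lam) N₁ := by linarith
    have a6 : hn lam N₁ - lam < hn lam (N₁ ⊓ Np) := by linarith
    unfold hn at a5 a6
    have a7 : lam * (rk N₁ : ℝ) < lam * ((rk (N₁ ⊓ Np) : ℝ) + 1) := by linarith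
    have a8 : rk N₁ < rk (N₁ ⊓ Np) + 1 := by exact_mod_cast lt_of_mul_lt_mul_left a7 hlam.le
    rw [← rsp_eq_of_rk_eq (inf_le_left : N₁ ⊓ Np ≤ N₁) (by omega)]
    exact rsp_mono inf_le_right
  refine ⟨o, ho, hop.trans hlt, v - (o : ℝ) • EuclideanSpace.single j (1 : ℝ), ⟨fun i => ?_,
    fun i hi => ?_⟩, ?_, v - p, hle hw, le_trans ?_ hlt⟩
  · obtain ⟨k, hk⟩ := (hN hv).1.1 i
    by_cases hij : i = j
    · exact ⟨0, by simp [hij, hvj]⟩
    · exact ⟨k, by simp [hij, hk]⟩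
  · by_cases hij : i = j
    · simp [hij, hvj]
    · simpa [hij] using (hN hv).1.2 i (by simp [hij, hi])
  · rw [map_sub, map_smul, add_sub_cancel]
    exact (hN hv).2
  · rw [show v - (o : ℝ) • EuclideanSpace.single j (1 : ℝ) - (v - p) =
      p - (o : ℝ) • EuclideanSpace.single j (1 : ℝ) by abel]
    refine le_of_sq_le_sq ?_ (norm_nonneg _)
    rw [norm_sub_sq_real, real_inner_smul_right, EuclideanSpace.inner_single_right, norm_smul]
    simp only [hpj, PiLp.norm_single, norm_one, mul_one, Real.norm_eq_abs, sq_abs,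
      conj_trivial, one_mul]
    nlinarith

theorem CoreB2_congr {n : ℕ} {B B' : Matrix (Fin n) (Fin n) ℤ} (Z : Submodule ℤ (V (Fin n)))
    {S R : Finset (Fin n)} (h : ∀ i ∈ R, ∀ k, k ∉ S → B k i = B' k i) {α : V (Fin n)}
    (hα : α ∈ Zc R) (y : V (Fin n)) :
    y + act B α ∈ rsp (Z ⊔ Zc S) ↔ y + act B' α ∈ rsp (Z ⊔ Zc S) := by
  have h1 : act B α - act B' α ∈ rsp (Z ⊔ Zc S) := by
    refine rsp_mono le_sup_right ?_
    rw [rsp_Zc]
    intro k hk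
    simp only [act, LinearMap.coe_mk, AddHom.coe_mk, PiLp.sub_apply, Matrix.mulVec, dotProduct,
      Matrix.map_apply, sub_eq_zero]
    refine Finset.sum_congr rfl fun i _ => ?_
    by_cases hi : i ∈ R
    · rw [h i hi k hk]
    · rw [hα.2 i hi, mul_zero, mul_zero]
  rw [show y + act B α = y + act B' α + (act B α - act B' α) by abel]
  exact Submodule.add_mem_iff_left _ h1

theorem Rel_congr {n : ℕ} {B B' : Matrix (Fin n) (Fin n) ℤ} (Z : Submodule ℤ (V (Fin n)))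
    {S R : Finset (Fin n)} (h : ∀ i ∈ R, ∀ k, k ∉ S → B k i = B' k i) :
    Rel B (Z ⊔ Zc S) R = Rel B' (Z ⊔ Zc S) R := by
  ext α
  exact and_congr_right fun hα => by
    simpa using CoreB2_congr Z h hα 0

theorem LL_congr {n : ℕ} {B B' : Matrix (Fin n) (Fin n) ℤ} (Z : Submodule ℤ (V (Fin n)))
    {S R : Finset (Fin n)} (h : ∀ i ∈ R, ∀ k, k ∉ S → B k i = B' k i) (o : ℕ) (c : ℝ) :
    LL B (Z ⊔ Zc S) R o c = LL B' (Z ⊔ Zc S) R o c := by
  ext u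
  exact exists_congr fun x => and_congr_right fun _ => exists_congr fun α =>
    and_congr_right fun hα => and_congr_left fun _ => CoreB2_congr Z h hα _

theorem CoreB2_inl {n : ℕ} (x : V (Fin n)) : ‖inlL x‖ = ‖x‖ := by
  simp [EuclideanSpace.norm_eq, Fintype.sum_sum_type, inlL]

theorem CoreB2_inr {n : ℕ} (x : V (Fin n)) : ‖inrL x‖ = ‖x‖ := by
  simp [EuclideanSpace.norm_eq, Fintype.sum_sum_type, inrL]

theorem CoreB2_inner {n : ℕ} (x y : V (Fin n)) : inner ℝ (inlL x) (inrL y) = 0 := by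
  simp [PiLp.inner_apply, Fintype.sum_sum_type, inlL, inrL]

theorem CoreB2_sum {n : ℕ} {A C : Submodule ℤ (V (Fin n))} (hA : IsLat A) (hC : IsLat C) {c : ℝ}
    (hc : 0 < c) : IsLat (img inlL A ⊔ img (c • inrL) C) ∧
      rk (img inlL A ⊔ img (c • inrL) C) = rk A + rk C ∧
      cov (img inlL A ⊔ img (c • inrL) C) = cov A * (c ^ rk C * cov C) := by
  have e1 : ∀ x : V (Fin n), ‖(c • inrL) x‖ = c * ‖x‖ := fun x => by
    rw [LinearMap.smul_apply, norm_smul, CoreB2_inr, Real.norm_of_nonneg hc.le]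
  obtain ⟨a1, a2⟩ := hA.img inlL fun x _ h => by rw [← norm_eq_zero, ← CoreB2_inl, h, norm_zero]
  obtain ⟨b1, b2⟩ := hC.img (c • inrL) fun x _ h => by
    have := e1 x
    rw [h, norm_zero] at this
    exact norm_eq_zero.1 ((mul_eq_zero.1 this.symm).resolve_left hc.ne')
  obtain ⟨c1, c2, c3⟩ := cov_sup_orth a1 b1 (by
    rintro _ ⟨x, -, rfl⟩ _ ⟨y, -, rfl⟩
    change inner ℝ (inlL x) (c • inrL y) = 0
    rw [real_inner_smul_right, CoreB2_inner, mul_zero])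
  refine ⟨c1, by rw [c2, a2, b2], ?_⟩
  rw [c3, cov_img_of_norm hA inlL one_pos fun x _ => by rw [CoreB2_inl, one_mul],
    cov_img_of_norm hC _ hc fun x _ => e1 x, one_pow, one_mul]

theorem isLat_LL {n : ℕ} (B : Matrix (Fin n) (Fin n) ℤ) (Z : Submodule ℤ (V (Fin n)))
    (R : Finset (Fin n)) (o : ℕ) {c : ℝ} (hc : 0 < c) :
    IsLat (LL B Z R o c) ∧ rk (LL B Z R o c) ≤ 2 * n := by
  obtain ⟨h1, h2, -⟩ := CoreB2_sum (isLat_Zl (ι := Fin n)) (isLat_Zl (ι := Fin n)) hc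
  have h3 : LL B Z R o c ≤ img inlL (Zl (Fin n)) ⊔ img (c • inrL) (Zl (Fin n)) := by
    rintro _ ⟨x, hx, α, hα, -, rfl⟩
    exact Submodule.add_mem_sup ⟨x, hx, rfl⟩ ⟨α, hα.1, rfl⟩
  refine ⟨h1.sub h3, (rk_mono h3).trans (le_of_eq ?_)⟩
  rw [h2, rk_Zl, Fintype.card_fin, two_mul]

theorem NN_le_LL {n : ℕ} {B : Matrix (Fin n) (Fin n) ℤ} {Z Np : Submodule ℤ (V (Fin n))}
    {R : Finset (Fin n)} (hp : Np ≤ Rel B Z R) (o : ℕ) (c : ℝ) : NN Z Np c ≤ LL B Z R o c := by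
  refine sup_le ?_ ?_
  · rintro _ ⟨x, hx, rfl⟩
    exact ⟨x, hx.1, 0, zero_mem _, by simpa using (rsp Z).smul_mem (o : ℝ) hx.2, by simp⟩
  · rintro _ ⟨α, hα, rfl⟩
    exact ⟨0, zero_mem _, α, (hp hα).1, by simpa using (hp hα).2, by simp⟩

theorem cov_NN {n : ℕ} {Z Np : Submodule ℤ (V (Fin n))} (hZ : Z ≤ Zl (Fin n))
    (hp : Np ≤ Zl (Fin n)) {c : ℝ} (hc : 0 < c) :
    rk (NN Z Np c) = rk Z + rk Np ∧
      cov (NN Z Np c) = cov (sec (Zl (Fin n)) (rsp Z)) * (c ^ rk Np * cov Np) := by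
  obtain ⟨-, h2, h3⟩ := CoreB2_sum (isLat_Zl.sub (sec_le (Zl (Fin n)) (rsp Z))) (isLat_Zl.sub hp) hc
  exact ⟨by rw [← l2b_rk_sec hZ]; exact h2, h3⟩

theorem norm_inl_inr {n : ℕ} (x y : V (Fin n)) :
    ‖inlL x + inrL y‖ ^ 2 = ‖x‖ ^ 2 + ‖y‖ ^ 2 := by
  rw [norm_add_sq_real, CoreB2_inner, CoreB2_inl, CoreB2_inr, mul_zero, add_zero]

theorem fstL_inl {n : ℕ} (x : V (Fin n)) : fstL (inlL x) = x := by
  ext i; simp [fstL, inlL]

theorem fstL_inr {n : ℕ} (x : V (Fin n)) : fstL (inrL x) = 0 := by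
  ext i; simp [fstL, inrL]

theorem norm_act_single {n : ℕ} {B : Matrix (Fin n) (Fin n) ℤ} (hB : IsSS B) (i : Fin n) :
    ‖act B (EuclideanSpace.single i (1 : ℝ))‖ ^ 2 = n := by
  rw [EuclideanSpace.real_norm_sq_eq]
  have : ∀ k, (act B (EuclideanSpace.single i (1 : ℝ))) k ^ 2 = 1 := fun k => by
    rcases hB.2 k i with h | h <;> simp [act, h]
  simp [this]

end Crest.Agent.R152
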