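import Crest.Agent.R152.CoreB2

/-! # Row 152: covolume of the explicit sublattice -/

set_option autoImplicit false
open Matrix Filter
open Crest.FinProb Crest.ProbabilityR.SignMatrix

noncomputable section
namespace Crest.Agent.R152

theorem cb3_cs {E : Type} [NormedAddCommGroup E] [InnerProductSpace ℝ E] [FiniteDimensional ℝ E]
    {ι : Type} [Fintype ι] [DecidableEq ι] (u w : ι → E) :
    |(Matrix.of fun i j => inner ℝ (u i) (w j)).det| ≤ gvol u * gvol w := by
  set S := Submodule.span ℝ (Set.range u) with hS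
  have h1 : ∀ j, ∃ c : ι → ℝ, ∑ i, c i • u i = S.starProjection (w j) := fun j =>
    (Submodule.mem_span_range_iff_exists_fun ℝ).1 (S.starProjection_apply_mem (w j))
  choose c hc using h1
  set U : Matrix ι ι ℝ := Matrix.of fun i j => c j i with hU
  have h2 : (Matrix.of fun i j => inner ℝ (u i) (w j)) = Matrix.gram ℝ u * U := by
    ext i j
    have hm : u i ∈ S := Submodule.subset_span ⟨i, rfl⟩
    have h3 : inner ℝ (u i) (w j - S.starProjection (w j)) = 0 :=
      (S.sub_starProjection_mem_orthogonal (w j)) _ hm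
    rw [inner_sub_right, sub_eq_zero] at h3
    rw [Matrix.of_apply, h3, ← hc, inner_sum, Matrix.mul_apply]
    refine Finset.sum_congr rfl fun k _ => ?_
    rw [inner_smul_right, Matrix.gram_apply, hU, Matrix.of_apply, mul_comm]
  have h4 := gvol_mul u U
  have h5 := gvol_contract (S.starProjection : E →L[ℝ] E).toLinearMap w zero_le_one
    (fun x _ => by simpa using S.norm_starProjection_apply_le x)
  have h6 : (fun j => ∑ i, U i j • u i) =
      fun j => (S.starProjection : E →L[ℝ] E).toLinearMap (w j) := by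
    funext j
    simpa [hU] using hc j
  rw [h6] at h4
  rw [one_pow, one_mul, h4] at h5
  rw [h2, Matrix.det_mul, ← gvol_sq, abs_mul, abs_of_nonneg (sq_nonneg _)]
  have := gvol_nonneg u
  calc gvol u ^ 2 * |U.det| = gvol u * (|U.det| * gvol u) := by ring
    _ ≤ _ := by gcongr

theorem cb3_inner {n : ℕ} (x y x' y' : V (Fin n)) :
    inner ℝ (inlL x + inrL y) (inlL x' + inrL y') = inner ℝ x x' + inner ℝ y y' := by
  simp [PiLp.inner_apply, Fintype.sum_sum_type, inlL, inrL]

theorem cb3_symm {n : ℕ} {B : Matrix (Fin n) (Fin n) ℤ} (hB : B.IsSymm) (x y : V (Fin n)) :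
    inner ℝ (act B x) y = inner ℝ x (act B y) := by
  simp only [PiLp.inner_apply, act, LinearMap.coe_mk, AddHom.coe_mk, Matrix.mulVec, dotProduct,
    Matrix.map_apply, RCLike.inner_apply, conj_trivial, Finset.mul_sum, Finset.sum_mul]
  rw [Finset.sum_comm]
  refine Finset.sum_congr rfl fun i _ => Finset.sum_congr rfl fun j _ => ?_
  rw [hB.apply i j]
  ring

theorem cb3_gr {n : ℕ} (B : Matrix (Fin n) (Fin n) ℤ) (s : ℝ) (x : V (Fin n)) :
    grL B s x = inlL (-act B x) + inrL (s • x) := by
  simp [grL]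

theorem cb3_Zc {n : ℕ} : Zc (Finset.univ : Finset (Fin n)) =
    Submodule.span ℤ (Set.range fun i : Fin n => (EuclideanSpace.single i (1 : ℝ) : V (Fin n))) := by
  apply le_antisymm
  · intro x hx
    choose k hk using (mem_sec.1 hx).1
    refine (Submodule.mem_span_range_iff_exists_fun ℤ).2 ⟨k, ?_⟩
    ext j
    simp [hk j, Pi.single_apply]
  · rw [Submodule.span_le]
    rintro _ ⟨i, rfl⟩
    refine mem_sec.2 ⟨fun j => ⟨if j = i then 1 else 0, ?_⟩, fun j hj => absurd (Finset.mem_univ j) hj⟩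
    by_cases h : j = i <;> simp [h]

theorem cb3_gram {n : ℕ} {B : Matrix (Fin n) (Fin n) ℤ} (hB : B.IsSymm) (s : ℝ) :
    Matrix.gram ℝ (fun i : Fin n => grL B s (EuclideanSpace.single i (1 : ℝ))) =
      (B.map (Int.cast : ℤ → ℝ)) * (B.map (Int.cast : ℤ → ℝ)) +
        (s ^ 2) • (1 : Matrix (Fin n) (Fin n) ℝ) := by
  ext i j
  rw [Matrix.gram_apply, cb3_gr, cb3_gr, cb3_inner, inner_neg_neg, cb3_symm hB, inner_smul_left,
    inner_smul_right, EuclideanSpace.inner_single_left, EuclideanSpace.inner_single_left]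
  simp [act, Matrix.one_apply, Pi.single_apply, Matrix.mul_apply, Matrix.mulVec, dotProduct]
  split_ifs <;> ring

/-- Covolume of the full graph lattice: base times height, then a Fischer-type inequality. -/
theorem cov_LP_univ {n : ℕ} {B : Matrix (Fin n) (Fin n) ℤ} (hB : IsSS B)
    {Z : Submodule ℤ (V (Fin n))} (hZ : Z ≤ Zl (Fin n)) {s : ℝ} (hs : 0 < s)
    (hs1 : s ^ 2 ≤ n) :
    cov (sec (Zl (Fin n)) (rsp Z)) * s ^ rk Z *
        Real.sqrt ((B.map (Int.cast : ℤ → ℝ)) * (B.map (Int.cast : ℤ → ℝ)) +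
          (s ^ 2) • (1 : Matrix (Fin n) (Fin n) ℝ)).det ≤
      cov (LP B Z Finset.univ s) * (Real.sqrt (2 * n) ^ rk Z * Real.exp ((n : ℝ) / 2)) := by
  obtain ⟨a, ha, haS⟩ := (isLat_Zl.sub (sec_le (Zl (Fin n)) (rsp Z))).exists_basis
  have hrk : rk (sec (Zl (Fin n)) (rsp Z)) = rk Z := l2b_rk_sec hZ
  set e : Fin n → V (Fin n) := fun i => EuclideanSpace.single i (1 : ℝ) with he
  set f' : V (Fin n) →ₗ[ℝ] V (Fin n ⊕ Fin n) := s • inlL + inrL ∘ₗ act B with hf'
  have hf : ∀ x, f' x = inlL (s • x) + inrL (act B x) := fun x => by simp [hf']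
  set Γ := Submodule.span ℝ (Set.range fun i => grL B s (e i)) with hΓ
  set p := fun k => Γᗮ.starProjection (inlL (a k)) with hp
  have horth : ∀ x, f' x ∈ Γᗮ := fun x => by
    rw [hΓ, Submodule.mem_orthogonal]
    intro u hu
    induction hu using Submodule.span_induction with
    | mem y hy =>
      obtain ⟨i, rfl⟩ := hy
      simp only
      rw [hf, cb3_gr, cb3_inner, inner_neg_left, cb3_symm hB.1, map_smul, inner_smul_left,
        inner_smul_right]
      simp
    | zero => simp
    | add y z _ _ hy hz => rw [inner_add_left, hy, hz, add_zero]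
    | smul c y _ hy => rw [inner_smul_left, hy, mul_zero]
  have hM : (Matrix.of fun i j => inner ℝ (f' (a i)) (p j)) = s • Matrix.gram ℝ a := by
    ext i j
    have h3 : inner ℝ (f' (a i)) (inlL (a j) - Γᗮ.starProjection (inlL (a j))) = 0 :=
      (Γᗮ.sub_starProjection_mem_orthogonal (inlL (a j))) _ (horth _)
    rw [inner_sub_right, sub_eq_zero] at h3
    have h4 := cb3_inner (s • a i) (act B (a i)) (a j) 0
    rw [map_zero, add_zero, inner_zero_right, add_zero, inner_smul_left] at h4
    rw [Matrix.of_apply, hp, ← h3, hf, h4]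
    simp [Matrix.gram_apply]
  have h1 := cb3_cs (fun i => f' (a i)) p
  rw [hM, Matrix.det_smul, ← gvol_sq, Fintype.card_fin,
    abs_of_nonneg (by positivity)] at h1
  have h2 := gvol_frob_sign f' (n := n) (by
    have h5 := frob_act hB
    rw [Fintype.card_fin] at h5
    have h6 : ∀ i : Fin n, ‖f' (EuclideanSpace.single i (1 : ℝ))‖ ^ 2 =
        s ^ 2 + ‖act B (EuclideanSpace.single i (1 : ℝ))‖ ^ 2 := fun i => by
      rw [hf, norm_inl_inr, norm_smul, mul_pow]
      simp
    simp only [h6, Finset.sum_add_distrib, h5, Finset.sum_const, Finset.card_univ,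
      Fintype.card_fin, nsmul_eq_mul]
    have : (0 : ℝ) ≤ n := Nat.cast_nonneg n
    nlinarith) a
  rw [Fintype.card_fin] at h2
  rw [← hrk]
  set C := Real.sqrt (2 * n) ^ rk (sec (Zl (Fin n)) (rsp Z)) * Real.exp ((n : ℝ) / 2) with hC
  have ha0 := gvol_pos ha
  have hp0 := gvol_nonneg p
  have h3 : s ^ rk (sec (Zl (Fin n)) (rsp Z)) * gvol a ≤ C * gvol p := by
    have : (s ^ rk (sec (Zl (Fin n)) (rsp Z)) * gvol a) * gvol a ≤ (C * gvol p) * gvol a :=
      calc _ = s ^ rk (sec (Zl (Fin n)) (rsp Z)) * gvol a ^ 2 := by ring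
        _ ≤ _ := h1
        _ ≤ (C * gvol a) * gvol p := by gcongr
        _ = _ := by ring
    exact le_of_mul_le_mul_right this ha0
  have h4 := gvol_sum_elim (fun i => grL B s (e i)) (fun k => inlL (a k))
  have he0 : 0 < gvol fun i => grL B s (e i) := by
    refine gvol_pos (lat1c_li (grL B s) ?_ fun x _ hx => ?_)
    · exact (EuclideanSpace.orthonormal_single (𝕜 := ℝ) (ι := Fin n)).linearIndependent
    · have h7 := norm_inl_inr (-act B x) (s • x)
      rw [← cb3_gr, hx, norm_zero] at h7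
      have h8 : ‖s • x‖ ^ 2 = 0 := by nlinarith [sq_nonneg ‖-act B x‖, sq_nonneg ‖s • x‖]
      have h9 : s • x = 0 := by simpa using h8
      exact (smul_eq_zero.1 h9).resolve_left hs.ne'
  have hp1 : 0 < gvol p := by
    rcases hp0.lt_or_eq with h | h
    · exact h
    · rw [← h, mul_zero] at h3
      exact absurd h3 (not_le.2 (by positivity))
  have hli : LinearIndependent ℝ (Sum.elim (fun i => grL B s (e i)) fun k => inlL (a k)) := by
    by_contra h
    rw [gvol_eq_zero h] at h4
    exact absurd h4 (by positivity)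
  have hLP : LP B Z Finset.univ s =
      Submodule.span ℤ (Set.range (Sum.elim (fun i => grL B s (e i)) fun k => inlL (a k))) := by
    rw [Set.Sum.elim_range, Submodule.span_union, sup_comm, ← lat1c_img_span, ← lat1c_img_span,
      haS, ← cb3_Zc]
    rfl
  have hca : cov (sec (Zl (Fin n)) (rsp Z)) = gvol a := by rw [← cov_span ha, haS]
  have hd : Real.sqrt ((B.map (Int.cast : ℤ → ℝ)) * (B.map (Int.cast : ℤ → ℝ)) +
      (s ^ 2) • (1 : Matrix (Fin n) (Fin n) ℝ)).det = gvol fun i => grL B s (e i) := by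
    rw [← cb3_gram hB.1]; rfl
  rw [hLP, cov_span hli, h4, hca, hd]
  calc _ = (s ^ rk (sec (Zl (Fin n)) (rsp Z)) * gvol a) * gvol fun i => grL B s (e i) := by ring
    _ ≤ (C * gvol p) * gvol fun i => grL B s (e i) := by gcongr
    _ = _ := by ring

end Crest.Agent.R152
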