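import Crest.Agent.R152.CoreB2

/-! # Row 152: index of the explicit sublattice, short vectors -/

set_option autoImplicit false
open Matrix Filter
open Crest.FinProb Crest.ProbabilityR.SignMatrix

noncomputable section
namespace Crest.Agent.R152

section Aux
variable {n : ℕ}

private def sndL : V (Fin n ⊕ Fin n) →ₗ[ℝ] V (Fin n) where
  toFun u := WithLp.toLp 2 (fun i => u (Sum.inr i))
  map_add' x y := by ext i; simp
  map_smul' c x := by ext i; simp

private theorem sndL_inl (x : V (Fin n)) : sndL (inlL x) = 0 := by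
  ext i; simp [sndL, inlL]

private theorem sndL_inr (x : V (Fin n)) : sndL (inrL x) = x := by
  ext i; simp [sndL, inrL]

private theorem grL_apply (B : Matrix (Fin n) (Fin n) ℤ) (s : ℝ) (β : V (Fin n)) :
    grL B s β = inlL (-act B β) + s • inrL β := by
  simp [grL]

private theorem act_mem (B : Matrix (Fin n) (Fin n) ℤ) {x : V (Fin n)} (hx : x ∈ Zl (Fin n)) :
    act B x ∈ Zl (Fin n) := img_act_le B le_rfl ⟨x, hx, rfl⟩

private theorem nsmul_mem {N : Submodule ℤ (V (Fin n))} (o : ℕ) {x : V (Fin n)} (hx : x ∈ N) :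
    (o : ℝ) • x ∈ N := by
  rw [Nat.cast_smul_eq_nsmul]
  exact N.toAddSubgroup.nsmul_mem hx o

private theorem LP_le_LL (B : Matrix (Fin n) (Fin n) ℤ) (Z : Submodule ℤ (V (Fin n)))
    (R : Finset (Fin n)) (o : ℕ) (c : ℝ) : LP B Z R (c * o) ≤ LL B Z R o c := by
  refine sup_le ?_ ?_
  · rintro _ ⟨z, hz, rfl⟩
    exact ⟨z, hz.1, 0, zero_mem _, by simpa using (rsp Z).smul_mem (o : ℝ) hz.2, by simp⟩
  · rintro _ ⟨β, hβ, rfl⟩
    refine ⟨-act B β, neg_mem (act_mem B hβ.1), (o : ℝ) • β, nsmul_mem o hβ, by simp, ?_⟩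
    show grL B (c * o) β = _
    rw [grL_apply, map_smul, smul_smul]

private theorem rsp_LP (B : Matrix (Fin n) (Fin n) ℤ) {Z : Submodule ℤ (V (Fin n))}
    (hZ : Z ≤ Zl (Fin n)) (R : Finset (Fin n)) (s : ℝ) :
    rsp (LP B Z R s) = (rsp Z).map inlL ⊔ (Rc R).map (grL B s) := by
  rw [LP, rsp_sup, rsp_img, rsp_img, rsp_sec_rsp hZ, rsp_Zc]

private theorem finrank_map_inj {E F : Type} [AddCommGroup E] [Module ℝ E] [AddCommGroup F]
    [Module ℝ F] (f : E →ₗ[ℝ] F) (hf : ∀ x, f x = 0 → x = 0) (W : Submodule ℝ E) :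
    Module.finrank ℝ (W.map f) = Module.finrank ℝ W :=
  (Submodule.equivMapOfInjective f ((injective_iff_map_eq_zero f).2 hf) W).finrank_eq.symm

private theorem norm_gr {B : Matrix (Fin n) (Fin n) ℤ} (hB : IsSS B) {s : ℝ} (hs1 : s ^ 2 ≤ n)
    (i : Fin n) : ‖grL B s (EuclideanSpace.single i (1 : ℝ))‖ ≤ Real.sqrt (2 * n) := by
  refine Real.le_sqrt_of_sq_le ?_
  rw [grL_apply, ← map_smul, norm_inl_inr, norm_neg, norm_act_single hB, norm_smul, mul_pow]
  simp only [EuclideanSpace.norm_single, norm_one, one_pow, mul_one, Real.norm_eq_abs, sq_abs]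
  linarith

private theorem single_mem {R : Finset (Fin n)} {i : Fin n} (hi : i ∈ R) :
    EuclideanSpace.single i (1 : ℝ) ∈ Zc R := by
  refine ⟨fun j => ?_, fun j hj => ?_⟩
  · by_cases h : j = i
    · exact ⟨1, by simp [h]⟩
    · exact ⟨0, by simp [h]⟩
  · have : j ≠ i := fun h => hj (h ▸ hi)
    simp [this]

private theorem map_gr_le (B : Matrix (Fin n) (Fin n) ℤ) (R : Finset (Fin n)) (s : ℝ) :
    (Rc R).map (grL B s) ≤
      Submodule.span ℝ ((fun i => grL B s (EuclideanSpace.single i (1 : ℝ))) '' (R : Set (Fin n))) := by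
  rintro _ ⟨β, hβ, rfl⟩
  have e : β = ∑ i, β i • EuclideanSpace.single i (1 : ℝ) := by
    ext j; simp [Pi.single_apply]
  rw [e, map_sum]
  refine Submodule.sum_mem _ fun i _ => ?_
  by_cases hi : i ∈ R
  · rw [map_smul]
    exact Submodule.smul_mem _ _ (Submodule.subset_span ⟨i, hi, rfl⟩)
  · rw [hβ i hi, zero_smul, map_zero]
    exact zero_mem _

private theorem card_fiber {A C T : Type} [AddCommGroup A] [AddCommGroup C] [Finite A] [Finite T]
    (f : A →+ C) (g : T → C) (S : Set A) (hS : ∀ a ∈ S, ∃ t, f a = g t) :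
    Nat.card S ≤ Nat.card {a : A // f a = 0} * Nat.card T := by
  classical
  choose t ht using hS
  let a0 : T → A := fun τ => if h : ∃ a, f a = g τ then h.choose else 0
  have h0 : ∀ a (ha : a ∈ S), f (a0 (t a ha)) = g (t a ha) := fun a ha => by
    have h : ∃ b, f b = g (t a ha) := ⟨a, ht a ha⟩
    simp only [a0, dif_pos h]
    exact h.choose_spec
  rw [← Nat.card_prod]
  refine Nat.card_le_card_of_injective
    (fun a : S => ((⟨a.1 - a0 (t a.1 a.2), by rw [map_sub, h0 a.1 a.2, ht a.1 a.2, sub_self]⟩, t a.1 a.2) :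
      {a : A // f a = 0} × T)) fun a b hab => ?_
  simp only [Prod.mk.injEq, Subtype.mk.injEq] at hab
  obtain ⟨h1, h2⟩ := hab
  have h3 : a0 (t a.1 a.2) = a0 (t b.1 b.2) := congrArg a0 h2
  rw [h3] at h1
  exact Subtype.ext (sub_left_injective h1)

/-- reduction of an integer vector modulo `o` -/
private def md (o : ℕ) (x : V (Fin n)) : Fin n → ZMod o := fun i => ((⌊x i⌋ : ℤ) : ZMod o)

private theorem md_zv (o : ℕ) (z : Fin n → ℤ) : md o (zv z) = fun i => (z i : ZMod o) := by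
  funext i; simp [md, zv]

private theorem zv_add (a b : Fin n → ℤ) : zv (a + b) = zv a + zv b := by
  ext i; simp [zv]

private theorem zv_smul (k : ℤ) (a : Fin n → ℤ) : zv (k • a) = (k : ℝ) • zv a := by
  ext i; simp [zv]

private theorem snd_eq {c : ℝ} (hc : 0 < c) (x α : V (Fin n)) :
    c⁻¹ • sndL (inlL x + c • inrL α) = α := by
  rw [map_add, map_smul, sndL_inl, sndL_inr, zero_add, smul_smul, inv_mul_cancel₀ hc.ne', one_smul]

end Aux

theorem isLat_LP {n : ℕ} (B : Matrix (Fin n) (Fin n) ℤ) {Z : Submodule ℤ (V (Fin n))}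
    (hZ : Z ≤ Zl (Fin n)) (R : Finset (Fin n)) {s : ℝ} (hs : 0 < s) :
    IsLat (LP B Z R s) ∧ rk (LP B Z R s) = R.card + rk Z := by
  constructor
  · have h := LP_le_LL B Z R 1 s
    rw [Nat.cast_one, mul_one] at h
    exact (isLat_LL B Z R 1 hs).1.sub h
  · have h := Submodule.finrank_sup_add_finrank_inf_eq ((rsp Z).map inlL) ((Rc R).map (grL B s))
    have hgr : ∀ x, grL B s x = 0 → x = 0 := fun x hx => by
      have := snd_eq hs (-act B x) x
      rw [← grL_apply, hx, map_zero, smul_zero] at this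
      exact this.symm
    have hb : (rsp Z).map inlL ⊓ (Rc R).map (grL B s) = ⊥ := by
      rw [eq_bot_iff]
      rintro _ ⟨⟨x, -, hx⟩, β, -, rfl⟩
      have := snd_eq hs (-act B β) β
      rw [← grL_apply, ← hx, sndL_inl, smul_zero] at this
      rw [← this, map_zero]
      exact zero_mem _
    rw [hb, finrank_bot, add_zero, finrank_map_inj _ hgr, finrank_Rc,
      finrank_map_inj _ fun x hx => by rw [← fstL_inl x, hx, map_zero]] at h
    unfold rk
    rw [rsp_LP B hZ, h, add_comm]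

theorem cov_LP_univ_le {n : ℕ} {B : Matrix (Fin n) (Fin n) ℤ} (hB : IsSS B)
    {Z : Submodule ℤ (V (Fin n))} (hZ : Z ≤ Zl (Fin n)) (R : Finset (Fin n)) {s : ℝ} (hs : 0 < s)
    (hs1 : s ^ 2 ≤ n) :
    cov (LP B Z Finset.univ s) ≤ cov (LP B Z R s) * Real.sqrt (2 * n) ^ (n - R.card) := by
  obtain ⟨h1, h2⟩ := isLat_LP B hZ Finset.univ hs
  have hz : Zc R ≤ Zc (Finset.univ : Finset (Fin n)) :=
    fun x hx => ⟨hx.1, fun i hi => absurd (Finset.mem_univ i) hi⟩
  have hle : LP B Z R s ≤ LP B Z Finset.univ s := sup_le_sup_left (Submodule.map_mono hz) _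
  have h := cov_le_short h1 hle
    ((fun i => grL B s (EuclideanSpace.single i (1 : ℝ))) '' ((Finset.univ : Finset (Fin n)) : Set (Fin n)))
    (Real.sqrt_nonneg (2 * n)) (by
      rintro _ ⟨i, hi, rfl⟩
      exact ⟨Submodule.mem_sup_right ⟨_, single_mem hi, rfl⟩, norm_gr hB hs1 i⟩) (by
      rw [rsp_LP B hZ, rsp_LP B hZ]
      exact sup_le_sup le_sup_left (map_gr_le B _ s))
  rw [h2, (isLat_LP B hZ R hs).2, Finset.card_univ, Fintype.card_fin, Nat.add_sub_add_right] at h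
  exact h

theorem rk_LL {n : ℕ} (B : Matrix (Fin n) (Fin n) ℤ) {Z : Submodule ℤ (V (Fin n))}
    (hZ : Z ≤ Zl (Fin n)) (R : Finset (Fin n)) {o : ℕ} (ho : 1 ≤ o) {c : ℝ} (hc : 0 < c) :
    LP B Z R (c * o) ≤ LL B Z R o c ∧ rsp (LL B Z R o c) = rsp (LP B Z R (c * o)) ∧
      rk (LL B Z R o c) = R.card + rk Z := by
  have ho' : (0 : ℝ) < o := by exact_mod_cast ho
  have h : rsp (LL B Z R o c) = rsp (LP B Z R (c * o)) := by
    refine le_antisymm (Submodule.span_le.2 ?_) (rsp_mono (LP_le_LL B Z R o c))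
    rintro _ ⟨x, -, α, hα, h, rfl⟩
    rw [rsp_LP B hZ]
    have e : inlL x + c • inrL α =
        inlL ((o : ℝ)⁻¹ • ((o : ℝ) • x + act B α)) + grL B (c * o) ((o : ℝ)⁻¹ • α) := by
      rw [grL_apply, smul_add, smul_smul, inv_mul_cancel₀ ho'.ne', one_smul, map_add, map_smul (act B),
        map_smul inrL, smul_smul, mul_assoc, mul_inv_cancel₀ ho'.ne', mul_one, map_neg]
      abel
    rw [e]
    exact Submodule.add_mem_sup ⟨_, (rsp Z).smul_mem _ h, rfl⟩ ⟨_, (Rc R).smul_mem _ hα.2, rfl⟩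
  refine ⟨LP_le_LL B Z R o c, h, ?_⟩
  unfold rk
  rw [h]
  exact (isLat_LP B hZ R (mul_pos hc ho')).2

theorem cov_LP_le {n : ℕ} (B : Matrix (Fin n) (Fin n) ℤ) {Z : Submodule ℤ (V (Fin n))}
    (hZ : Z ≤ Zl (Fin n)) (R : Finset (Fin n)) {o : ℕ} (ho : 1 ≤ o) {c : ℝ} (hc : 0 < c) :
    cov (LP B Z R (c * o)) ≤ (kerCard B o : ℝ) * (o : ℝ) ^ rk Z * cov (LL B Z R o c) := by
  have ho' : (0 : ℝ) < o := by exact_mod_cast ho
  have : NeZero o := ⟨by omega⟩
  obtain ⟨h1, -, h3⟩ := rk_LL B hZ R ho hc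
  obtain ⟨-, h5⟩ := cov_index (isLat_LL B Z R o hc).1 h1
    (by rw [h3, (isLat_LP B hZ R (mul_pos hc ho')).2])
  let φ : (LL B Z R o c).toAddSubgroup →+ (Fin n → ZMod o) :=
    AddMonoidHom.mk' (fun u => md o (c⁻¹ • sndL u.1)) (by
      rintro ⟨_, x, hx, α, hα, h, rfl⟩ ⟨_, y, hy, β, hβ, h', rfl⟩
      obtain ⟨a, rfl⟩ := exists_zv hα.1
      obtain ⟨b, rfl⟩ := exists_zv hβ.1
      show md o (c⁻¹ • sndL (_ + _)) = _
      rw [map_add sndL (inlL x + _), smul_add, snd_eq hc, snd_eq hc, ← zv_add, md_zv, md_zv, md_zv]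
      funext i; simp)
  have hker : φ.ker ≤ (LP B Z R (c * o)).toAddSubgroup.addSubgroupOf (LL B Z R o c).toAddSubgroup := by
    rintro ⟨_, x, hx, α, hα, h, rfl⟩ hu
    obtain ⟨a, rfl⟩ := exists_zv hα.1
    have hu' : md o (c⁻¹ • sndL (inlL x + c • inrL (zv a))) = 0 := hu
    rw [snd_eq hc, md_zv] at hu'
    have hd : ∀ i, ∃ k, a i = (o : ℤ) * k := fun i =>
      (ZMod.intCast_zmod_eq_zero_iff_dvd (a i) o).1 (congrFun hu' i)
    choose b hb using hd
    have e1 : zv a = (o : ℝ) • zv b := by ext i; simp [zv, hb i]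
    have hβ : zv b ∈ Zc R := ⟨zv_mem b, fun i hi => by
      have h2 : zv a i = 0 := hα.2 i hi
      rw [e1] at h2
      simpa [ho'.ne'] using h2⟩
    have hz : x + act B (zv b) ∈ rsp Z := by
      have := (rsp Z).smul_mem (o : ℝ)⁻¹ h
      rwa [e1, map_smul, ← smul_add, smul_smul, inv_mul_cancel₀ ho'.ne', one_smul] at this
    show inlL x + c • inrL (zv a) ∈ LP B Z R (c * o)
    have e : inlL x + c • inrL (zv a) = inlL (x + act B (zv b)) + grL B (c * o) (zv b) := by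
      rw [grL_apply, e1, map_smul, smul_smul, map_add, map_neg]
      abel
    rw [e]
    exact Submodule.add_mem_sup ⟨_, ⟨add_mem hx (act_mem B (zv_mem b)), hz⟩, rfl⟩ ⟨_, hβ, rfl⟩
  obtain ⟨v, -, hv⟩ := (isLat_Zl.sub (sec_le (Zl (Fin n)) (rsp Z))).exists_basis
  have hm : ∀ k, ∃ z, zv z = v k := fun k =>
    exists_zv (sec_le (Zl (Fin n)) (rsp Z) (hv ▸ Submodule.subset_span ⟨k, rfl⟩))
  choose z hz using hm
  have hcard := card_fiber (Matrix.mulVecLin (B.map (Int.cast : ℤ → ZMod o))).toAddMonoidHom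
    (fun t : Fin (rk (sec (Zl (Fin n)) (rsp Z))) → ZMod o => fun i => ∑ k, t k * (z k i : ZMod o))
    (φ.range : Set (Fin n → ZMod o)) (by
      rintro _ ⟨⟨_, x, hx, α, hα, h, rfl⟩, rfl⟩
      obtain ⟨a, rfl⟩ := exists_zv hα.1
      obtain ⟨y, rfl⟩ := exists_zv hx
      have hw : (o : ℝ) • zv y + act B (zv a) ∈ sec (Zl (Fin n)) (rsp Z) :=
        ⟨add_mem (nsmul_mem o hx) (act_mem B hα.1), h⟩
      rw [← hv, Submodule.mem_span_range_iff_exists_fun] at hw
      obtain ⟨t, ht⟩ := hw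
      refine ⟨fun k => (t k : ZMod o), ?_⟩
      show (B.map (Int.cast : ℤ → ZMod o)) *ᵥ md o (c⁻¹ • sndL (inlL (zv y) + c • inrL (zv a))) = _
      rw [snd_eq hc, md_zv]
      funext i
      have e1 : ((∑ k, t k * z k i : ℤ) : ℝ) = ((o * y i + (B *ᵥ a) i : ℤ) : ℝ) := by
        have := congrArg (fun w : V (Fin n) => w i) ht
        simp only [← hz, act_zv] at this
        simpa [zv] using this
      have e2 := congrArg (Int.cast : ℤ → ZMod o) (Int.cast_injective e1)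
      simpa [Matrix.mulVec, dotProduct] using e2.symm)
  have hrk : rk (sec (Zl (Fin n)) (rsp Z)) = rk Z := by unfold rk; rw [rsp_sec_rsp hZ]
  have hT : Nat.card (Fin (rk (sec (Zl (Fin n)) (rsp Z))) → ZMod o) = o ^ rk Z := by
    rw [Nat.card_fun, Nat.card_zmod, Nat.card_fin, hrk]
  have hidx : (LP B Z R (c * o)).toAddSubgroup.relIndex (LL B Z R o c).toAddSubgroup ≤
      kerCard B o * o ^ rk Z := by
    have e1 : φ.ker.index = Nat.card φ.range := AddSubgroup.index_ker φ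
    have e2 : 0 < Nat.card φ.range := Nat.card_pos
    refine (Nat.le_of_dvd (e1 ▸ e2) (AddSubgroup.index_dvd_of_le hker)).trans ?_
    rw [e1, ← hT]
    exact hcard
  rw [h5]
  exact mul_le_mul_of_nonneg_right (by exact_mod_cast hidx) (cov_pos _).le

/-- Over any sublattice containing `NN`, the lattice `LL` is spanned by short vectors. -/
theorem cov_LL_le {n : ℕ} {B : Matrix (Fin n) (Fin n) ℤ} (hB : IsSS B)
    {Z Np : Submodule ℤ (V (Fin n))} (hZ : Z ≤ Zl (Fin n)) (R : Finset (Fin n)) {o : ℕ}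
    (ho : 1 ≤ o) {c : ℝ} (hc : 0 < c) (hs1 : (c * o) ^ 2 ≤ n)
    {𝓔 : Submodule ℤ (V (Fin n ⊕ Fin n))} (h1 : NN Z Np c ≤ 𝓔) (h2 : 𝓔 ≤ LL B Z R o c) :
    cov (LL B Z R o c) ≤ cov 𝓔 * Real.sqrt (2 * n) ^ (rk (LL B Z R o c) - rk 𝓔) := by
  obtain ⟨h3, h4, -⟩ := rk_LL B hZ R ho hc
  refine cov_le_short (isLat_LL B Z R o hc).1 h2
    ((fun i => grL B (c * o) (EuclideanSpace.single i (1 : ℝ))) '' (R : Set (Fin n)))
    (Real.sqrt_nonneg (2 * n)) ?_ ?_
  · rintro _ ⟨i, hi, rfl⟩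
    exact ⟨h3 (Submodule.mem_sup_right ⟨_, single_mem hi, rfl⟩), norm_gr hB hs1 i⟩
  · rw [h4, rsp_LP B hZ]
    refine sup_le_sup ?_ (map_gr_le B _ _)
    have := rsp_mono (le_sup_left.trans h1)
    rwa [rsp_img, rsp_sec_rsp hZ] at this

/-- The first projection of `𝓔` loses at least the rank of `Np`. -/
theorem finrank_fst_le {n : ℕ} {Z Np : Submodule ℤ (V (Fin n))} {c : ℝ} (hc : 0 < c)
    {𝓔 : Submodule ℤ (V (Fin n ⊕ Fin n))} (h1 : NN Z Np c ≤ 𝓔) :
    Module.finrank ℝ ((rsp 𝓔).map fstL) + rk Np ≤ rk 𝓔 := by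
  have h := (fstL.domRestrict (rsp 𝓔)).finrank_range_add_finrank_ker
  rw [LinearMap.range_domRestrict, LinearMap.ker_domRestrict] at h
  have h2 : (rsp Np).map (c • inrL) ≤ rsp 𝓔 := by
    have := rsp_mono (le_sup_right.trans h1)
    rwa [rsp_img] at this
  have h3 : (rsp Np).map (c • inrL) ≤
      ((LinearMap.ker (fstL (n := n))).comap (rsp 𝓔).subtype).map (rsp 𝓔).subtype := by
    rintro _ ⟨w, hw, rfl⟩
    exact ⟨⟨_, h2 ⟨w, hw, rfl⟩⟩, by simp [fstL_inr], rfl⟩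
  have h4 := Submodule.finrank_mono h3
  rw [Submodule.finrank_map_subtype_eq, finrank_map_inj _ fun x hx => by
    have := snd_eq hc 0 x
    have hx' : c • inrL x = 0 := hx
    rw [map_zero, zero_add, hx', map_zero, smul_zero] at this
    exact this.symm] at h4
  unfold rk
  omega

theorem rk_Rel_le {n : ℕ} {B : Matrix (Fin n) (Fin n) ℤ} (hB : B.det ≠ 0)
    (Z : Submodule ℤ (V (Fin n))) (R : Finset (Fin n)) : rk (Rel B Z R) ≤ rk Z := by
  have hle : Rel B Z R ≤ Zl (Fin n) := fun x hx => hx.1.1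
  rw [← ((isLat_Zl.sub hle).img (act B) fun x _ hx => act_inj hB hx).2]
  refine Submodule.finrank_mono (Submodule.span_le.2 ?_)
  rintro _ ⟨x, hx, rfl⟩
  exact hx.2

end Crest.Agent.R152
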