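import Crest.Agent.R152.CoreB3
import Crest.Agent.R152.CoreB4

/-! # Row 152: the candidate rows lie in a subspace of linear codimension -/

set_option autoImplicit false
open Matrix Filter
open Crest.FinProb Crest.ProbabilityR.SignMatrix

noncomputable section
namespace Crest.Agent.R152

theorem CoreB5_num {n L l2 lam lo v z ν e ρ r' θ η lV lPu lP lLL lE lNN lNp : ℝ}
    (hn : 0 < n) (hθ : 0 < θ) (hη : 0 < η) (hL1 : 1 ≤ L) (hL : 5 + θ ≤ θ * L) (a1 : 0 ≤ l2)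
    (a2 : l2 ≤ 1) (a3 : L ≤ lam) (a4 : η * lam ≤ θ * L / 40) (a6 : lo ≤ lam)
    (h1 : lV + v * (L / 2 - lam + lo) + (1 - η) * n * L / 2 ≤ lPu + (v * ((l2 + L) / 2) + n / 2))
    (h2 : lPu ≤ lP + (n - ρ) * ((l2 + L) / 2))
    (h3 : lP ≤ n * l2 + η * n * lo + v * lo + lLL)
    (h4 : lLL ≤ lE + (ρ + v - e) * ((l2 + L) / 2))
    (h5 : lE - η * L * e ≤ lNN - η * L * (v + ν))
    (h6 : lNN = lV + (ν * (L / 2 - lam) + lNp))
    (h7 : lNp - 2 * lam * ν ≤ ((n - z) / 2 - θ * n) * L - 2 * lam * r')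
    (b1 : z + ρ ≤ r' + n) (b2 : v ≤ z + 2 * (η * n)) (b3 : ν ≤ v) (b4 : n - ρ ≤ η * n)
    (b5 : ρ ≤ n) (b6 : v ≤ n) (b7 : e ≤ ρ + v) (b8 : 0 ≤ ν) (b9 : 0 ≤ ρ) :
    e - ν + θ / 2 * n ≤ n := by
  by_contra hc
  push Not at hc
  have hηn : 0 ≤ η * n := by positivity
  have p1 : η * n * lo ≤ η * n * lam := mul_le_mul_of_nonneg_left a6 hηn
  have p2 : (n - ρ) * L ≤ η * n * L := mul_le_mul_of_nonneg_right b4 (by linarith)
  have p2' : (n - ρ) * l2 ≤ n * l2 := mul_le_mul_of_nonneg_right (by linarith) a1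
  have p3 : (v - z) * L ≤ 2 * (η * n) * L := mul_le_mul_of_nonneg_right (by linarith) (by linarith)
  have p3' : v * l2 ≤ n * l2 := mul_le_mul_of_nonneg_right b6 a1
  have p3'' : n * l2 ≤ n * 1 := mul_le_mul_of_nonneg_left a2 hn.le
  have p4 : η * L * (e - v - ν) ≤ η * L * n :=
    mul_le_mul_of_nonneg_left (by linarith) (by positivity)
  have p5 : lam * (v - r') ≤ lam * (3 * (η * n)) :=
    mul_le_mul_of_nonneg_left (by linarith) (by linarith)
  have p6 : η * n * L ≤ η * n * lam := mul_le_mul_of_nonneg_left a3 hηn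
  have p6' : n * (η * lam) ≤ n * (θ * L / 40) := mul_le_mul_of_nonneg_left a4 hn.le
  have p7 : (v - ν) * (l2 / 2) ≤ (v - ν) * lam :=
    mul_le_mul_of_nonneg_left (by linarith) (by linarith)
  have p8 : (ρ - (e - ν)) * (l2 + L) < θ / 2 * n * (l2 + L) :=
    mul_lt_mul_of_pos_right (by linarith) (by linarith)
  have p8' : θ * n * l2 ≤ θ * n * 1 := mul_le_mul_of_nonneg_left a2 (by positivity)
  have p9 : n * (5 + θ) ≤ n * (θ * L) := mul_le_mul_of_nonneg_left hL hn.le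
  have p10 : 0 ≤ θ * n := by positivity
  linarith

theorem codim_bound {θ δ η : ℝ} (hθ : 0 < θ) (hδ : 0 < δ) (hδ1 : δ ≤ 1) (hη : 0 < η)
    (hη1 : η ≤ θ * δ / 40) :
    ∀ᶠ n : ℕ in atTop, ∀ (B : Matrix (Fin n) (Fin n) ℤ) (Z Np : Submodule ℤ (V (Fin n)))
      (S R : Finset (Fin n)) (o : ℕ) (𝓔 : Submodule ℤ (V (Fin n ⊕ Fin n))),
      IsSS B → B.det ≠ 0 → T1 η (1 / δ) B → T2 η (2 / δ) B → Z ≤ Zl (Fin n) → RelH θ η δ Z B →
      (S.card : ℝ) ≤ η * n → Sᶜ ⊆ R → 1 ≤ o → (o : ℝ) ≤ (n : ℝ) ^ (1 / δ) →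
      IsMin (2 * (Real.log n / δ)) ⊥ (Rel B (Z ⊔ Zc S) R) Np →
      IsMin (Real.log ((n : ℝ) ^ η)) (NN (Z ⊔ Zc S) Np ((n : ℝ) ^ (1 / 2 - 1 / δ)))
        (LL B (Z ⊔ Zc S) R o ((n : ℝ) ^ (1 / 2 - 1 / δ))) 𝓔 →
      (Module.finrank ℝ ((rsp 𝓔).map fstL) : ℝ) + θ / 2 * n ≤ n := by
  have hev : ∀ᶠ n : ℕ in atTop, 5 / θ + 1 ≤ Real.log n :=
    (Real.tendsto_log_atTop.comp tendsto_natCast_atTop_atTop).eventually_ge_atTop _
  filter_upwards [hev, eventually_ge_atTop 1] with n hL hn'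
  intro B Z Np S R o 𝓔 hB hdet hT1 hT2 hZ ⟨Nt, hNt, _, hNt2, hNt3⟩ hS hSR ho hon hp hE
  have hn1 : (1 : ℝ) ≤ n := by exact_mod_cast hn'
  have hn0 : (0 : ℝ) < n := by linarith
  have ho1 : (1 : ℝ) ≤ o := by exact_mod_cast ho
  have ho0 : (0 : ℝ) < o := by linarith
  have hθ5 : 0 < 5 / θ := by positivity
  have hL1 : 1 ≤ Real.log n := by linarith
  have hLθ : 5 + θ ≤ θ * Real.log n := by
    have := mul_le_mul_of_nonneg_left hL hθ.le
    rwa [mul_add, mul_div_cancel₀ _ hθ.ne', mul_one] at this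
  set c : ℝ := (n : ℝ) ^ (1 / 2 - 1 / δ) with hc
  have hc0 : 0 < c := Real.rpow_pos_of_pos hn0 _
  have hlc : Real.log c = Real.log n / 2 - Real.log n / δ := by
    rw [hc, Real.log_rpow hn0]; ring
  have hlo : Real.log o ≤ Real.log n / δ := by
    have := Real.log_le_log ho0 hon
    rw [Real.log_rpow hn0] at this
    exact this.trans_eq (by ring)
  have hs0 : 0 < c * o := by positivity
  have hs1 : (c * o) ^ 2 ≤ n := by
    have h1 : c * o ≤ (n : ℝ) ^ (1 / 2 : ℝ) := by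
      calc c * o ≤ c * (n : ℝ) ^ (1 / δ) := by gcongr
        _ = (n : ℝ) ^ (1 / 2 : ℝ) := by rw [hc, ← Real.rpow_add hn0]; congr 1; ring
    calc (c * o) ^ 2 ≤ ((n : ℝ) ^ (1 / 2 : ℝ)) ^ 2 := by gcongr
      _ = (n : ℝ) := by rw [← Real.sqrt_eq_rpow, Real.sq_sqrt hn0.le]
  have hs2 : (n : ℝ) ^ (-(2 / δ)) ≤ (c * o) ^ 2 := by
    calc (n : ℝ) ^ (-(2 / δ)) ≤ (n : ℝ) ^ ((1 / 2 - 1 / δ) * (2 : ℕ)) := by
          refine Real.rpow_le_rpow_of_exponent_le hn1 ?_
          have : (1 / 2 - 1 / δ) * ((2 : ℕ) : ℝ) = 1 - 2 / δ := by push_cast; ring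
          linarith
      _ = c ^ 2 := by rw [Real.rpow_mul_natCast hn0.le]
      _ ≤ (c * o) ^ 2 := by
          gcongr
          exact le_mul_of_one_le_right hc0.le ho1
  set Z' := Z ⊔ Zc S with hZ'
  have hZl : Z' ≤ Zl (Fin n) := sup_le hZ (sec_le _ _)
  have hRl : ∀ W : Submodule ℤ (V (Fin n)), Rel B W R ≤ Zl (Fin n) := fun W =>
    (sec_le _ _).trans (sec_le _ _)
  have hNtl : Nt ≤ Zl (Fin n) := hNt.trans (sec_le _ _)
  obtain ⟨rNN, cNN⟩ := cov_NN hZl (hp.2.1.trans (hRl _)) hc0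
  have rLL := (rk_LL B hZl R ho hc0).2.2
  have hRn : R.card ≤ n := by simpa using R.card_le_univ
  have heL : rk 𝓔 ≤ rk (LL B Z' R o c) := rk_mono hE.2.1
  have q1 := cov_pos (sec (Zl (Fin n)) (rsp Z'))
  have q2 := cov_pos (LP B Z' Finset.univ (c * o))
  have q3 := cov_pos (LP B Z' R (c * o))
  have q4 := cov_pos (LL B Z' R o c)
  have q5 := cov_pos 𝓔
  have q6 := cov_pos Np
  have hsq : Real.log (Real.sqrt (2 * n)) = (Real.log 2 + Real.log n) / 2 := by
    rw [Real.log_sqrt (by positivity), Real.log_mul (by positivity) (by positivity)]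
  -- (1)
  have h1 := (mul_le_mul_of_nonneg_left (Real.sqrt_le_sqrt (hT2 _ hs2)) (by positivity)).trans
    (cov_LP_univ hB hZl hs0 hs1)
  replace h1 := Real.log_le_log (by positivity) h1
  rw [Real.log_mul (by positivity) (by positivity), Real.log_mul (by positivity) (by positivity),
    Real.log_pow, Real.log_mul hc0.ne' ho0.ne', hlc, Real.log_sqrt (by positivity),
    Real.log_rpow hn0, Real.log_mul (by positivity) (by positivity),
    Real.log_mul (by positivity) (by positivity), Real.log_pow, hsq, Real.log_exp] at h1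
  -- (2)
  have h2 := Real.log_le_log q2 (cov_LP_univ_le hB hZl R hs0 hs1)
  rw [Real.log_mul (by positivity) (by positivity), Real.log_pow, hsq, Nat.cast_sub hRn] at h2
  -- (3)
  have h3 : cov (LP B Z' R (c * o)) ≤
      2 ^ n * (o : ℝ) ^ (η * n) * (o : ℝ) ^ rk Z' * cov (LL B Z' R o c) := by
    refine (cov_LP_le B hZl R ho hc0).trans ?_
    have := hT1 o ho hon
    gcongr
    exact this
  replace h3 := Real.log_le_log q3 h3
  rw [Real.log_mul (by positivity) (by positivity), Real.log_mul (by positivity) (by positivity),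
    Real.log_mul (by positivity) (by positivity), Real.log_pow, Real.log_pow,
    Real.log_rpow ho0] at h3
  -- (4)
  have h4 := Real.log_le_log q4 (cov_LL_le hB hZl R ho hc0 hs1 hE.1 hE.2.1)
  rw [Real.log_mul (by positivity) (by positivity), Real.log_pow, hsq, Nat.cast_sub heL, rLL,
    Nat.cast_add] at h4
  -- (5)
  have h5 := hE.2.2 _ le_rfl (hE.1.trans hE.2.1)
  rw [hn, hn, Real.log_rpow hn0, rNN, Nat.cast_add] at h5
  -- (6)
  have h6 := congrArg Real.log cNN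
  rw [Real.log_mul (by positivity) (by positivity), Real.log_mul (by positivity) (by positivity),
    Real.log_pow, hlc] at h6
  -- (7)
  have hN' : sec Nt (Rc R) ≤ Rel B Z' R := fun x hx =>
    ⟨⟨hNtl hx.1, hx.2⟩, rsp_mono (le_sup_left : Z ≤ Z') (hNt hx.1).2⟩
  obtain ⟨s1, s2⟩ := cov_sec_Rc hNtl R
  have h7 := hp.2.2 _ bot_le hN'
  have h7' := Real.log_le_log (cov_pos _) (s1.trans hNt3)
  rw [Real.log_rpow hn0] at h7'
  rw [hn, hn] at h7
  -- ranks
  have b1 : (rk Nt : ℝ) + R.card ≤ rk (sec Nt (Rc R)) + n := by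
    rw [Fintype.card_fin] at s2
    exact_mod_cast s2
  have b2 : (rk Z' : ℝ) ≤ rk Z + S.card := by
    have := rk_modular (N₂ := Zc S) isLat_Zl hZ (sec_le _ _)
    rw [rk_Zc, ← hZ'] at this
    exact_mod_cast (by omega : rk Z' ≤ rk Z + S.card)
  have b3 : (rk Np : ℝ) ≤ rk Z' := by
    exact_mod_cast (rk_mono hp.2.1).trans (rk_Rel_le hdet Z' R)
  have b4 : (n : ℝ) ≤ R.card + S.card := by
    have h8 := Finset.card_le_card hSR
    have h9 := Finset.card_compl_add_card S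
    rw [Fintype.card_fin] at h9
    exact_mod_cast (by omega : n ≤ R.card + S.card)
  have b6 : (rk Z' : ℝ) ≤ n := by
    have := rk_mono hZl
    rw [rk_Zl, Fintype.card_fin] at this
    exact_mod_cast this
  have b7 : (rk 𝓔 : ℝ) ≤ R.card + rk Z' := by
    rw [rLL] at heL
    exact_mod_cast heL
  have b8 : (Module.finrank ℝ ((rsp 𝓔).map fstL) : ℝ) + rk Np ≤ rk 𝓔 := by
    exact_mod_cast finrank_fst_le hc0 hE.1
  have a3 : Real.log n ≤ Real.log n / δ := by
    rw [le_div_iff₀ hδ]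
    exact mul_le_of_le_one_right (by linarith) hδ1
  have a4 : η * (Real.log n / δ) ≤ θ * Real.log n / 40 := by
    calc η * (Real.log n / δ) ≤ θ * δ / 40 * (Real.log n / δ) := by gcongr
      _ = θ * Real.log n / 40 := by field_simp
  have a2 : Real.log 2 ≤ 1 := by linarith [Real.log_two_lt_d9]
  have key := CoreB5_num (z := rk Nt) (r' := rk (sec Nt (Rc R))) hn0 hθ hη hL1 hLθ
    (Real.log_nonneg one_le_two) a2 a3 a4 hlo h1 h2 h3 h4 h5 h6 (by linarith) b1 (by linarith) b3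
    (by linarith) (by exact_mod_cast hRn) b6 b7 (Nat.cast_nonneg _) (Nat.cast_nonneg _)
  linarith

end Crest.Agent.R152
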