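import Crest.Agent.R152.CoreDefs
import Crest.Agent.R152.RMMain

/-! # Row 152: from many short sign vectors to a dense subspace -/

set_option autoImplicit false
open Matrix Filter
open Crest.FinProb Crest.ProbabilityR.SignMatrix

noncomputable section
namespace Crest.Agent.R152

private theorem c0_num {θ εK : ℝ} (hθ : 0 < θ) (hKθ : εK ≤ θ / 8) {n r : ℕ} (hn1 : 1 ≤ n)
    (hr : r ≤ n) (h4 : 4 ≤ (n : ℝ) ^ (θ / 4)) {c : ℝ}
    (hc : c * (n : ℝ) ^ (θ * n) ≤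
      Real.sqrt (2 * n) ^ (n - r) * Real.exp ((n : ℝ) / 2) * (n : ℝ) ^ (εK * n)) :
    c ≤ (n : ℝ) ^ (((n : ℝ) - r) / 2 - θ / 2 * n) := by
  have hn0 : (0 : ℝ) < n := by exact_mod_cast hn1
  have hn1' : (1 : ℝ) ≤ n := by exact_mod_cast hn1
  have e1 : Real.sqrt (2 * n) ^ (n - r) ≤ 2 ^ n * (n : ℝ) ^ (((n : ℝ) - r) / 2) := by
    have a1 : Real.sqrt (2 * n) ≤ 2 * (n : ℝ) ^ (1 / 2 : ℝ) := by
      rw [← Real.sqrt_eq_rpow, Real.sqrt_mul (by norm_num : (0 : ℝ) ≤ 2)]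
      refine mul_le_mul_of_nonneg_right ?_ (Real.sqrt_nonneg _)
      rw [Real.sqrt_le_iff]
      norm_num
    refine (pow_le_pow_left₀ (Real.sqrt_nonneg _) a1 _).trans ?_
    rw [mul_pow, ← Real.rpow_natCast ((n : ℝ) ^ (1 / 2 : ℝ)), ← Real.rpow_mul hn0.le,
      Nat.cast_sub hr, show 1 / 2 * ((n : ℝ) - r) = ((n : ℝ) - r) / 2 by ring]
    exact mul_le_mul_of_nonneg_right
      (pow_le_pow_right₀ (by norm_num) (Nat.sub_le _ _)) (Real.rpow_nonneg hn0.le _)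
  have e2 : Real.exp ((n : ℝ) / 2) ≤ 2 ^ n := by
    rw [show (n : ℝ) / 2 = n * (1 / 2) by ring, Real.exp_nat_mul]
    refine pow_le_pow_left₀ (Real.exp_pos _).le ?_ _
    have a1 : Real.exp (1 / 2) * Real.exp (1 / 2) = Real.exp 1 := by
      rw [← Real.exp_add]; norm_num
    have a2 := Real.exp_one_lt_d9
    have a3 := Real.exp_pos (1 / 2)
    nlinarith
  have e3 : (2 : ℝ) ^ n * 2 ^ n ≤ (n : ℝ) ^ (θ / 4 * n) := by
    rw [← mul_pow, Real.rpow_mul hn0.le, Real.rpow_natCast]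
    exact pow_le_pow_left₀ (by norm_num) (by linarith) _
  have e4 : Real.sqrt (2 * n) ^ (n - r) * Real.exp ((n : ℝ) / 2) * (n : ℝ) ^ (εK * n) ≤
      (n : ℝ) ^ (((n : ℝ) - r) / 2 - θ / 2 * n) * (n : ℝ) ^ (θ * n) := by
    calc Real.sqrt (2 * n) ^ (n - r) * Real.exp ((n : ℝ) / 2) * (n : ℝ) ^ (εK * n)
        ≤ 2 ^ n * (n : ℝ) ^ (((n : ℝ) - r) / 2) * 2 ^ n * (n : ℝ) ^ (εK * n) := by
          gcongr
      _ = (2 ^ n * 2 ^ n) * ((n : ℝ) ^ (((n : ℝ) - r) / 2) * (n : ℝ) ^ (εK * n)) := by ring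
      _ ≤ (n : ℝ) ^ (θ / 4 * n) * ((n : ℝ) ^ (((n : ℝ) - r) / 2) * (n : ℝ) ^ (εK * n)) := by
          gcongr
      _ ≤ _ := by
          rw [← Real.rpow_add hn0, ← Real.rpow_add hn0, ← Real.rpow_add hn0]
          refine Real.rpow_le_rpow_of_exponent_le hn1' ?_
          nlinarith
  exact le_of_mul_le_mul_right (hc.trans e4) (Real.rpow_pos_of_pos hn0 _)

theorem dense_of_many {θ δ εK : ℝ} (hθ : 0 < θ) (hδ : 0 < δ) (hK : 0 < εK) (hKθ : εK ≤ θ / 8) :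
    ∀ᶠ n : ℕ in atTop, ∀ (B : Matrix (Fin n) (Fin n) ℤ), B.det ≠ 0 →
      ∀ (F : Type) [NormedAddCommGroup F] [InnerProductSpace ℝ F] [FiniteDimensional ℝ F]
        (φ : V (Fin n) →ₗ[ℝ] F), (∀ z, ‖z‖ ≤ ‖φ z‖) →
        ∑ i, ‖φ (act B (EuclideanSpace.single i (1 : ℝ)))‖ ^ 2 ≤ 2 * (n : ℝ) ^ 2 →
        ∀ Λ : Submodule ℤ (V (Fin n)), img (act B) (Zl (Fin n)) ≤ Λ → Λ ≤ Zl (Fin n) →
          (n : ℝ) ^ (θ * n) ≤ cov (img φ Λ) →
          ∀ T : Finset (Fin n → Bool), (∀ x ∈ T, sv x ∈ Λ ∧ ‖φ (sv x)‖ ^ 2 ≤ 2 * n) →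
            Real.exp (δ * n) ≤ T.card → Dense (θ / 2) (δ / 2) εK B := by
  have ev : ∀ a C : ℝ, 0 < a → ∀ᶠ n : ℕ in atTop, C ≤ (n : ℝ) ^ a := fun a C ha =>
    ((tendsto_rpow_atTop ha).comp tendsto_natCast_atTop_atTop).eventually_ge_atTop C
  filter_upwards [rmRel (εK / 2) (δ / 2) (half_pos hK) (half_pos hδ), ev (εK / 2) 2 (half_pos hK),
    ev (θ / 4) 4 (by positivity), eventually_ge_atTop 1] with n hrm h2 h4 hn1
  intro B hB F _ _ _ φ hφ hfrob Λ hΛ1 hΛ2 hcov T hT hTc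
  classical
  have hn0 : (0 : ℝ) < n := by exact_mod_cast hn1
  have hn1' : (1 : ℝ) ≤ n := by exact_mod_cast hn1
  have hφ0 : ∀ z, φ z = 0 → z = 0 := fun z hz => by
    have := hφ z
    rw [hz, norm_zero] at this
    exact norm_le_zero_iff.1 this
  have hφi : Function.Injective φ := fun a b hab =>
    sub_eq_zero.1 (hφ0 _ (by rw [map_sub, hab, sub_self]))
  have hrkZ : rk (Zl (Fin n)) = n := by rw [rk_Zl, Fintype.card_fin]
  have hΛ : IsLat Λ := isLat_Zl.sub hΛ2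
  obtain ⟨hL1, hrL1⟩ := hΛ.img φ (fun x _ hx => hφ0 x hx)
  have hrL1' : rk (img φ Λ) ≤ n := hrL1.le.trans ((rk_mono hΛ2).trans hrkZ.le)
  have hKpos : 0 < (n : ℝ) ^ εK := Real.rpow_pos_of_pos hn0 _
  obtain ⟨N, hN⟩ := exists_isMin hL1 (bot_le : ⊥ ≤ img φ Λ) (Real.log ((n : ℝ) ^ εK))
  have hNL : N ≤ img φ Λ := hN.2.1
  have hNlat : IsLat N := hL1.sub hNL
  have hcN : cov N ≤ (n : ℝ) ^ (εK * n) := by
    have a1 := hN.2.2 ⊥ le_rfl bot_le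
    simp only [hn, cov_bot, rk_bot, Real.log_one, Nat.cast_zero, mul_zero, sub_zero] at a1
    rw [Real.log_rpow hn0] at a1
    have a2 : (rk N : ℝ) ≤ n := by exact_mod_cast (rk_mono hNL).trans hrL1'
    have a3 : 0 ≤ Real.log n := Real.log_nonneg hn1'
    rw [Real.rpow_def_of_pos hn0, ← Real.log_le_iff_le_exp (cov_pos N)]
    have a4 := mul_le_mul_of_nonneg_left a2 (mul_nonneg hK.le a3)
    linarith
  obtain ⟨S, hS, hS2⟩ := hrm F (img φ Λ) ⊥ N ((n : ℝ) ^ εK) hL1 (by omega) hKpos hN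
  have hch : ∀ x ∈ T, ∃ y ∈ S, φ (sv x) - y ∈ rsp N := fun x hx => by
    refine hS2 _ (mem_img.2 ⟨_, (hT x hx).1, rfl⟩) ⟨0, zero_mem _, ?_⟩
    rw [sub_zero, ← Real.rpow_add hn0, show εK + (1 / 2 - εK / 2) = εK / 2 + 1 / 2 by ring,
      Real.rpow_add hn0, ← Real.sqrt_eq_rpow]
    have a1 : ‖φ (sv x)‖ ≤ 2 * Real.sqrt n := by
      refine abs_le_of_sq_le_sq' ?_ (by positivity) |>.2
      rw [mul_pow, Real.sq_sqrt hn0.le]
      linarith [(hT x hx).2]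
    exact a1.trans (mul_le_mul_of_nonneg_right h2 (Real.sqrt_nonneg _))
  choose! g hg1 hg2 using hch
  have hTne : T.Nonempty := by
    rw [← Finset.card_pos]
    exact_mod_cast (Real.exp_pos _).trans_le hTc
  have hSne : S.Nonempty := by
    obtain ⟨x, hx⟩ := hTne
    exact ⟨_, hg1 x hx⟩
  obtain ⟨y, -, hy⟩ := Finset.exists_le_sum_fiber_of_maps_to_of_nsmul_le_sum
    (w := fun _ => (1 : ℝ)) (b := Real.exp (δ / 2 * n)) hg1 hSne (by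
      rw [nsmul_eq_mul, Finset.sum_const, nsmul_eq_mul, mul_one]
      refine le_trans (mul_le_mul_of_nonneg_right hS (Real.exp_pos _).le) (le_trans ?_ hTc)
      rw [← Real.exp_add]
      exact le_of_eq (by congr 1; ring))
  rw [Finset.sum_const, nsmul_eq_mul, mul_one] at hy
  obtain ⟨x₀, hx₀⟩ : (T.filter fun x => g x = y).Nonempty := by
    rw [← Finset.card_pos]
    exact_mod_cast (Real.exp_pos _).trans_le hy
  set N₀ : Submodule ℤ (V (Fin n)) := Λ ⊓ N.comap (φ.restrictScalars ℤ) with hN₀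
  have hN₀Z : N₀ ≤ Zl (Fin n) := inf_le_left.trans hΛ2
  have himg : img φ N₀ = N := by
    ext z
    rw [mem_img]
    constructor
    · rintro ⟨x, hx, rfl⟩
      exact hx.2
    · intro hz
      obtain ⟨x, hx, rfl⟩ := mem_img.1 (hNL hz)
      exact ⟨x, ⟨hx, hz⟩, rfl⟩
  have hrsp : ∀ z, φ z ∈ rsp N ↔ z ∈ rsp N₀ := fun z => by
    rw [← himg, rsp_img]
    constructor
    · rintro ⟨x, hx, hxz⟩
      rwa [← hφi hxz]
    · exact fun hz => ⟨z, hz, rfl⟩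
  have hcN₀ : cov N₀ ≤ cov N := by
    obtain ⟨ψ, hψ⟩ := φ.exists_leftInverse_of_injective (LinearMap.ker_eq_bot.2 hφi)
    have hψ' : ∀ z, ψ (φ z) = z := fun z => LinearMap.congr_fun hψ z
    have a1 : img ψ N = N₀ := by
      rw [← himg]
      ext z
      rw [mem_img]
      constructor
      · rintro ⟨w, hw, rfl⟩
        obtain ⟨x, hx, rfl⟩ := mem_img.1 hw
        rwa [hψ']
      · exact fun hz => ⟨φ z, mem_img.2 ⟨z, hz, rfl⟩, hψ' z⟩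
    have a2 : ∀ w ∈ rsp N, ∃ z, φ z = w := fun w hw => by
      rw [← himg, rsp_img] at hw
      obtain ⟨z, -, hz⟩ := hw
      exact ⟨z, hz⟩
    have a3 := cov_img_le hNlat ψ (fun w hw h0 => by
      obtain ⟨z, rfl⟩ := a2 w hw
      rw [hψ'] at h0
      rw [h0, map_zero]) zero_le_one (fun w hw => by
      obtain ⟨z, rfl⟩ := a2 w hw
      rw [hψ', one_mul]
      exact hφ z)
    rwa [a1, one_pow, one_mul] at a3
  refine ⟨N₀, T.filter fun x => g x = y, sv x₀, hN₀Z, hcN₀.trans hcN, hy, fun x hx => ?_, ?_⟩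
  · rw [← hrsp, map_sub]
    obtain ⟨a1, a2⟩ := Finset.mem_filter.1 hx
    obtain ⟨b1, b2⟩ := Finset.mem_filter.1 hx₀
    have := sub_mem (hg2 x a1) (hg2 x₀ b1)
    rwa [a2, b2, sub_sub_sub_cancel_right] at this
  have hPZ : Pre B N₀ ≤ Zl (Fin n) := sec_le _ _
  have hrP : rk (Pre B N₀) = rk N₀ := rk_sec_comap hB hN₀Z
  have hf0 : ∀ x ∈ rsp (Zl (Fin n)), (φ ∘ₗ act B) x = 0 → x = 0 := fun x _ hx =>
    act_inj hB (hφ0 _ hx)
  have b1 := cov_map_rel isLat_Zl hPZ (φ ∘ₗ act B) hf0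
    (c := Real.sqrt (2 * n) ^ (n - rk N₀) * Real.exp ((n : ℝ) / 2)) (fun v => by
      have := gvol_frob_sign (φ ∘ₗ act B) (n := n) hfrob v
      have e : Fintype.card (Fin (rk (Zl (Fin n)) - rk (Pre B N₀))) = n - rk N₀ := by
        rw [Fintype.card_fin, hrkZ, hrP]
      rwa [e] at this)
  rw [cov_Zl, mul_one] at b1
  have hN1 : img (φ ∘ₗ act B) (Zl (Fin n)) ≤ img φ Λ := fun w hw => by
    obtain ⟨z, hz, rfl⟩ := mem_img.1 hw
    exact mem_img.2 ⟨act B z, hΛ1 (mem_img.2 ⟨z, hz, rfl⟩), rfl⟩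
  have hr1 : rk (img (φ ∘ₗ act B) (Zl (Fin n))) = n := by
    rw [(isLat_Zl.img _ hf0).2, hrkZ]
  have b2 := cov_submod hL1 hN1 (sec_le (img φ Λ) (rsp N))
  have b3 : img (φ ∘ₗ act B) (Zl (Fin n)) ⊓ sec (img φ Λ) (rsp N) =
      img (φ ∘ₗ act B) (Pre B N₀) := by
    ext w
    constructor
    · rintro ⟨hw1, hw2⟩
      obtain ⟨z, hz, rfl⟩ := mem_img.1 hw1
      exact mem_img.2 ⟨z, mem_sec.2 ⟨hz, (hrsp _).1 (mem_sec.1 hw2).2⟩, rfl⟩
    · intro hw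
      obtain ⟨z, hz, rfl⟩ := mem_img.1 hw
      have hz1 : (φ ∘ₗ act B) z ∈ img (φ ∘ₗ act B) (Zl (Fin n)) :=
        mem_img.2 ⟨z, (mem_sec.1 hz).1, rfl⟩
      exact ⟨hz1, mem_sec.2 ⟨hN1 hz1, (hrsp _).2 (mem_sec.1 hz).2⟩⟩
  have b4 : cov (img φ Λ) ≤
      cov (img (φ ∘ₗ act B) (Zl (Fin n)) ⊔ sec (img φ Λ) (rsp N)) :=
    cov_le_of_rk hL1 (sup_le hN1 (sec_le _ _))
      (hrL1'.trans (hr1.ge.trans (rk_mono le_sup_left)))
  have b5 : cov (sec (img φ Λ) (rsp N)) ≤ cov N :=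
    cov_le_of_rk (hL1.sub (sec_le _ _)) (l2b_le_sec hNL) (l2b_rk_sec hNL).le
  rw [b3] at b2
  refine c0_num hθ hKθ hn1 ((rk_mono hN₀Z).trans hrkZ.le) h4 ?_
  have p1 := cov_pos (img (φ ∘ₗ act B) (Zl (Fin n)))
  have p2 := cov_pos (img (φ ∘ₗ act B) (Pre B N₀))
  have p3 := cov_pos (Pre B N₀)
  have p4 : 0 ≤ Real.sqrt (2 * n) ^ (n - rk N₀) * Real.exp ((n : ℝ) / 2) := by positivity
  have p5 : 0 < (n : ℝ) ^ (θ * n) := Real.rpow_pos_of_pos hn0 _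
  have c1 : cov (img (φ ∘ₗ act B) (Pre B N₀)) * (n : ℝ) ^ (θ * n) ≤
      cov (img (φ ∘ₗ act B) (Zl (Fin n))) * (n : ℝ) ^ (εK * n) :=
    (mul_le_mul_of_nonneg_left (hcov.trans b4) p2.le).trans
      (b2.trans (mul_le_mul_of_nonneg_left (b5.trans hcN) p1.le))
  refine le_of_mul_le_mul_left ?_ p1
  have c2 := mul_le_mul_of_nonneg_right b1 p5.le
  have c3 := mul_le_mul_of_nonneg_left c1 p4
  nlinarith


end Crest.Agent.R152
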