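import Crest.Agent.R152.Lat3

/-! # Row 152: definitions for the core lemma -/

set_option autoImplicit false
open Matrix Filter
open Crest.FinProb Crest.ProbabilityR.SignMatrix

noncomputable section
namespace Crest.Agent.R152

variable {n : ℕ}

/-- Integer vectors supported in `R` that `B` maps into the span of `Z` (relations among the rows
`R` of `B` on the orthogonal complement of `Z`). -/
def Rel (B : Matrix (Fin n) (Fin n) ℤ) (Z : Submodule ℤ (V (Fin n))) (R : Finset (Fin n)) :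
    Submodule ℤ (V (Fin n)) := sec (Zc R) ((rsp Z).comap (act B))

/-- All integer vectors mapped by `B` into the span of `Z`. -/
def Pre (B : Matrix (Fin n) (Fin n) ℤ) (Z : Submodule ℤ (V (Fin n))) :
    Submodule ℤ (V (Fin n)) := sec (Zl (Fin n)) ((rsp Z).comap (act B))

/-- Many sign vectors in a coset of a rational subspace of small height whose `B`-preimage lattice
is unusually dense. -/
def Dense (θ δ εK : ℝ) (B : Matrix (Fin n) (Fin n) ℤ) : Prop :=
  ∃ (N₀ : Submodule ℤ (V (Fin n))) (T : Finset (Fin n → Bool)) (f : V (Fin n)),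
    N₀ ≤ Zl (Fin n) ∧ cov N₀ ≤ (n : ℝ) ^ (εK * n) ∧ Real.exp (δ * n) ≤ T.card ∧
    (∀ x ∈ T, sv x - f ∈ rsp N₀) ∧
    cov (Pre B N₀) ≤ (n : ℝ) ^ (((n : ℝ) - rk N₀) / 2 - θ * n)

/-- An unusually dense lattice of relations of almost full rank. -/
def RelH (θ η δ : ℝ) (Z : Submodule ℤ (V (Fin n))) (B : Matrix (Fin n) (Fin n) ℤ) : Prop :=
  ∃ Nt : Submodule ℤ (V (Fin n)), Nt ≤ Pre B Z ∧ δ * n ≤ rk Nt ∧ (rk Z : ℝ) ≤ rk Nt + η * n ∧
    cov Nt ≤ (n : ℝ) ^ (((n : ℝ) - rk Nt) / 2 - θ * n)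

/-- Adding row `j` to the rows `R` strictly lowers the minimum of `hn lam` over relations. -/
def Drop (B : Matrix (Fin n) (Fin n) ℤ) (Z : Submodule ℤ (V (Fin n))) (lam : ℝ)
    (R : Finset (Fin n)) (j : Fin n) : Prop :=
  ∃ N, N ≤ Rel B Z (insert j R) ∧ ∀ N', N' ≤ Rel B Z R → hn lam N < hn lam N'

/-- The rows known when row `j ∈ S` is revealed. -/
def preS (S : Finset (Fin n)) (j : Fin n) : Finset (Fin n) := Sᶜ ∪ S.filter (· < j)

/-- Residue class of indices modulo `J`. -/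
def cls (n J k : ℕ) : Finset (Fin n) := Finset.univ.filter fun i => i.1 % J = k

/-- First inclusion into the doubled space. -/
def inlL : V (Fin n) →ₗ[ℝ] V (Fin n ⊕ Fin n) where
  toFun x := WithLp.toLp 2 (Sum.elim x.ofLp 0)
  map_add' x y := by ext i; cases i <;> simp
  map_smul' c x := by ext i; cases i <;> simp

/-- Second inclusion into the doubled space. -/
def inrL : V (Fin n) →ₗ[ℝ] V (Fin n ⊕ Fin n) where
  toFun x := WithLp.toLp 2 (Sum.elim 0 x.ofLp)
  map_add' x y := by ext i; cases i <;> simp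
  map_smul' c x := by ext i; cases i <;> simp

/-- First projection from the doubled space. -/
def fstL : V (Fin n ⊕ Fin n) →ₗ[ℝ] V (Fin n) where
  toFun u := WithLp.toLp 2 (fun i => u (Sum.inl i))
  map_add' x y := by ext i; simp
  map_smul' c x := by ext i; simp

/-- The graph map `β ↦ (-B β, s β)`. -/
def grL (B : Matrix (Fin n) (Fin n) ℤ) (s : ℝ) : V (Fin n) →ₗ[ℝ] V (Fin n ⊕ Fin n) :=
  -(inlL ∘ₗ act B) + s • inrL

/-- The lattice of candidate rows `x` together with relation vectors `α`: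
`o x + B α ∈ span Z`, embedded as `(x, c α)`. -/
def LL (B : Matrix (Fin n) (Fin n) ℤ) (Z : Submodule ℤ (V (Fin n))) (R : Finset (Fin n))
    (o : ℕ) (c : ℝ) : Submodule ℤ (V (Fin n ⊕ Fin n)) where
  carrier := {u | ∃ x ∈ Zl (Fin n), ∃ α ∈ Zc R, (o : ℝ) • x + act B α ∈ rsp Z ∧
    u = inlL x + c • inrL α}
  add_mem' := by
    rintro _ _ ⟨x, hx, α, hα, h, rfl⟩ ⟨y, hy, β, hβ, h', rfl⟩
    refine ⟨x + y, add_mem hx hy, α + β, add_mem hα hβ, ?_, ?_⟩
    · have := add_mem h h'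
      rw [smul_add, map_add]; convert this using 1; abel
    · rw [map_add, map_add, smul_add]; abel
  zero_mem' := ⟨0, zero_mem _, 0, zero_mem _, by simp, by simp⟩
  smul_mem' := by
    rintro k _ ⟨x, hx, α, hα, h, rfl⟩
    refine ⟨k • x, Submodule.smul_mem _ k hx, k • α, Submodule.smul_mem _ k hα, ?_, ?_⟩
    · have := (rsp Z).smul_mem (k : ℝ) h
      rw [← Int.cast_smul_eq_zsmul ℝ, ← Int.cast_smul_eq_zsmul ℝ, map_smul, smul_comm (o : ℝ),
        ← smul_add]
      exact this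
    · rw [← Int.cast_smul_eq_zsmul ℝ, ← Int.cast_smul_eq_zsmul ℝ, ← Int.cast_smul_eq_zsmul ℝ,
        map_smul, map_smul, smul_add, smul_comm c]

/-- The part of `LL` that is divided out from the start. -/
def NN (Z Np : Submodule ℤ (V (Fin n))) (c : ℝ) : Submodule ℤ (V (Fin n ⊕ Fin n)) :=
  img inlL (sec (Zl (Fin n)) (rsp Z)) ⊔ img (c • inrL) Np

/-- The explicit finite-index sublattice of `LL`. -/
def LP (B : Matrix (Fin n) (Fin n) ℤ) (Z : Submodule ℤ (V (Fin n))) (R : Finset (Fin n))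
    (s : ℝ) : Submodule ℤ (V (Fin n ⊕ Fin n)) :=
  img inlL (sec (Zl (Fin n)) (rsp Z)) ⊔ img (grL B s) (Zc R)

/-- Number of solutions of `B α = 0` modulo `o`. -/
def kerCard (B : Matrix (Fin n) (Fin n) ℤ) (o : ℕ) : ℕ :=
  Nat.card {α : Fin n → ZMod o // (B.map (Int.cast : ℤ → ZMod o)) *ᵥ α = 0}

end Crest.Agent.R152
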