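import Mathlib
import Crest.Prelude.Def_SignMatrix

/-!
# Row 152 (singularity of symmetric sign matrices): definitions

See `DESIGN.md` in this folder for the complete paper proof.

* lattices: `IsLat`, `rsp` (real span), `rk`, `cov` (covolume), `sec`, `img`, `Zl`, `Zc`;
* matrices: `IsSS` (symmetric sign matrix), `act`, `sv`, `sz`;
* typical properties `T1`, `T1Q`, `T2`, `SP`, `WS`, `ZS`, `Sparse`;
* size of events: `Neg` (super-exponentially small), `Sm` (at most `(r e^ε)^n`).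
-/

set_option autoImplicit false
open Matrix Filter
open Crest.FinProb Crest.ProbabilityR.SignMatrix

noncomputable section
namespace Crest.Agent.R152

/-! ## Lattices in inner product spaces -/
section Lat
variable {E F : Type} [NormedAddCommGroup E] [InnerProductSpace ℝ E]
  [NormedAddCommGroup F] [InnerProductSpace ℝ F]

/-- Volume of the parallelepiped spanned by a finite family (root of the Gram determinant). -/
def gvol {ι : Type} [Fintype ι] [DecidableEq ι] (v : ι → E) : ℝ :=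
  Real.sqrt (Matrix.gram ℝ v).det

/-- A lattice (of any rank): the `ℤ`-span of an `ℝ`-linearly independent finite family. -/
def IsLat (Λ : Submodule ℤ E) : Prop :=
  ∃ (k : ℕ) (v : Fin k → E), LinearIndependent ℝ v ∧ Submodule.span ℤ (Set.range v) = Λ

/-- Real span of a `ℤ`-submodule. -/
def rsp (Λ : Submodule ℤ E) : Submodule ℝ E := Submodule.span ℝ (Λ : Set E)

/-- Rank (dimension of the real span). -/
def rk (Λ : Submodule ℤ E) : ℕ := Module.finrank ℝ (rsp Λ)

open Classical in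
/-- Covolume of a lattice inside its real span (junk value `1` for non-lattices). -/
def cov (Λ : Submodule ℤ E) : ℝ := if h : IsLat Λ then gvol h.choose_spec.choose else 1

/-- The points of `Λ` in the real subspace `W`. -/
def sec (Λ : Submodule ℤ E) (W : Submodule ℝ E) : Submodule ℤ E := Λ ⊓ W.restrictScalars ℤ

/-- Image of a `ℤ`-submodule under a real linear map. -/
def img (f : E →ₗ[ℝ] F) (Λ : Submodule ℤ E) : Submodule ℤ F := Λ.map (f.restrictScalars ℤ)

/-- The Harder–Narasimhan functional `log cov N - lam * rk N`. -/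
def hn (lam : ℝ) (N : Submodule ℤ E) : ℝ := Real.log (cov N) - lam * rk N

/-- `N` minimises `hn lam` among the submodules between `N₀` and `Λ`. -/
def IsMin (lam : ℝ) (N₀ Λ N : Submodule ℤ E) : Prop :=
  N₀ ≤ N ∧ N ≤ Λ ∧ ∀ N', N₀ ≤ N' → N' ≤ Λ → hn lam N ≤ hn lam N'

end Lat

/-- Euclidean space. -/
abbrev V (ι : Type) [Fintype ι] := EuclideanSpace ℝ ι

section Int
variable {ι : Type} [Fintype ι]

/-- The integer lattice. -/
def Zl (ι : Type) [Fintype ι] : Submodule ℤ (V ι) where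
  carrier := {x | ∀ i, ∃ k : ℤ, x i = k}
  add_mem' := by
    intro a b ha hb i
    obtain ⟨k, hk⟩ := ha i
    obtain ⟨l, hl⟩ := hb i
    exact ⟨k + l, by simp [hk, hl]⟩
  zero_mem' := fun _ => ⟨0, by simp⟩
  smul_mem' := by
    intro c a ha i
    obtain ⟨k, hk⟩ := ha i
    exact ⟨c * k, by simp [hk]⟩

/-- The coordinate subspace of vectors supported in `R`. -/
def Rc (R : Finset ι) : Submodule ℝ (V ι) where
  carrier := {x | ∀ i, i ∉ R → x i = 0}
  add_mem' := by
    intro a b ha hb i hi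
    simp [ha i hi, hb i hi]
  zero_mem' := fun _ _ => by simp
  smul_mem' := by
    intro c a ha i hi
    simp [ha i hi]

/-- Integer vectors supported in `R`. -/
def Zc (R : Finset ι) : Submodule ℤ (V ι) := sec (Zl ι) (Rc R)

/-- An integer matrix acting on Euclidean space. -/
def act (B : Matrix ι ι ℤ) : V ι →ₗ[ℝ] V ι where
  toFun x := WithLp.toLp 2 ((B.map (Int.cast : ℤ → ℝ)) *ᵥ x.ofLp)
  map_add' x y := by simp [Matrix.mulVec_add]
  map_smul' c x := by simp [Matrix.mulVec_smul]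

/-- The sign of a coin. -/
def sg (b : Bool) : ℤ := if b then 1 else -1

/-- Sign vector with integer entries. -/
def sz (x : ι → Bool) : ι → ℤ := fun i => sg (x i)

/-- An integer vector as a point of Euclidean space. -/
def zv (z : ι → ℤ) : V ι := WithLp.toLp 2 (fun i => (z i : ℝ))

/-- Sign vector in Euclidean space. -/
def sv (x : ι → Bool) : V ι := zv (sz x)

/-- Symmetric sign matrix. -/
def IsSS (B : Matrix ι ι ℤ) : Prop := B.IsSymm ∧ ∀ i j, B i j = 1 ∨ B i j = -1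

end Int

/-! ## Probability -/

/-- Sample space of the symmetric `n × n` model. -/
abbrev Om (n : ℕ) := Sym2 (Fin n) → Bool

/-- The matrix of an outcome. -/
abbrev mat {n : ℕ} (ω : Om n) : Matrix (Fin n) (Fin n) ℤ := symSignMatrix n ω

/-- The `j`-th row of coins. -/
def row {n : ℕ} (ω : Om n) (j : Fin n) : Fin n → Bool := fun k => ω s(j, k)

/-- The target rate `p² + (1-p)²`. -/
def rr (p : ℝ) : ℝ := p ^ 2 + (1 - p) ^ 2

/-- The largest atom of one coin. -/
def mx (p : ℝ) : ℝ := max p (1 - p)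

/-- Super-exponentially small families of events. -/
def Neg (p : ℝ) (A : ∀ n : ℕ, Set (Om n)) : Prop :=
  ∀ C : ℝ, ∀ᶠ n : ℕ in atTop, bernoulliProb p (A n) ≤ Real.exp (-(C * n))

/-- Families of events of probability at most `(r e^ε)^n` eventually. -/
def Sm (p ε : ℝ) (A : ∀ n : ℕ, Set (Om n)) : Prop :=
  ∀ᶠ n : ℕ in atTop, bernoulliProb p (A n) ≤ (rr p * Real.exp ε) ^ n

/-! ## Typical properties of an `n × n` integer matrix -/
section Typ
variable {n : ℕ}

/-- Few solutions of `B α = 0` modulo any `o ≤ n^C`. -/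
def T1 (ρ C : ℝ) (B : Matrix (Fin n) (Fin n) ℤ) : Prop :=
  ∀ o : ℕ, 1 ≤ o → (o : ℝ) ≤ (n : ℝ) ^ C →
    (Nat.card {α : Fin n → ZMod o // (B.map (Int.cast : ℤ → ZMod o)) *ᵥ α = 0} : ℝ) ≤
      2 ^ n * (o : ℝ) ^ (ρ * n)

/-- Every principal submatrix has rational corank at most `ρ n`. -/
def T1Q (ρ : ℝ) (B : Matrix (Fin n) (Fin n) ℤ) : Prop :=
  ∀ U : Finset (Fin n), (U.card : ℝ) ≤
    (((B.map (Int.cast : ℤ → ℚ)).submatrix (fun i : U => i.1) (fun i : U => i.1)).rank : ℝ) + ρ * n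

/-- The regularised determinant is almost as large as possible. -/
def T2 (ε C : ℝ) (B : Matrix (Fin n) (Fin n) ℤ) : Prop :=
  ∀ a : ℝ, (n : ℝ) ^ (-C) ≤ a → (n : ℝ) ^ ((1 - ε) * n) ≤
    ((B.map (Int.cast : ℤ → ℝ)) * (B.map (Int.cast : ℤ → ℝ)) +
      a • (1 : Matrix (Fin n) (Fin n) ℝ)).det

/-- No sparse approximate kernel vector, even when two rows are ignored. -/
def SP (δ : ℝ) (B : Matrix (Fin n) (Fin n) ℤ) : Prop :=
  ∀ (S : Finset (Fin n)) (u : Fin n → ℝ) (i i' : Fin n), (S.card : ℝ) ≤ δ * n →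
    (∀ k, k ∉ S → u k = 0) → (∃ k, 1 ≤ |u k|) →
    ∃ j, j ∉ S ∧ j ≠ i ∧ j ≠ i' ∧ 1 / (n : ℝ) ^ 3 < |((B.map (Int.cast : ℤ → ℝ)) *ᵥ u) j|

/-- The modulus attached to a prime: `4` for `2`, the prime itself otherwise. -/
def qm (l : ℕ) : ℕ := if l = 2 then 4 else l

/-- Kernel vectors modulo `qm l` that are nonzero modulo `l` have large support modulo `l`. -/
def WS (κ : ℝ) (B : Matrix (Fin n) (Fin n) ℤ) : Prop :=
  ∀ (l : ℕ) (w : Fin n → ℤ), l.Prime → (∀ i, ((qm l : ℕ) : ℤ) ∣ (B *ᵥ w) i) →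
    (∃ j, ¬ (l : ℤ) ∣ w j) →
    κ * n ≤ ((Finset.univ.filter fun j => ¬ (l : ℤ) ∣ w j).card : ℝ)

/-- Nonzero rational vectors killed by all rows but two have few zero coordinates. -/
def ZS (β : ℝ) (B : Matrix (Fin n) (Fin n) ℤ) : Prop :=
  ∀ (u : Fin n → ℚ) (i i' : Fin n), u ≠ 0 →
    (∀ j, j ≠ i → j ≠ i' → ((B.map (Int.cast : ℤ → ℚ)) *ᵥ u) j = 0) →
    ((Finset.univ.filter fun k => u k = 0).card : ℝ) ≤ β * n

open Classical in
/-- Few sign vectors in overlattices of `B ℤⁿ` of large index, and few sign vectors with small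
preimage when the determinant is small. -/
def Sparse (θ δ : ℝ) (B : Matrix (Fin n) (Fin n) ℤ) : Prop :=
  (∀ L : Submodule ℤ (Fin n → ℤ), (∀ z, B *ᵥ z ∈ L) →
      (n : ℝ) ^ (θ * n) ≤ (L.toAddSubgroup.index : ℝ) →
      ((Finset.univ.filter fun x : Fin n → Bool => sz x ∈ L).card : ℝ) ≤ Real.exp (δ * n)) ∧
  (|(B.det : ℝ)| ≤ (n : ℝ) ^ ((n : ℝ) / 4) →
      ((Finset.univ.filter fun x : Fin n → Bool => ∃ u : Fin n → ℝ,
        (B.map (Int.cast : ℤ → ℝ)) *ᵥ u = (fun i => (sz x i : ℝ)) ∧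
          ∀ k, |u k| ≤ ((n : ℝ) + 1) ^ 4).card : ℝ) ≤ Real.exp (δ * n))

/-- Principal minor obtained by deleting the index `i`. -/
abbrev del {m : ℕ} (B : Matrix (Fin (m + 1)) (Fin (m + 1)) ℤ) (i : Fin (m + 1)) :
    Matrix (Fin m) (Fin m) ℤ := B.submatrix i.succAbove i.succAbove

/-- Singular with a nonsingular principal minor of codimension one. -/
def Cor1 {m : ℕ} (B : Matrix (Fin (m + 1)) (Fin (m + 1)) ℤ) : Prop :=
  B.det = 0 ∧ ∃ i, (del B i).det ≠ 0

end Typ

/-! ## The reverse Minkowski statements -/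

/-- Weak reverse Minkowski theorem: a lattice of rank at most `n` all of whose sublattices have
covolume at least one has at most `e^{δ n}` points of norm at most `n^{1/2 - ε}`. -/
def RMStmt : Prop :=
  ∀ ε δ : ℝ, 0 < ε → 0 < δ → ∀ᶠ n : ℕ in atTop,
    ∀ (E : Type) [NormedAddCommGroup E] [InnerProductSpace ℝ E] [FiniteDimensional ℝ E]
      (Λ : Submodule ℤ E), IsLat Λ → rk Λ ≤ n → (∀ N, N ≤ Λ → 1 ≤ cov N) →
      ∀ S : Finset E, (∀ v ∈ S, v ∈ Λ ∧ ‖v‖ ≤ (n : ℝ) ^ (1 / 2 - ε)) →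
        (S.card : ℝ) ≤ Real.exp (δ * n)

/-- Relative form: modulo a minimiser `N` of `hn (log K)` the points of `Λ` that are
`K n^{1/2-ε}`-close to the span of `N` lie in at most `e^{δ n}` cosets of that span. -/
def RMRel : Prop :=
  ∀ ε δ : ℝ, 0 < ε → 0 < δ → ∀ᶠ n : ℕ in atTop,
    ∀ (E : Type) [NormedAddCommGroup E] [InnerProductSpace ℝ E] [FiniteDimensional ℝ E]
      (Λ N₀ N : Submodule ℤ E) (K : ℝ), IsLat Λ → rk Λ ≤ 2 * n → 0 < K →
      IsMin (Real.log K) N₀ Λ N →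
      ∃ S : Finset E, (S.card : ℝ) ≤ Real.exp (δ * n) ∧
        ∀ v ∈ Λ, (∃ w ∈ rsp N, ‖v - w‖ ≤ K * (n : ℝ) ^ (1 / 2 - ε)) → ∃ f ∈ S, v - f ∈ rsp N

end Crest.Agent.R152
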