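import Crest.Agent.R152.Top

/-! # Row 152: the upper bound and the limit -/

set_option autoImplicit false
open Matrix Filter
open Crest.FinProb Crest.ProbabilityR.SignMatrix

noncomputable section
namespace Crest.Agent.R152

private theorem fin_num {r e : ℝ} (hr : 1 / 2 ≤ r) (he : 0 ≤ e) {a k : ℕ}
    (hk : (k : ℝ) ≤ e * (a + k : ℕ)) :
    (r * Real.exp e) ^ a ≤ (r * Real.exp (2 * e)) ^ (a + k) := by
  have hr0 : 0 < r := by linarith
  have h1 : Real.exp e ^ a ≤ Real.exp e ^ (a + k) :=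
    pow_le_pow_right₀ (Real.one_le_exp he) (Nat.le_add_right _ _)
  have h2 : (2 : ℝ) ^ k ≤ Real.exp e ^ (a + k) := by
    calc (2 : ℝ) ^ k ≤ Real.exp 1 ^ k := by
          gcongr
          have := Real.add_one_le_exp (1 : ℝ)
          linarith
      _ = Real.exp k := by rw [← Real.exp_nat_mul, mul_one]
      _ ≤ Real.exp ((a + k : ℕ) * e) := Real.exp_le_exp.2 (by linarith)
      _ = _ := Real.exp_nat_mul _ _
  have h3 : (1 : ℝ) ≤ r ^ k * 2 ^ k := by
    rw [← mul_pow]
    exact one_le_pow₀ (by linarith)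
  calc (r * Real.exp e) ^ a = r ^ a * Real.exp e ^ a * 1 := by rw [mul_pow, mul_one]
    _ ≤ r ^ a * Real.exp e ^ (a + k) * (r ^ k * 2 ^ k) := by gcongr
    _ ≤ r ^ a * Real.exp e ^ (a + k) * (r ^ k * Real.exp e ^ (a + k)) := by gcongr
    _ = _ := by
      rw [two_mul, Real.exp_add, mul_pow, mul_pow, pow_add r]
      ring

theorem upper_bound {p ε : ℝ} (h0 : 0 < p) (h1 : p < 1) (hε : 0 < ε) :
    ∀ᶠ n : ℕ in atTop, singularProb n p ≤ (rr p * Real.exp ε) ^ n := by
  obtain ⟨e, he⟩ : ∃ e : ℝ, e = ε / 4 := ⟨_, rfl⟩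
  have he0 : 0 < e := by rw [he]; positivity
  obtain ⟨γ, hγ, -, hs⟩ := small_subsets he0
  obtain ⟨ρ, hρ0, hργ, hρe, hρh⟩ : ∃ ρ : ℝ, 0 < ρ ∧ ρ ≤ γ ∧ ρ ≤ e ∧ ρ ≤ 1 / 2 :=
    ⟨min γ (min e (1 / 2)), by positivity, min_le_left _ _,
      (min_le_right _ _).trans (min_le_left _ _), (min_le_right _ _).trans (min_le_right _ _)⟩
  have hA : Sm p (3 * e) (fun n => {ω : Om n | ¬ T1Q ρ (mat ω)}) :=
    (neg_T1Q h0 h1 hρ0).sm (by positivity)
  have hB : Sm p (3 * e) (fun n => {ω : Om n | ∃ (m : ℕ) (S : Finset (Fin n))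
      (hS : S.card = m + 1), (n : ℝ) ≤ m + ρ * n ∧
        Cor1 ((mat ω).submatrix (S.orderEmbOfFin hS) (S.orderEmbOfFin hS))}) := by
    obtain ⟨M, hM⟩ := eventually_atTop.1 (P_cor1 h0 h1 he0)
    filter_upwards [eventually_ge_atTop (2 * M)] with n hn
    have hn0 : (0 : ℝ) ≤ n := Nat.cast_nonneg n
    have hc0 : 0 ≤ (rr p * Real.exp (2 * e)) ^ n := by
      have := rr_pos p
      positivity
    have key := P_le_card_mul h0.le h1.le
      (Finset.univ.filter fun T : Finset (Fin n) => (T.card : ℝ) ≤ γ * n)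
      (fun T => {ω : Om n | ∃ (m : ℕ) (hS : (Tᶜ).card = m + 1), (n : ℝ) ≤ m + ρ * n ∧
        Cor1 ((mat ω).submatrix ((Tᶜ).orderEmbOfFin hS) ((Tᶜ).orderEmbOfFin hS))})
      (B := {ω : Om n | ∃ (m : ℕ) (S : Finset (Fin n))
        (hS : S.card = m + 1), (n : ℝ) ≤ m + ρ * n ∧
          Cor1 ((mat ω).submatrix (S.orderEmbOfFin hS) (S.orderEmbOfFin hS))})
      (c := (rr p * Real.exp (2 * e)) ^ n) ?_ ?_
    · refine key.trans ?_
      calc _ ≤ Real.exp (e * n) * (rr p * Real.exp (2 * e)) ^ n :=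
            mul_le_mul_of_nonneg_right (hs n (Fin n) (by simp)) hc0
        _ = _ := by
          rw [mul_comm e, Real.exp_nat_mul, ← mul_pow, mul_left_comm, ← Real.exp_add]
          congr 3
          ring
    · rintro ω ⟨m, S, hS, hm, hc⟩
      obtain ⟨T, rfl⟩ : ∃ T, S = Tᶜ := ⟨Sᶜ, (compl_compl S).symm⟩
      refine ⟨T, Finset.mem_filter.2 ⟨Finset.mem_univ _, ?_⟩, m, hS, hm, hc⟩
      have h2 := Finset.card_add_card_compl T
      rw [hS, Fintype.card_fin] at h2
      have h3 : (T.card : ℝ) + (m + 1) = n := by exact_mod_cast h2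
      have h4 : ρ * n ≤ γ * n := by gcongr
      linarith
    · intro T _
      by_cases hT : ∃ m : ℕ, (Tᶜ).card = m + 1 ∧ (n : ℝ) ≤ m + ρ * n
      · obtain ⟨m, hS, hm⟩ := hT
        have h2 := Finset.card_add_card_compl T
        rw [hS, Fintype.card_fin] at h2
        have h3 : (T.card : ℝ) + (m + 1) = n := by exact_mod_cast h2
        have hMm : M ≤ m := by
          have h4 : ρ * n ≤ 1 / 2 * n := by gcongr
          have h5 : ((2 * M : ℕ) : ℝ) ≤ n := by exact_mod_cast hn
          push_cast at h5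
          have h6 : (M : ℝ) ≤ m := by linarith
          exact_mod_cast h6
        calc _ ≤ bernoulliProb p {ω : Om n |
              Cor1 ((mat ω).submatrix ((Tᶜ).orderEmbOfFin hS) ((Tᶜ).orderEmbOfFin hS))} := by
              refine P_mono h0.le h1.le ?_
              rintro ω ⟨m', hS', -, hc⟩
              obtain rfl : m' = m := by omega
              exact hc
          _ = bernoulliProb p {ω : Om (m + 1) | Cor1 (mat ω)} :=
              P_sub _ ((Tᶜ).orderEmbOfFin hS).injective Cor1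
          _ ≤ (rr p * Real.exp e) ^ (m + 1) := hM m hMm
          _ ≤ (rr p * Real.exp (2 * e)) ^ (m + 1 + T.card) := by
              refine fin_num (half_le_rr p) he0.le ?_
              have h4 : ρ * n ≤ e * n := by gcongr
              rw [show m + 1 + T.card = n by omega]
              linarith
          _ = _ := by rw [show m + 1 + T.card = n by omega]
      · refine le_trans (P_mono h0.le h1.le (B := ∅) ?_) (by rw [P_empty]; exact hc0)
        rintro ω ⟨m, hS, hm, -⟩
        exact hT ⟨m, hS, hm⟩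
  have hU := Sm.union (ε' := ε) h0.le h1.le (by linarith) hA hB
  refine Sm.mono (A := fun n => {ω : Om n | (mat ω).det = 0}) h0.le h1.le hU
    (Eventually.of_forall fun n ω hω => ?_)
  by_cases hq : T1Q ρ (mat ω)
  · exact Or.inr (exists_cor1 (mat_isSS ω).1 hω hq)
  · exact Or.inl hq

theorem main_limit {p : ℝ} (h0 : 0 < p) (h1 : p < 1) :
    Tendsto (fun n : ℕ => singularProb n p ^ (1 / (n : ℝ))) atTop (nhds (p ^ 2 + (1 - p) ^ 2)) := by
  change Tendsto _ _ (nhds (rr p))
  have hr := rr_pos p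
  have hroot : ∀ {x : ℝ}, 0 ≤ x → ∀ n : ℕ, n ≠ 0 → (x ^ n) ^ (1 / (n : ℝ)) = x := by
    intro x hx n hn
    rw [one_div, Real.pow_rpow_inv_natCast hx hn]
  refine tendsto_order.2 ⟨fun a ha => ?_, fun b hb => ?_⟩
  · obtain ⟨c, hc, hl⟩ := lower_bound h0 h1
    have t1 : Tendsto (fun n : ℕ => c ^ (1 / (n : ℝ)) * rr p) atTop (nhds (c ^ (0 : ℝ) * rr p)) :=
      (((Real.continuousAt_const_rpow hc.ne').tendsto).comp
        tendsto_one_div_atTop_nhds_zero_nat).mul_const _
    rw [Real.rpow_zero, one_mul] at t1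
    filter_upwards [t1.eventually (lt_mem_nhds ha), eventually_ge_atTop 2] with n hn hn2
    refine hn.trans_le ?_
    calc c ^ (1 / (n : ℝ)) * rr p = (c * rr p ^ n) ^ (1 / (n : ℝ)) := by
          rw [Real.mul_rpow hc.le (by positivity), hroot hr.le n (by omega)]
      _ ≤ _ := Real.rpow_le_rpow (by positivity) (hl n hn2) (by positivity)
  · obtain ⟨b', hb1, hb2⟩ := exists_between hb
    have hε : 0 < Real.log (b' / rr p) := Real.log_pos ((one_lt_div hr).2 hb1)
    have hb' : rr p * Real.exp (Real.log (b' / rr p)) = b' := by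
      rw [Real.exp_log (div_pos (hr.trans hb1) hr)]
      field_simp
    filter_upwards [upper_bound h0 h1 hε, eventually_ge_atTop 1] with n hn hn1
    rw [hb'] at hn
    refine lt_of_le_of_lt ?_ hb2
    calc _ ≤ (b' ^ n) ^ (1 / (n : ℝ)) :=
          Real.rpow_le_rpow (P_nonneg h0.le h1.le _) hn (by positivity)
      _ = b' := hroot (hr.trans hb1).le n (by omega)

end Crest.Agent.R152
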