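import Crest.Agent.R152.Defs

/-! # Row 152: Gram volumes -/

set_option autoImplicit false
open Matrix Filter
open Crest.FinProb Crest.ProbabilityR.SignMatrix

noncomputable section
namespace Crest.Agent.R152

variable {E F : Type} [NormedAddCommGroup E] [InnerProductSpace ℝ E] [FiniteDimensional ℝ E]
  [NormedAddCommGroup F] [InnerProductSpace ℝ F] [FiniteDimensional ℝ F]

theorem gvol_nonneg {ι : Type} [Fintype ι] [DecidableEq ι] (v : ι → E) : 0 ≤ gvol v :=
  Real.sqrt_nonneg _

theorem gvol_sq {ι : Type} [Fintype ι] [DecidableEq ι] (v : ι → E) :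
    gvol v ^ 2 = (Matrix.gram ℝ v).det := by
  exact Real.sq_sqrt (Matrix.posSemidef_gram ℝ v).det_nonneg

theorem gvol_pos {ι : Type} [Fintype ι] [DecidableEq ι] {v : ι → E}
    (hv : LinearIndependent ℝ v) : 0 < gvol v := by
  exact Real.sqrt_pos.2 (Matrix.posDef_gram_of_linearIndependent hv).det_pos

theorem gvol_eq_zero {ι : Type} [Fintype ι] [DecidableEq ι] {v : ι → E}
    (hv : ¬ LinearIndependent ℝ v) : gvol v = 0 := by
  have h : (Matrix.gram ℝ v).det = 0 := by
    by_contra h
    exact hv (Matrix.linearIndependent_of_det_gram_ne_zero h)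
  rw [gvol, h, Real.sqrt_zero]

theorem gvol_reindex {ι κ : Type} [Fintype ι] [DecidableEq ι] [Fintype κ] [DecidableEq κ]
    (e : κ ≃ ι) (v : ι → E) : gvol (fun k => v (e k)) = gvol v := by
  rw [gvol, gvol, ← Matrix.det_submatrix_equiv_self e (Matrix.gram ℝ v)]
  rfl

theorem gvol_empty {ι : Type} [Fintype ι] [DecidableEq ι] [IsEmpty ι] (v : ι → E) :
    gvol v = 1 := by
  rw [gvol, Matrix.det_isEmpty, Real.sqrt_one]

theorem gvol_single (x : E) : gvol (fun _ : Fin 1 => x) = ‖x‖ := by
  rw [gvol, Matrix.det_fin_one, Matrix.gram_apply, real_inner_self_eq_norm_sq,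
    Real.sqrt_sq (norm_nonneg x)]

/-- Change of basis by a square real matrix. -/
theorem gvol_mul {ι : Type} [Fintype ι] [DecidableEq ι] (v : ι → E) (U : Matrix ι ι ℝ) :
    gvol (fun j => ∑ i, U i j • v i) = |U.det| * gvol v := by
  have h : Matrix.gram ℝ (fun j => ∑ i, U i j • v i) = Uᵀ * Matrix.gram ℝ v * U := by
    ext j k
    simp only [Matrix.gram_apply, Matrix.mul_apply, Matrix.transpose_apply, sum_inner, inner_sum,
      real_inner_smul_left, real_inner_smul_right, Finset.sum_mul, Finset.mul_sum]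
    refine Finset.sum_congr rfl fun a _ => Finset.sum_congr rfl fun b _ => ?_
    ring
  rw [gvol, gvol, h, Matrix.det_mul, Matrix.det_mul, Matrix.det_transpose,
    show U.det * (Matrix.gram ℝ v).det * U.det = U.det ^ 2 * (Matrix.gram ℝ v).det by ring,
    Real.sqrt_mul (sq_nonneg _), Real.sqrt_sq_eq_abs]

theorem gvol_isometry {ι : Type} [Fintype ι] [DecidableEq ι] (f : E →ₗ[ℝ] F) (v : ι → E)
    (hf : ∀ x ∈ Submodule.span ℝ (Set.range v), ‖f x‖ = ‖x‖) :
    gvol (fun i => f (v i)) = gvol v := by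
  have hm : ∀ i, v i ∈ Submodule.span ℝ (Set.range v) := fun i => Submodule.subset_span ⟨i, rfl⟩
  have h : Matrix.gram ℝ (fun i => f (v i)) = Matrix.gram ℝ v := by
    ext i j
    rw [Matrix.gram_apply, Matrix.gram_apply,
      real_inner_eq_norm_add_mul_self_sub_norm_mul_self_sub_norm_mul_self_div_two,
      real_inner_eq_norm_add_mul_self_sub_norm_mul_self_sub_norm_mul_self_div_two (v i), ← map_add,
      hf _ (hm i), hf _ (hm j), hf _ (Submodule.add_mem _ (hm i) (hm j))]
  rw [gvol, gvol, h]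

theorem gvol_orthonormal {ι : Type} [Fintype ι] [DecidableEq ι] {v : ι → E}
    (hv : Orthonormal ℝ v) : gvol v = 1 := by
  rw [gvol, Matrix.gram_eq_one_iff_orthonormal.2 hv, Matrix.det_one, Real.sqrt_one]

end Crest.Agent.R152
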