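import Crest.Agent.R152.GvolA

/-! # Row 152: Gram volumes -/

set_option autoImplicit false
open Matrix Filter
open Crest.FinProb Crest.ProbabilityR.SignMatrix

noncomputable section
namespace Crest.Agent.R152

variable {E F : Type} [NormedAddCommGroup E] [InnerProductSpace ℝ E] [FiniteDimensional ℝ E]
  [NormedAddCommGroup F] [InnerProductSpace ℝ F] [FiniteDimensional ℝ F]

/-- Base times height. -/
theorem gvol_sum_elim {ι κ : Type} [Fintype ι] [DecidableEq ι] [Fintype κ] [DecidableEq κ]
    (u : ι → E) (w : κ → E) :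
    gvol (Sum.elim u w) =
      gvol u * gvol (fun k => (Submodule.span ℝ (Set.range u))ᗮ.starProjection (w k)) := by
  set K := Submodule.span ℝ (Set.range u) with hK
  set w' : κ → E := fun k => Kᗮ.starProjection (w k) with hw'
  have hA : ∀ k, ∃ a : ι → ℝ, ∑ i, a i • u i = K.starProjection (w k) := fun k =>
    (Submodule.mem_span_range_iff_exists_fun ℝ).1 (K.starProjection_apply_mem (w k))
  choose A hA using hA
  have h1 : Sum.elim u w = fun j => ∑ i,
      (Matrix.fromBlocks (1 : Matrix ι ι ℝ) (Matrix.of fun i k => A k i) (0 : Matrix κ ι ℝ)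
        (1 : Matrix κ κ ℝ)) i j • Sum.elim u w' i := by
    funext j
    rcases j with j | j
    · simp [Fintype.sum_sum_type, Matrix.one_apply]
    · simp only [Sum.elim_inr, Fintype.sum_sum_type, Matrix.fromBlocks_apply₁₂, Matrix.of_apply,
        Sum.elim_inl, Matrix.fromBlocks_apply₂₂, hA, Matrix.one_apply, ite_smul, one_smul,
        zero_smul, Finset.sum_ite_eq', Finset.mem_univ, if_true, hw']
      exact (K.starProjection_add_starProjection_orthogonal (w j)).symm
  have hu : ∀ i, u i ∈ K := fun i => Submodule.subset_span ⟨i, rfl⟩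
  have hw : ∀ k, w' k ∈ Kᗮ := fun k => Kᗮ.starProjection_apply_mem (w k)
  have h2 : Matrix.gram ℝ (Sum.elim u w') =
      Matrix.fromBlocks (Matrix.gram ℝ u) 0 0 (Matrix.gram ℝ w') := by
    ext (i | i) (j | j)
    · simp [Matrix.gram_apply]
    · simpa [Matrix.gram_apply] using Submodule.inner_right_of_mem_orthogonal (hu i) (hw j)
    · simpa [Matrix.gram_apply] using Submodule.inner_left_of_mem_orthogonal (hu j) (hw i)
    · simp [Matrix.gram_apply]
  rw [h1, gvol_mul, Matrix.det_fromBlocks_zero₂₁, Matrix.det_one, Matrix.det_one, mul_one, abs_one,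
    one_mul, gvol, h2, Matrix.det_fromBlocks_zero₂₁,
    Real.sqrt_mul (Matrix.posSemidef_gram ℝ u).det_nonneg]
  rfl

private theorem gvolB_hadamard_fin (n : ℕ) (v : Fin n → E) : gvol v ≤ ∏ i, ‖v i‖ := by
  induction n with
  | zero => rw [gvol_empty]; simp
  | succ n ih =>
    have h : (fun k => v (finSumFinEquiv k)) =
        Sum.elim (fun i : Fin n => v i.castSucc) (fun _ : Fin 1 => v (Fin.last n)) := by
      funext k
      rcases k with k | k
      · rfl
      · rw [Subsingleton.elim k 0]; rfl
    rw [← gvol_reindex finSumFinEquiv v, h, gvol_sum_elim, gvol_single, Fin.prod_univ_castSucc]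
    exact mul_le_mul (ih _) (Submodule.norm_starProjection_apply_le _ _) (norm_nonneg _)
      (Finset.prod_nonneg fun _ _ => norm_nonneg _)

private theorem gvolB_hadamard {ι : Type} [Fintype ι] [DecidableEq ι] (v : ι → E) :
    gvol v ≤ ∏ i, ‖v i‖ := by
  rw [← gvol_reindex (Fintype.equivFin ι).symm v,
    ← (Fintype.equivFin ι).symm.prod_comp (fun i => ‖v i‖)]
  exact gvolB_hadamard_fin _ _

/-- A map that is a contraction on the span does not increase volumes. -/
theorem gvol_contract {ι : Type} [Fintype ι] [DecidableEq ι] (f : E →ₗ[ℝ] F) (v : ι → E)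
    {c : ℝ} (hc : 0 ≤ c) (hf : ∀ x ∈ Submodule.span ℝ (Set.range v), ‖f x‖ ≤ c * ‖x‖) :
    gvol (fun i => f (v i)) ≤ c ^ Fintype.card ι * gvol v := by
  by_cases hv : LinearIndependent ℝ v
  · let W := Submodule.span ℝ (Set.range v)
    have hW : Module.finrank ℝ W = Fintype.card ι := finrank_span_eq_card hv
    let b : OrthonormalBasis ι ℝ W :=
      (stdOrthonormalBasis ℝ W).reindex (Fintype.equivFinOfCardEq hW.symm).symm
    let e : ι → E := fun k => (b k : E)
    have he : Orthonormal ℝ e := b.orthonormal.comp_linearIsometry W.subtypeₗᵢ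
    let U : Matrix ι ι ℝ := fun i j => b.repr ⟨v j, Submodule.subset_span ⟨j, rfl⟩⟩ i
    have hU : ∀ j, v j = ∑ i, U i j • e i := fun j => by
      have := congrArg (fun x : W => (x : E)) (b.sum_repr ⟨v j, Submodule.subset_span ⟨j, rfl⟩⟩)
      simpa [U, e] using this.symm
    have h1 : gvol v = |U.det| := by
      rw [show v = fun j => ∑ i, U i j • e i from funext hU, gvol_mul, gvol_orthonormal he, mul_one]
    have h2 : gvol (fun k => f (v k)) = |U.det| * gvol fun k => f (e k) := by
      rw [← gvol_mul]; congr 1; funext j; rw [hU j]; simp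
    rw [h1, h2, mul_comm]
    refine mul_le_mul_of_nonneg_right ?_ (abs_nonneg _)
    calc gvol (fun k => f (e k)) ≤ ∏ k, ‖f (e k)‖ := gvolB_hadamard _
      _ ≤ ∏ _k : ι, c := by
          refine Finset.prod_le_prod (fun _ _ => norm_nonneg _) fun k _ => ?_
          have := hf (e k) (b k).2
          rwa [he.1 k, mul_one] at this
      _ = _ := by simp
  · have : ¬ LinearIndependent ℝ (fun i => f (v i)) := fun h => hv (LinearIndependent.of_comp f h)
    rw [gvol_eq_zero this, gvol_eq_zero hv, mul_zero]

/-- Hadamard's inequality. -/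
theorem gvol_le_prod {ι : Type} [Fintype ι] [DecidableEq ι] (v : ι → E) :
    gvol v ≤ ∏ i, ‖v i‖ := by
  exact gvolB_hadamard v

end Crest.Agent.R152
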