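import Crest.Agent.R152.GvolB

/-! # Row 152: Gram volumes -/

set_option autoImplicit false
open Matrix Filter
open Crest.FinProb Crest.ProbabilityR.SignMatrix

noncomputable section
namespace Crest.Agent.R152

variable {E F : Type} [NormedAddCommGroup E] [InnerProductSpace ℝ E] [FiniteDimensional ℝ E]
  [NormedAddCommGroup F] [InnerProductSpace ℝ F] [FiniteDimensional ℝ F]

private theorem gvolC_amgm {κ : Type} [Fintype κ] (z : κ → ℝ) (hz : ∀ k, 0 ≤ z k) :
    ∏ k, z k ≤ ((∑ k, z k) / Fintype.card κ) ^ Fintype.card κ := by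
  rcases Nat.eq_zero_or_pos (Fintype.card κ) with h | h
  · have := Fintype.card_eq_zero_iff.1 h
    simp
  · have hc : (0 : ℝ) < Fintype.card κ := by exact_mod_cast h
    have := Real.geom_mean_le_arith_mean_weighted Finset.univ (fun _ => (Fintype.card κ : ℝ)⁻¹) z
      (fun _ _ => by positivity) (by simp [hc.ne']) fun k _ => hz k
    rw [Real.finsetProd_rpow _ _ (fun k _ => hz k), ← Finset.mul_sum] at this
    have h0 : 0 ≤ ∏ k, z k := Finset.prod_nonneg fun k _ => hz k
    calc ∏ k, z k = ((∏ k, z k) ^ (Fintype.card κ : ℝ)⁻¹) ^ Fintype.card κ :=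
          (Real.rpow_inv_natCast_pow h0 h.ne').symm
      _ ≤ _ := by
          rw [div_eq_inv_mul]
          exact pow_le_pow_left₀ (Real.rpow_nonneg h0 _) this _

private theorem gvolC_frob {ι κ : Type} [Fintype ι] [DecidableEq ι] [Fintype κ]
    (f : V ι →ₗ[ℝ] F) {e : κ → V ι} (he : Orthonormal ℝ e) :
    ∑ k, ‖f (e k)‖ ^ 2 ≤ ∑ i, ‖f (EuclideanSpace.single i (1 : ℝ))‖ ^ 2 := by
  let g := stdOrthonormalBasis ℝ F
  have h1 : ∀ x : V ι, ‖f x‖ ^ 2 = ∑ j, ‖inner ℝ x (LinearMap.adjoint f (g j))‖ ^ 2 := by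
    intro x
    rw [← g.sum_sq_norm_inner_left]
    exact Finset.sum_congr rfl fun j _ => by rw [LinearMap.adjoint_inner_right]
  simp only [h1]
  rw [Finset.sum_comm, Finset.sum_comm (s := (Finset.univ : Finset ι))]
  refine Finset.sum_le_sum fun j _ => ?_
  refine (he.sum_inner_products_le _).trans (le_of_eq ?_)
  rw [← (EuclideanSpace.basisFun ι ℝ).sum_sq_norm_inner_right]
  simp

/-- Product of the top `k` singular values, via AM-GM and the Frobenius norm. -/
theorem gvol_frob {ι κ : Type} [Fintype ι] [DecidableEq ι] [Fintype κ] [DecidableEq κ]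
    (f : V ι →ₗ[ℝ] F) {T : ℝ} (hT : ∑ i, ‖f (EuclideanSpace.single i (1 : ℝ))‖ ^ 2 ≤ T)
    (v : κ → V ι) :
    gvol (fun k => f (v k)) ^ 2 ≤ (T / Fintype.card κ) ^ Fintype.card κ * gvol v ^ 2 := by
  have hT0 : 0 ≤ T := le_trans (Finset.sum_nonneg fun _ _ => by positivity) hT
  by_cases hv : LinearIndependent ℝ v
  · let W := Submodule.span ℝ (Set.range v)
    have hW : Module.finrank ℝ W = Fintype.card κ := finrank_span_eq_card hv
    let b : OrthonormalBasis κ ℝ W :=
      (stdOrthonormalBasis ℝ W).reindex (Fintype.equivFinOfCardEq hW.symm).symm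
    let e : κ → V ι := fun k => (b k : V ι)
    have he : Orthonormal ℝ e := b.orthonormal.comp_linearIsometry W.subtypeₗᵢ
    let U : Matrix κ κ ℝ := fun i j => b.repr ⟨v j, Submodule.subset_span ⟨j, rfl⟩⟩ i
    have hU : ∀ j, v j = ∑ i, U i j • e i := fun j => by
      have := congrArg (fun x : W => (x : V ι)) (b.sum_repr ⟨v j, Submodule.subset_span ⟨j, rfl⟩⟩)
      simpa [U, e] using this.symm
    have h1 : gvol v = |U.det| := by
      rw [show v = fun j => ∑ i, U i j • e i from funext hU, gvol_mul, gvol_orthonormal he, mul_one]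
    have h2 : gvol (fun k => f (v k)) = |U.det| * gvol fun k => f (e k) := by
      rw [← gvol_mul]; congr 1; funext j; rw [hU j]; simp
    rw [h1, h2, mul_pow, mul_comm]
    refine mul_le_mul_of_nonneg_right ?_ (by positivity)
    calc gvol (fun k => f (e k)) ^ 2 ≤ (∏ k, ‖f (e k)‖) ^ 2 :=
          pow_le_pow_left₀ (gvol_nonneg _) (gvol_le_prod _) 2
      _ = ∏ k, ‖f (e k)‖ ^ 2 := (Finset.prod_pow _ _ _).symm
      _ ≤ ((∑ k, ‖f (e k)‖ ^ 2) / Fintype.card κ) ^ Fintype.card κ :=
          gvolC_amgm _ fun _ => by positivity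
      _ ≤ _ := by
          gcongr
          exact (gvolC_frob f he).trans hT
  · rw [gvol_eq_zero (v := fun k => f (v k)) fun h => hv (LinearIndependent.of_comp f h)]
    have : 0 ≤ (T / Fintype.card κ) ^ Fintype.card κ * gvol v ^ 2 := by positivity
    simpa using this


/-- The form used for sign matrices: Frobenius norm squared at most `2 n²`. -/
theorem gvol_frob_sign {ι κ : Type} [Fintype ι] [DecidableEq ι] [Fintype κ] [DecidableEq κ]
    (f : V ι →ₗ[ℝ] F) {n : ℕ}
    (hT : ∑ i, ‖f (EuclideanSpace.single i (1 : ℝ))‖ ^ 2 ≤ 2 * (n : ℝ) ^ 2) (v : κ → V ι) :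
    gvol (fun k => f (v k)) ≤
      Real.sqrt (2 * n) ^ Fintype.card κ * Real.exp ((n : ℝ) / 2) * gvol v := by
  have h := gvol_frob f hT v
  set k := Fintype.card κ
  have hv := gvol_nonneg v
  refine (pow_le_pow_iff_left₀ (gvol_nonneg _) (by positivity) two_ne_zero).1 (h.trans ?_)
  rw [mul_pow, mul_pow, ← pow_mul, mul_comm k 2, pow_mul, Real.sq_sqrt (by positivity),
    ← Real.exp_nat_mul]
  refine mul_le_mul_of_nonneg_right ?_ (by positivity)
  have e : (2 * (n : ℝ) ^ 2 / k) = 2 * n * (n / k) := by ring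
  rw [e, mul_pow (2 * (n : ℝ))]
  refine mul_le_mul_of_nonneg_left ?_ (by positivity)
  rcases Nat.eq_zero_or_pos k with h0 | h0
  · rw [h0, pow_zero]; exact Real.one_le_exp (by positivity)
  · have hk : (0 : ℝ) < k := by exact_mod_cast h0
    calc ((n : ℝ) / k) ^ k ≤ Real.exp (n / k) ^ k :=
          pow_le_pow_left₀ (by positivity) (by linarith [Real.add_one_le_exp ((n : ℝ) / k)]) _
      _ = _ := by rw [← Real.exp_nat_mul]; congr 1; push_cast; field_simp


end Crest.Agent.R152
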