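import Crest.Agent.R152.Gvol

/-! # Row 152: lattices, rank, index -/

set_option autoImplicit false
open Matrix Filter
open Crest.FinProb Crest.ProbabilityR.SignMatrix

noncomputable section
namespace Crest.Agent.R152

variable {E F : Type} [NormedAddCommGroup E] [InnerProductSpace ℝ E] [FiniteDimensional ℝ E]
  [NormedAddCommGroup F] [InnerProductSpace ℝ F] [FiniteDimensional ℝ F]

theorem isLat_span {ι : Type} [Fintype ι] {v : ι → E} (hv : LinearIndependent ℝ v) :
    IsLat (Submodule.span ℤ (Set.range v)) := by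
  refine ⟨Fintype.card ι, v ∘ (Fintype.equivFin ι).symm,
    hv.comp _ (Fintype.equivFin ι).symm.injective, ?_⟩
  rw [(Fintype.equivFin ι).symm.surjective.range_comp]

theorem rsp_span {ι : Type} (v : ι → E) :
    rsp (Submodule.span ℤ (Set.range v)) = Submodule.span ℝ (Set.range v) := by
  exact Submodule.span_span_of_tower ℤ ℝ _

theorem rk_span {ι : Type} [Fintype ι] {v : ι → E} (hv : LinearIndependent ℝ v) :
    rk (Submodule.span ℤ (Set.range v)) = Fintype.card ι := by
  rw [rk, rsp_span, finrank_span_eq_card hv]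

omit [FiniteDimensional ℝ E] in
private theorem lat1A_matrix {ι : Type} [Fintype ι] {v w : ι → E}
    (h : Submodule.span ℤ (Set.range w) ≤ Submodule.span ℤ (Set.range v)) :
    ∃ U : Matrix ι ι ℤ, w = fun j => ∑ i, ((U i j : ℤ) : ℝ) • v i := by
  have h1 : ∀ j, ∃ c : ι → ℤ, ∑ i, c i • v i = w j := fun j =>
    (Submodule.mem_span_range_iff_exists_fun ℤ).1 (h (Submodule.subset_span ⟨j, rfl⟩))
  choose c hc using h1
  refine ⟨Matrix.of fun i j => c j i, funext fun j => ?_⟩
  rw [← hc j]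
  simp [Int.cast_smul_eq_zsmul]

private theorem lat1A_le {ι : Type} [Fintype ι] [DecidableEq ι] {v w : ι → E}
    (hw : LinearIndependent ℝ w)
    (h : Submodule.span ℤ (Set.range w) ≤ Submodule.span ℤ (Set.range v)) : gvol v ≤ gvol w := by
  obtain ⟨U, hU⟩ := lat1A_matrix h
  have h1 := gvol_mul v (U.map (Int.castRingHom ℝ))
  have h2 : (U.map (Int.castRingHom ℝ)).det = (U.det : ℝ) :=
    ((Int.castRingHom ℝ).map_det U).symm
  have h3 : gvol w = |(U.det : ℝ)| * gvol v := by
    rw [← h2, ← h1, hU]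
    rfl
  have h4 : U.det ≠ 0 := fun h0 => by
    have := gvol_pos hw
    rw [h3, h0] at this
    simp at this
  have h5 : (1 : ℝ) ≤ |(U.det : ℝ)| := by exact_mod_cast Int.one_le_abs h4
  rw [h3]
  exact le_mul_of_one_le_left (gvol_nonneg v) h5

/-- The covolume can be computed from any basis (two bases differ by a unimodular matrix). -/
theorem cov_span {ι : Type} [Fintype ι] [DecidableEq ι] {v : ι → E}
    (hv : LinearIndependent ℝ v) : cov (Submodule.span ℤ (Set.range v)) = gvol v := by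
  have h := isLat_span hv
  rw [cov, dif_pos h]
  obtain ⟨h1, h2⟩ := h.choose_spec.choose_spec
  generalize h.choose_spec.choose = w at h1 h2
  have h3 : Fintype.card ι = Fintype.card (Fin h.choose) := by
    rw [← rk_span hv, ← rk_span h1, h2]
  obtain ⟨e⟩ := Fintype.card_eq.1 h3
  rw [← gvol_reindex e w]
  have h4 : Set.range (fun i => w (e i)) = Set.range w := e.surjective.range_comp w
  refine le_antisymm (lat1A_le hv ?_) (lat1A_le (h1.comp e e.injective) ?_)
  · rw [h4, h2]
  · exact (congrArg (Submodule.span ℤ) h4).le.trans h2.le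

theorem cov_pos (Λ : Submodule ℤ E) : 0 < cov Λ := by
  unfold cov
  split_ifs with h
  · exact gvol_pos h.choose_spec.choose_spec.1
  · exact one_pos

theorem IsLat.exists_basis {Λ : Submodule ℤ E} (h : IsLat Λ) :
    ∃ v : Fin (rk Λ) → E, LinearIndependent ℝ v ∧ Submodule.span ℤ (Set.range v) = Λ := by
  obtain ⟨k, v, h1, rfl⟩ := h
  have : rk (Submodule.span ℤ (Set.range v)) = k := by rw [rk_span h1, Fintype.card_fin]
  rw [this]
  exact ⟨v, h1, rfl⟩

theorem isLat_bot : IsLat (⊥ : Submodule ℤ E) := by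
  exact ⟨0, Fin.elim0, linearIndependent_empty_type, by simp⟩

theorem rk_bot : rk (⊥ : Submodule ℤ E) = 0 := by
  rw [rk, rsp, Submodule.bot_coe, Submodule.span_zero_singleton, finrank_bot]

theorem cov_bot : cov (⊥ : Submodule ℤ E) = 1 := by
  have h := cov_span (E := E) (v := (Fin.elim0 : Fin 0 → E)) linearIndependent_empty_type
  rw [gvol_empty] at h
  simpa using h

theorem eq_bot_of_rk_eq_zero {Λ : Submodule ℤ E} (h : rk Λ = 0) : Λ = ⊥ := by
  have h1 : rsp Λ = ⊥ := Submodule.finrank_eq_zero.1 h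
  refine (Submodule.eq_bot_iff _).2 fun x hx => ?_
  have h2 : x ∈ rsp Λ := Submodule.subset_span hx
  rwa [h1, Submodule.mem_bot] at h2

theorem mem_rsp {Λ : Submodule ℤ E} {x : E} (hx : x ∈ Λ) : x ∈ rsp Λ := Submodule.subset_span hx

theorem rsp_mono {N N' : Submodule ℤ E} (h : N ≤ N') : rsp N ≤ rsp N' := Submodule.span_mono h

theorem rk_mono {N N' : Submodule ℤ E} (h : N ≤ N') : rk N ≤ rk N' :=
  Submodule.finrank_mono (rsp_mono h)

theorem rsp_sup (N N' : Submodule ℤ E) : rsp (N ⊔ N') = rsp N ⊔ rsp N' := by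
  refine le_antisymm (Submodule.span_le.2 fun x hx => ?_)
    (sup_le (rsp_mono le_sup_left) (rsp_mono le_sup_right))
  obtain ⟨y, hy, z, hz, rfl⟩ := Submodule.mem_sup.1 hx
  exact Submodule.add_mem_sup (mem_rsp hy) (mem_rsp hz)

theorem rsp_eq_of_rk_eq {N N' : Submodule ℤ E} (h : N ≤ N') (hr : rk N' ≤ rk N) :
    rsp N = rsp N' := by
  exact Submodule.eq_of_le_of_finrank_le (rsp_mono h) hr

theorem mem_sec {Λ : Submodule ℤ E} {W : Submodule ℝ E} {x : E} :
    x ∈ sec Λ W ↔ x ∈ Λ ∧ x ∈ W := Iff.rfl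

theorem sec_le (Λ : Submodule ℤ E) (W : Submodule ℝ E) : sec Λ W ≤ Λ := inf_le_left

theorem rsp_sec_le (Λ : Submodule ℤ E) (W : Submodule ℝ E) : rsp (sec Λ W) ≤ W := by
  exact Submodule.span_le.2 fun x hx => hx.2

theorem rsp_sec_rsp {Λ N : Submodule ℤ E} (h : N ≤ Λ) : rsp (sec Λ (rsp N)) = rsp N := by
  exact le_antisymm (rsp_sec_le _ _) (rsp_mono fun x hx => ⟨h hx, mem_rsp hx⟩)

theorem mem_img {f : E →ₗ[ℝ] F} {Λ : Submodule ℤ E} {y : F} :
    y ∈ img f Λ ↔ ∃ x ∈ Λ, f x = y := Iff.rfl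

theorem rsp_img (f : E →ₗ[ℝ] F) (Λ : Submodule ℤ E) : rsp (img f Λ) = (rsp Λ).map f := by
  rw [rsp, rsp, Submodule.map_span]
  rfl

end Crest.Agent.R152
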