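import Crest.Agent.R152.Lat1A

/-! # Row 152: lattices, rank, index -/

set_option autoImplicit false
open Matrix Filter
open Crest.FinProb Crest.ProbabilityR.SignMatrix

noncomputable section
namespace Crest.Agent.R152

variable {E F : Type} [NormedAddCommGroup E] [InnerProductSpace ℝ E] [FiniteDimensional ℝ E]
  [NormedAddCommGroup F] [InnerProductSpace ℝ F] [FiniteDimensional ℝ F]

omit [FiniteDimensional ℝ E] in
theorem l1b_indep {k : ℕ} {v : Fin k → E} (hv : LinearIndependent ℝ v) {ι : Type} {w : ι → E}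
    (hw : ∀ j, w j ∈ Submodule.span ℤ (Set.range v)) (hi : LinearIndependent ℤ w) :
    LinearIndependent ℝ w := by
  choose c hc using fun j => (Submodule.mem_span_range_iff_exists_fun ℤ).1 (hw j)
  have h1 : LinearIndependent ℤ c := by
    refine LinearIndependent.of_comp (Fintype.linearCombination ℤ v) ?_
    convert hi using 1
    exact funext hc
  have h2 := ((linearIndependent_algebraMap_comp_iff (S := ℝ)).2 h1).map'
    (Fintype.linearCombination ℝ v)
    (LinearMap.ker_eq_bot.2 hv.fintypeLinearCombination_injective)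
  refine (funext fun j => ?_ : _ = w) ▸ h2
  simp [Fintype.linearCombination_apply, ← hc j, Int.cast_smul_eq_zsmul]

omit [FiniteDimensional ℝ E] in
theorem IsLat.l1b_finite {Λ : Submodule ℤ E} (h : IsLat Λ) : Module.Finite ℤ Λ := by
  obtain ⟨k, v, -, rfl⟩ := h
  exact Module.Finite.span_of_finite ℤ (Set.finite_range v)

/-- A sublattice of a lattice is a lattice. -/
theorem IsLat.sub {Λ N : Submodule ℤ E} (h : IsLat Λ) (hN : N ≤ Λ) : IsLat N := by
  have := h.l1b_finite
  have := Module.Finite.of_injective (Submodule.inclusion hN) (Submodule.inclusion_injective hN)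
  obtain ⟨k, v, hv, rfl⟩ := h
  have : Module.IsTorsionFree ℤ E := .trans_faithfulSMul ℤ ℝ E
  let b := Module.finBasis ℤ N
  refine ⟨_, N.subtype ∘ b, l1b_indep hv (fun j => hN (b j).2)
    (b.linearIndependent.map' _ N.ker_subtype), ?_⟩
  rw [Set.range_comp, ← Submodule.map_span, b.span_eq, Submodule.map_subtype_top]

theorem IsLat.finrank_eq {Λ : Submodule ℤ E} (h : IsLat Λ) : Module.finrank ℤ Λ = rk Λ := by
  obtain ⟨k, v, hv, rfl⟩ := h
  rw [rk_span hv, finrank_span_eq_card (hv.restrict_scalars' ℤ)]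

theorem rk_modular {Λ N₁ N₂ : Submodule ℤ E} (h : IsLat Λ) (h₁ : N₁ ≤ Λ) (h₂ : N₂ ≤ Λ) :
    rk (N₁ ⊓ N₂) + rk (N₁ ⊔ N₂) = rk N₁ + rk N₂ := by
  have a1 := h.sub h₁
  have a2 := h.sub h₂
  have a3 := h.sub (inf_le_left.trans h₁ : N₁ ⊓ N₂ ≤ Λ)
  have a4 := h.sub (sup_le h₁ h₂)
  have := a1.l1b_finite
  have := a2.l1b_finite
  have := a3.l1b_finite
  have := a4.l1b_finite
  have h5 := Submodule.rank_sup_add_rank_inf_eq N₁ N₂
  simp only [← Module.finrank_eq_rank] at h5
  rw [← a1.finrank_eq, ← a2.finrank_eq, ← a3.finrank_eq, ← a4.finrank_eq, add_comm]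
  exact_mod_cast h5

theorem rsp_inf {Λ N₁ N₂ : Submodule ℤ E} (h : IsLat Λ) (h₁ : N₁ ≤ Λ) (h₂ : N₂ ≤ Λ) :
    rsp (N₁ ⊓ N₂) = rsp N₁ ⊓ rsp N₂ := by
  refine Submodule.eq_of_le_of_finrank_eq (le_inf (rsp_mono inf_le_left) (rsp_mono inf_le_right)) ?_
  have h1 := rk_modular h h₁ h₂
  have h2 := Submodule.finrank_sup_add_finrank_inf_eq (rsp N₁) (rsp N₂)
  unfold rk at h1
  rw [rsp_sup] at h1
  omega

theorem IsLat.img {Λ : Submodule ℤ E} (h : IsLat Λ) (f : E →ₗ[ℝ] F)
    (hf : ∀ x ∈ rsp Λ, f x = 0 → x = 0) : IsLat (img f Λ) ∧ rk (img f Λ) = rk Λ := by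
  obtain ⟨k, v, hv, rfl⟩ := h
  rw [rsp_span] at hf
  have h1 := hv.map (f := f) (Submodule.disjoint_def.2 hf)
  have h2 : R152.img f (Submodule.span ℤ (Set.range v)) = Submodule.span ℤ (Set.range (f ∘ v)) := by
    rw [R152.img, Submodule.map_span, Set.range_comp]
    rfl
  rw [h2, rk_span hv, rk_span h1]
  exact ⟨isLat_span h1, rfl⟩

end Crest.Agent.R152
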