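import Crest.Agent.R152.Lat1B

/-! # Row 152: lattices, rank, index -/

set_option autoImplicit false
open Matrix Filter
open Crest.FinProb Crest.ProbabilityR.SignMatrix

noncomputable section
namespace Crest.Agent.R152

variable {E F : Type} [NormedAddCommGroup E] [InnerProductSpace ℝ E] [FiniteDimensional ℝ E]
  [NormedAddCommGroup F] [InnerProductSpace ℝ F] [FiniteDimensional ℝ F]

theorem lat1c_img_span {ι : Type} (f : E →ₗ[ℝ] F) (v : ι → E) :
    img f (Submodule.span ℤ (Set.range v)) = Submodule.span ℤ (Set.range fun i => f (v i)) := by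
  unfold img
  rw [Submodule.map_span, ← Set.range_comp]
  rfl

theorem lat1c_li {ι : Type} (f : E →ₗ[ℝ] F) {v : ι → E} (hv : LinearIndependent ℝ v)
    (hinj : ∀ x ∈ Submodule.span ℝ (Set.range v), f x = 0 → x = 0) :
    LinearIndependent ℝ fun i => f (v i) :=
  hv.map (f := f) (Submodule.disjoint_def.2 fun x hx hx' => hinj x hx hx')

theorem lat1c_gvol_smul {ι : Type} [Fintype ι] [DecidableEq ι] (v : ι → E) {c : ℝ} (hc : 0 ≤ c) :
    gvol (fun i => c • v i) = c ^ Fintype.card ι * gvol v := by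
  have h := gvol_mul v (Matrix.diagonal fun _ => c)
  rw [Matrix.det_diagonal, Finset.prod_const, Finset.card_univ,
    abs_of_nonneg (pow_nonneg hc _)] at h
  rw [← h]
  congr 1
  funext j
  rw [Finset.sum_eq_single j]
  · rw [Matrix.diagonal_apply_eq]
  · intro i _ hij
    rw [Matrix.diagonal_apply_ne _ hij, zero_smul]
  · intro hj
    exact absurd (Finset.mem_univ j) hj

/-- Scaling and, more generally, similarities. -/
theorem cov_img_of_norm {Λ : Submodule ℤ E} (h : IsLat Λ) (f : E →ₗ[ℝ] F) {c : ℝ} (hc : 0 < c)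
    (hf : ∀ x ∈ rsp Λ, ‖f x‖ = c * ‖x‖) : cov (img f Λ) = c ^ rk Λ * cov Λ := by
  obtain ⟨k, v, hv, rfl⟩ := h
  rw [rsp_span] at hf
  have hinj : ∀ x ∈ Submodule.span ℝ (Set.range v), f x = 0 → x = 0 := by
    intro x hx h0
    have := hf x hx
    rw [h0, norm_zero, eq_comm, mul_eq_zero] at this
    exact norm_eq_zero.1 (this.resolve_left hc.ne')
  rw [lat1c_img_span, cov_span (lat1c_li f hv hinj), cov_span hv, rk_span hv]
  have h1 := gvol_isometry (c⁻¹ • f) v fun x hx => by
    rw [LinearMap.smul_apply, norm_smul, hf x hx, Real.norm_eq_abs, abs_of_pos (inv_pos.2 hc),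
      inv_mul_cancel_left₀ hc.ne']
  rw [← h1, ← lat1c_gvol_smul _ hc.le]
  congr 1
  funext i
  rw [LinearMap.smul_apply, smul_smul, mul_inv_cancel₀ hc.ne', one_smul]

theorem cov_img_le {Λ : Submodule ℤ E} (h : IsLat Λ) (f : E →ₗ[ℝ] F)
    (hinj : ∀ x ∈ rsp Λ, f x = 0 → x = 0) {c : ℝ} (hc : 0 ≤ c)
    (hf : ∀ x ∈ rsp Λ, ‖f x‖ ≤ c * ‖x‖) : cov (img f Λ) ≤ c ^ rk Λ * cov Λ := by
  obtain ⟨k, v, hv, rfl⟩ := h
  rw [rsp_span] at hf hinj
  rw [lat1c_img_span, cov_span (lat1c_li f hv hinj), cov_span hv, rk_span hv]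
  exact gvol_contract f v hc hf

theorem lat1c_index {ι : Type} [Fintype ι] [DecidableEq ι] {u v : ι → E}
    (hu : LinearIndependent ℝ u) (hv : LinearIndependent ℝ v)
    (H : Submodule.span ℤ (Set.range u) ≤ Submodule.span ℤ (Set.range v)) :
    gvol u = ((Submodule.span ℤ (Set.range u)).toAddSubgroup.relIndex
      (Submodule.span ℤ (Set.range v)).toAddSubgroup : ℝ) * gvol v := by
  have huZ : LinearIndependent ℤ u := hu.restrict_scalars' ℤ
  have hvZ : LinearIndependent ℤ v := hv.restrict_scalars' ℤ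
  have h := AddSubgroup.relIndex_eq_natAbs_det (Submodule.span ℤ (Set.range u)).toAddSubgroup
    (Submodule.span ℤ (Set.range v)).toAddSubgroup H (Module.Basis.span huZ) (Module.Basis.span hvZ)
  let w : ι → Submodule.span ℤ (Set.range v) := fun i =>
    ⟨u i, H (Submodule.subset_span ⟨i, rfl⟩)⟩
  have h' : (Submodule.span ℤ (Set.range u)).toAddSubgroup.relIndex
      (Submodule.span ℤ (Set.range v)).toAddSubgroup =
      ((Module.Basis.span hvZ).det w).natAbs := by
    rw [h]
    congr 2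
    funext i
    have h2 : ((Module.Basis.span huZ i : Submodule.span ℤ (Set.range u)) : E) = u i := by
      rw [Module.Basis.span_apply]
    exact Subtype.ext h2
  rw [h', Nat.cast_natAbs, Int.cast_abs, Module.Basis.det_apply, Int.cast_det, ← gvol_mul]
  congr 1
  funext j
  have h1 := congrArg Subtype.val ((Module.Basis.span hvZ).sum_repr (w j))
  rw [Submodule.coe_sum] at h1
  refine h1.symm.trans (Finset.sum_congr rfl fun i _ => ?_)
  rw [Submodule.coe_smul, Module.Basis.span_apply, Matrix.map_apply, Module.Basis.toMatrix_apply,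
    Int.cast_smul_eq_zsmul]

/-- Index formula. -/
theorem cov_index {N N' : Submodule ℤ E} (h : IsLat N') (hN : N ≤ N') (hr : rk N' ≤ rk N) :
    N.toAddSubgroup.relIndex N'.toAddSubgroup ≠ 0 ∧
      cov N = (N.toAddSubgroup.relIndex N'.toAddSubgroup : ℝ) * cov N' := by
  have hk : rk N = rk N' := le_antisymm (rk_mono hN) hr
  obtain ⟨u, hu, hu'⟩ := (h.sub hN).exists_basis
  obtain ⟨v, hv, hv'⟩ := h.exists_basis
  let e : Fin (rk N) ≃ Fin (rk N') := finCongr hk
  have hv2 : LinearIndependent ℝ fun i => v (e i) := hv.comp e e.injective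
  have hv2' : Submodule.span ℤ (Set.range fun i => v (e i)) = N' := by
    rw [show (fun i => v (e i)) = v ∘ e from rfl, e.surjective.range_comp, hv']
  have h1 := lat1c_index hu hv2 (by rw [hu', hv2']; exact hN)
  rw [← cov_span hu, ← cov_span hv2, hu', hv2'] at h1
  refine ⟨fun h0 => ?_, h1⟩
  rw [h0, Nat.cast_zero, zero_mul] at h1
  exact (cov_pos N).ne' h1

theorem cov_le_of_rk {N N' : Submodule ℤ E} (h : IsLat N') (hN : N ≤ N') (hr : rk N' ≤ rk N) :
    cov N' ≤ cov N := by
  obtain ⟨h1, h2⟩ := cov_index h hN hr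
  have h3 : (1 : ℝ) ≤ (N.toAddSubgroup.relIndex N'.toAddSubgroup : ℝ) := by
    exact_mod_cast Nat.one_le_iff_ne_zero.2 h1
  have := cov_pos N'
  rw [h2]; nlinarith

end Crest.Agent.R152
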