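import Crest.Agent.R152.Lat1

/-! # Row 152: projections, submodularity, relative bounds -/

set_option autoImplicit false
open Matrix Filter
open Crest.FinProb Crest.ProbabilityR.SignMatrix

noncomputable section
namespace Crest.Agent.R152

variable {E F : Type} [NormedAddCommGroup E] [InnerProductSpace ℝ E] [FiniteDimensional ℝ E]
  [NormedAddCommGroup F] [InnerProductSpace ℝ F] [FiniteDimensional ℝ F]

/-- Orthogonal projection onto the orthogonal complement of `W`, as a linear map. -/
def prj (W : Submodule ℝ E) : E →ₗ[ℝ] E := (Wᗮ.starProjection : E →L[ℝ] E)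

theorem prj_eq_zero_iff {W : Submodule ℝ E} {x : E} : prj W x = 0 ↔ x ∈ W := by
  change Wᗮ.starProjection x = 0 ↔ x ∈ W
  rw [Submodule.starProjection_apply_eq_zero_iff, Submodule.orthogonal_orthogonal]

theorem sub_prj_mem (W : Submodule ℝ E) (x : E) : x - prj W x ∈ W := by
  have := Submodule.sub_starProjection_mem_orthogonal (K := Wᗮ) x
  rwa [Submodule.orthogonal_orthogonal] at this

theorem norm_prj_le (W : Submodule ℝ E) (x : E) {w : E} (hw : w ∈ W) : ‖prj W x‖ ≤ ‖x - w‖ := by
  have h1 : prj W x = prj W (x - w) := by rw [map_sub, prj_eq_zero_iff.2 hw, sub_zero]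
  rw [h1]
  exact Submodule.norm_starProjection_apply_le _ _

/-- Adapted bases: a basis of the saturation of `N` extends to a basis of `Λ`. -/
theorem exists_adapted {Λ N : Submodule ℤ E} (h : IsLat Λ) (hN : N ≤ Λ) :
    ∃ (u : Fin (rk N) → E) (w : Fin (rk Λ - rk N) → E), LinearIndependent ℝ (Sum.elim u w) ∧
      Submodule.span ℤ (Set.range u) = sec Λ (rsp N) ∧
      Submodule.span ℤ (Set.range (Sum.elim u w)) = Λ := by
  have hS : IsLat (sec Λ (rsp N)) := h.sub (sec_le _ _)
  have hrk : rk (sec Λ (rsp N)) = rk N := by rw [rk, rsp_sec_rsp hN, rk]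
  obtain ⟨u, hu, hus⟩ : ∃ u : Fin (rk N) → E, LinearIndependent ℝ u ∧
      Submodule.span ℤ (Set.range u) = sec Λ (rsp N) := hrk ▸ hS.exists_basis
  have hfg : (img (prj (rsp N)) Λ).FG := by
    obtain ⟨k, v, -, rfl⟩ := h
    exact (Submodule.fg_span (Set.finite_range v)).map _
  have : Module.Finite ℤ (img (prj (rsp N)) Λ) := Module.Finite.iff_fg.2 hfg
  have : IsAddTorsionFree E := IsAddTorsionFree.of_isTorsionFree ℝ E
  let b := Module.finBasis ℤ (img (prj (rsp N)) Λ)
  choose w hw hwb using fun k => mem_img.1 (b k).2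
  have hb : LinearIndependent ℤ fun k => (b k : E) :=
    b.linearIndependent.map' (img (prj (rsp N)) Λ).subtype (Submodule.ker_subtype _)
  have huW : ∀ i, u i ∈ sec Λ (rsp N) := fun i => hus ▸ Submodule.subset_span ⟨i, rfl⟩
  have hspan : Submodule.span ℤ (Set.range (Sum.elim u w)) = Λ := by
    apply le_antisymm
    · rw [Submodule.span_le]
      rintro _ ⟨i | k, rfl⟩
      · exact (huW i).1
      · exact hw k
    · intro x hx
      have hx' : prj (rsp N) x ∈ img (prj (rsp N)) Λ := mem_img.2 ⟨x, hx, rfl⟩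
      have e := congrArg Subtype.val (b.sum_repr ⟨_, hx'⟩)
      simp only [AddSubmonoidClass.coe_finsetSum, SetLike.val_smul] at e
      set y := ∑ k, b.repr ⟨_, hx'⟩ k • w k with hy
      have hyΛ : y ∈ Submodule.span ℤ (Set.range (Sum.elim u w)) :=
        Submodule.sum_mem _ fun k _ => Submodule.smul_mem _ _
          (Submodule.subset_span ⟨Sum.inr k, rfl⟩)
      have hxy : x - y ∈ sec Λ (rsp N) := by
        refine mem_sec.2 ⟨Λ.sub_mem hx (Λ.sum_mem fun k _ => Λ.smul_mem _ (hw k)), ?_⟩
        rw [← prj_eq_zero_iff, map_sub, hy, map_sum, sub_eq_zero]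
        refine e.symm.trans (Finset.sum_congr rfl fun k _ => ?_)
        rw [map_zsmul, hwb]
      rw [← hus] at hxy
      have h2 : Submodule.span ℤ (Set.range u) ≤ Submodule.span ℤ (Set.range (Sum.elim u w)) :=
        Submodule.span_mono (by rintro _ ⟨i, rfl⟩; exact ⟨Sum.inl i, rfl⟩)
      simpa using Submodule.add_mem _ (h2 hxy) hyΛ
  have hZ : LinearIndependent ℤ (Sum.elim u w) := by
    rw [Fintype.linearIndependent_iff]
    intro g hg
    rw [Fintype.sum_sum_type] at hg
    simp only [Sum.elim_inl, Sum.elim_inr] at hg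
    have h1 := congrArg (prj (rsp N)) hg
    simp only [map_add, map_sum, map_zsmul, hwb, map_zero,
      fun i => prj_eq_zero_iff.2 (huW i).2, smul_zero, Finset.sum_const_zero, zero_add] at h1
    have h2 := Fintype.linearIndependent_iff.1 hb _ h1
    simp only [h2, zero_smul, Finset.sum_const_zero, add_zero] at hg
    have h3 := Fintype.linearIndependent_iff.1 (hu.restrict_scalars' ℤ) _ hg
    rintro (i | k)
    · exact h3 i
    · exact h2 k
  have hcard := finrank_span_eq_card hZ
  rw [hspan, h.finrank_eq] at hcard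
  have hR : LinearIndependent ℝ (Sum.elim u w) := by
    rw [linearIndependent_iff_card_eq_finrank_span, ← hcard, Set.finrank, ← rsp_span, hspan, rk]
  have hq : Module.finrank ℤ (img (prj (rsp N)) Λ) = rk Λ - rk N := by
    simp only [Fintype.card_sum, Fintype.card_fin] at hcard
    omega
  clear_value b
  clear hb hwb hw b hcard hZ
  revert w
  rw [hq]
  intro w hspan hR
  exact ⟨u, w, hR, hus, hspan⟩

/-- Projection along the span of a sublattice. -/
theorem cov_prj {Λ N : Submodule ℤ E} (h : IsLat Λ) (hN : N ≤ Λ) :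
    IsLat (img (prj (rsp N)) Λ) ∧ rk (img (prj (rsp N)) Λ) + rk N = rk Λ ∧
      cov Λ = cov (sec Λ (rsp N)) * cov (img (prj (rsp N)) Λ) := by
  obtain ⟨u, w, hR, hus, hspan⟩ := exists_adapted h hN
  have hW : Submodule.span ℝ (Set.range u) = rsp N := by rw [← rsp_span, hus, rsp_sec_rsp hN]
  have hu : LinearIndependent ℝ u := hR.comp Sum.inl Sum.inl_injective
  have huW : ∀ i, prj (rsp N) (u i) = 0 := fun i =>
    prj_eq_zero_iff.2 (hW ▸ Submodule.subset_span ⟨i, rfl⟩)
  have hP : LinearIndependent ℝ fun k => prj (rsp N) (w k) := by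
    rw [Fintype.linearIndependent_iff]
    intro g hg
    have h1 : ∑ k, g k • w k ∈ Submodule.span ℝ (Set.range u) := by
      rw [hW, ← prj_eq_zero_iff, map_sum, ← hg]
      simp only [map_smul]
    obtain ⟨c, hc⟩ := (Submodule.mem_span_range_iff_exists_fun ℝ).1 h1
    have h2 := Fintype.linearIndependent_iff.1 hR (Sum.elim (fun i => -c i) g) (by
      rw [Fintype.sum_sum_type]
      simp only [Sum.elim_inl, Sum.elim_inr, neg_smul, Finset.sum_neg_distrib, hc, neg_add_cancel])
    exact fun k => h2 (Sum.inr k)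
  have himg : img (prj (rsp N)) Λ =
      Submodule.span ℤ (Set.range fun k => prj (rsp N) (w k)) := by
    conv_lhs => rw [← hspan]
    rw [img, Submodule.map_span]
    apply le_antisymm
    · rw [Submodule.span_le]
      rintro _ ⟨_, ⟨i | k, rfl⟩, rfl⟩
      · change prj (rsp N) (u i) ∈ _
        rw [huW]
        exact Submodule.zero_mem _
      · exact Submodule.subset_span ⟨k, rfl⟩
    · refine Submodule.span_mono ?_
      rintro _ ⟨k, rfl⟩
      exact ⟨_, ⟨Sum.inr k, rfl⟩, rfl⟩
  refine ⟨himg ▸ isLat_span hP, ?_, ?_⟩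
  · rw [himg, rk_span hP, Fintype.card_fin]
    have := rk_mono hN
    omega
  · rw [himg, cov_span hP, ← hus, cov_span hu]
    conv_lhs => rw [← hspan]
    rw [cov_span hR, gvol_sum_elim, hW]
    rfl

end Crest.Agent.R152
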