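import Crest.Agent.R152.Lat2A

/-! # Row 152: projections, submodularity, relative bounds -/

set_option autoImplicit false
open Matrix Filter
open Crest.FinProb Crest.ProbabilityR.SignMatrix

noncomputable section
namespace Crest.Agent.R152

variable {E F : Type} [NormedAddCommGroup E] [InnerProductSpace ℝ E] [FiniteDimensional ℝ E]
  [NormedAddCommGroup F] [InnerProductSpace ℝ F] [FiniteDimensional ℝ F]

theorem l2b_relIndex_img {N S : Submodule ℤ E} (hN : N ≤ S) (f : E →ₗ[ℝ] F)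
    (hinj : ∀ x ∈ S, f x = 0 → x = 0) :
    (img f N).toAddSubgroup.relIndex (img f S).toAddSubgroup =
      N.toAddSubgroup.relIndex S.toAddSubgroup := by
  have e1 : ∀ M : Submodule ℤ E,
      (img f M).toAddSubgroup = M.toAddSubgroup.map f.toAddMonoidHom := fun M => by
    ext y
    rfl
  rw [e1 S, ← AddSubgroup.relIndex_comap, ← AddSubgroup.inf_relIndex_right]
  congr 1
  ext x
  constructor
  · rintro ⟨⟨y, hy, hxy⟩, hx⟩
    have h0 : f (x - y) = 0 := by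
      rw [map_sub]
      exact sub_eq_zero.2 hxy.symm
    have h1 := hinj _ (S.sub_mem hx (hN hy)) h0
    rw [sub_eq_zero] at h1
    rw [h1]
    exact hy
  · intro hx
    exact ⟨⟨x, hx, rfl⟩, hN hx⟩

theorem l2b_rk_sec {Λ N : Submodule ℤ E} (hN : N ≤ Λ) : rk (sec Λ (rsp N)) = rk N := by
  rw [rk, rsp_sec_rsp hN, rk]

theorem l2b_le_sec {Λ N : Submodule ℤ E} (hN : N ≤ Λ) : N ≤ sec Λ (rsp N) :=
  fun _ hx => ⟨hN hx, mem_rsp hx⟩

theorem l2b_prj_congr {W : Submodule ℝ E} {x y : E} (h : x - y ∈ W) : prj W x = prj W y := by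
  rw [← sub_eq_zero, ← map_sub]
  exact prj_eq_zero_iff.2 h

theorem l2b_norm_prj (W : Submodule ℝ E) (x : E) : ‖prj W x‖ ≤ 1 * ‖x‖ := by
  have := norm_prj_le W x W.zero_mem
  rwa [sub_zero, ← one_mul ‖x‖] at this

theorem l2b_prj_mem (W : Submodule ℝ E) (x : E) : prj W x ∈ Wᗮ :=
  Submodule.starProjection_apply_mem Wᗮ x

/-- Relative bound for linear maps: `cov (f N') / cov (f N) ≤ c * cov N' / cov N` when `f`
multiplies `(rk N' - rk N)`-dimensional volumes by at most `c`. -/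
theorem cov_map_rel {N N' : Submodule ℤ E} (h : IsLat N') (hN : N ≤ N') (f : E →ₗ[ℝ] F)
    (hinj : ∀ x ∈ rsp N', f x = 0 → x = 0) {c : ℝ}
    (hc : ∀ v : Fin (rk N' - rk N) → E, gvol (fun i => f (v i)) ≤ c * gvol v) :
    cov (img f N') * cov N ≤ c * (cov (img f N) * cov N') := by
  obtain ⟨u, w, hR, hus, hspan⟩ := exists_adapted h hN
  have hW : Submodule.span ℝ (Set.range u) = rsp N := by rw [← rsp_span, hus, rsp_sec_rsp hN]
  have hu : LinearIndependent ℝ u := hR.comp Sum.inl Sum.inl_injective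
  have hW' : Submodule.span ℝ (Set.range (Sum.elim u w)) = rsp N' := by rw [← rsp_span, hspan]
  have hfR : LinearIndependent ℝ fun i => f (Sum.elim u w i) := lat1c_li f hR (hW' ▸ hinj)
  have hfe : (fun i => f (Sum.elim u w i)) = Sum.elim (fun i => f (u i)) (fun k => f (w k)) := by
    funext i
    cases i <;> rfl
  have hfu : LinearIndependent ℝ fun i => f (u i) := hfR.comp Sum.inl Sum.inl_injective
  set S := sec N' (rsp N) with hS
  have hSN : S ≤ N' := sec_le _ _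
  have hSl : IsLat S := h.sub hSN
  have hNS : N ≤ S := l2b_le_sec hN
  have hrS : rk S = rk N := l2b_rk_sec hN
  have hinjS : ∀ x ∈ rsp S, f x = 0 → x = 0 := fun x hx => hinj x (rsp_mono hSN hx)
  have hinjN : ∀ x ∈ rsp N, f x = 0 → x = 0 := fun x hx => hinj x (rsp_mono hN hx)
  obtain ⟨-, i1⟩ := cov_index hSl hNS hrS.le
  have hiS := hSl.img f hinjS
  have hiN := (h.sub hN).img f hinjN
  have hle : img f N ≤ img f S := Submodule.map_mono hNS
  obtain ⟨-, i2⟩ := cov_index hiS.1 hle (by rw [hiS.2, hiN.2, hrS])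
  rw [l2b_relIndex_img hNS f fun x hx => hinjS x (mem_rsp hx)] at i2
  have c1 : cov S = gvol u := by rw [← hus, cov_span hu]
  have c2 : cov (img f S) = gvol fun i => f (u i) := by
    rw [← hus, lat1c_img_span, cov_span hfu]
  have c3 : cov N' = gvol u * gvol fun k => prj (rsp N) (w k) := by
    conv_lhs => rw [← hspan]
    rw [cov_span hR, gvol_sum_elim, hW]
    rfl
  set W' := Submodule.span ℝ (Set.range fun i => f (u i)) with hW''
  have c4 : cov (img f N') = gvol (fun i => f (u i)) * gvol fun k => prj W' (f (w k)) := by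
    conv_lhs => rw [← hspan]
    rw [lat1c_img_span, cov_span hfR, hfe, gvol_sum_elim]
    rfl
  have hmap : W' = (rsp N).map f := by
    rw [← hW, Submodule.map_span, ← Set.range_comp]
    rfl
  have c5 : (fun k => prj W' (f (w k))) = fun k => prj W' (f (prj (rsp N) (w k))) := by
    funext k
    refine l2b_prj_congr ?_
    rw [← map_sub, hmap]
    exact Submodule.mem_map_of_mem (sub_prj_mem _ _)
  have c6 := gvol_contract (prj W') (fun k => f (prj (rsp N) (w k))) zero_le_one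
    (fun x _ => l2b_norm_prj W' x)
  rw [one_pow, one_mul, ← c5] at c6
  have c7 := c6.trans (hc fun k => prj (rsp N) (w k))
  rw [c4, i1, i2, c1, c2, c3]
  have p1 := gvol_nonneg u
  have p2 := gvol_nonneg fun i => f (u i)
  have p3 : (0 : ℝ) ≤ (N.toAddSubgroup.relIndex S.toAddSubgroup : ℝ) := Nat.cast_nonneg _
  have := mul_le_mul_of_nonneg_left c7 (mul_nonneg (mul_nonneg p1 p2) p3)
  linarith

/-- Submodularity of the log-covolume. -/
theorem cov_submod {Λ N₁ N₂ : Submodule ℤ E} (h : IsLat Λ) (h₁ : N₁ ≤ Λ) (h₂ : N₂ ≤ Λ) :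
    cov (N₁ ⊓ N₂) * cov (N₁ ⊔ N₂) ≤ cov N₁ * cov N₂ := by
  have l1 := h.sub h₁
  have lB := h.sub (sup_le h₁ h₂)
  have hinf := rsp_inf h h₁ h₂
  obtain ⟨-, -, b1⟩ := cov_prj lB (le_sup_right : N₂ ≤ N₁ ⊔ N₂)
  obtain ⟨a0, -, a1⟩ := cov_prj l1 (inf_le_left : N₁ ⊓ N₂ ≤ N₁)
  set A := N₁ ⊓ N₂ with hA
  set B := N₁ ⊔ N₂ with hB
  set P := prj (rsp N₂) with hP
  set Q := prj (rsp A) with hQ
  have hPQ : ∀ x, P (Q x) = P x := fun x => by
    refine (l2b_prj_congr ?_).symm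
    exact rsp_mono (inf_le_right : A ≤ N₂) (sub_prj_mem _ _)
  have e1 : img P B = img P (img Q N₁) := by
    ext y
    constructor
    · rintro ⟨x, hx, rfl⟩
      obtain ⟨a, ha, b, hb, rfl⟩ := Submodule.mem_sup.1 hx
      refine ⟨Q a, ⟨a, ha, rfl⟩, ?_⟩
      change P (Q a) = P (a + b)
      rw [hPQ, map_add, (prj_eq_zero_iff.2 (mem_rsp hb) : P b = 0), add_zero]
    · rintro ⟨_, ⟨x, hx, rfl⟩, rfl⟩
      exact ⟨x, Submodule.mem_sup_left hx, (hPQ x).symm⟩
  have hinj : ∀ x ∈ rsp (img Q N₁), P x = 0 → x = 0 := by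
    intro x hx h0
    rw [rsp_img] at hx
    obtain ⟨y, hy, rfl⟩ := hx
    rw [hPQ] at h0
    have h1 : y ∈ rsp A := by
      rw [hinf]
      exact ⟨hy, prj_eq_zero_iff.1 h0⟩
    exact prj_eq_zero_iff.2 h1
  have e2 := cov_img_le a0 P hinj zero_le_one (fun x _ => l2b_norm_prj _ x)
  rw [one_pow, one_mul, ← e1] at e2
  have s1 : sec N₁ (rsp A) ≤ sec B (rsp N₂) := fun x hx =>
    ⟨Submodule.mem_sup_left hx.1, rsp_mono (inf_le_right : A ≤ N₂) hx.2⟩
  obtain ⟨-, i1⟩ := cov_index (l1.sub (sec_le N₁ (rsp A)))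
    (l2b_le_sec (inf_le_left : A ≤ N₁)) (l2b_rk_sec (inf_le_left : A ≤ N₁)).le
  obtain ⟨j2, i2⟩ := cov_index (lB.sub (sec_le B (rsp N₂)))
    (l2b_le_sec (le_sup_right : N₂ ≤ B)) (l2b_rk_sec (le_sup_right : N₂ ≤ B)).le
  have k1 : A.toAddSubgroup.relIndex (sec N₁ (rsp A)).toAddSubgroup =
      N₂.toAddSubgroup.relIndex (sec N₁ (rsp A)).toAddSubgroup := by
    rw [← AddSubgroup.inf_relIndex_right, ← AddSubgroup.inf_relIndex_right N₂.toAddSubgroup]
    congr 1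
    ext x
    exact ⟨fun hx => ⟨hx.1.2, hx.2⟩, fun hx => ⟨⟨hx.2.1, hx.1⟩, hx.2⟩⟩
  have k2 : A.toAddSubgroup.relIndex (sec N₁ (rsp A)).toAddSubgroup ≤
      N₂.toAddSubgroup.relIndex (sec B (rsp N₂)).toAddSubgroup := by
    rw [k1]
    exact AddSubgroup.relIndex_le_of_le_right (fun x hx => s1 hx) j2
  have k3 : (A.toAddSubgroup.relIndex (sec N₁ (rsp A)).toAddSubgroup : ℝ) ≤
      N₂.toAddSubgroup.relIndex (sec B (rsp N₂)).toAddSubgroup := by exact_mod_cast k2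
  rw [i1, i2, b1, a1]
  have p1 := (cov_pos (sec N₁ (rsp A))).le
  have p2 := (cov_pos (sec B (rsp N₂))).le
  have p3 := (cov_pos (img P B)).le
  have := mul_le_mul_of_nonneg_left (mul_le_mul k3 e2 p3 (Nat.cast_nonneg _)) (mul_nonneg p1 p2)
  linarith

theorem hn_submod {Λ N₁ N₂ : Submodule ℤ E} (h : IsLat Λ) (h₁ : N₁ ≤ Λ) (h₂ : N₂ ≤ Λ) (lam : ℝ) :
    hn lam (N₁ ⊓ N₂) + hn lam (N₁ ⊔ N₂) ≤ hn lam N₁ + hn lam N₂ := by
  have e := rk_modular h h₁ h₂
  have e' : (rk (N₁ ⊓ N₂) : ℝ) + rk (N₁ ⊔ N₂) = rk N₁ + rk N₂ := by exact_mod_cast e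
  have l := Real.log_le_log (mul_pos (cov_pos _) (cov_pos _)) (cov_submod h h₁ h₂)
  rw [Real.log_mul (cov_pos _).ne' (cov_pos _).ne', Real.log_mul (cov_pos _).ne' (cov_pos _).ne'] at l
  unfold hn
  have : lam * (rk (N₁ ⊓ N₂) : ℝ) + lam * rk (N₁ ⊔ N₂) = lam * rk N₁ + lam * rk N₂ := by
    rw [← mul_add, ← mul_add, e']
  linarith

end Crest.Agent.R152
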