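import Crest.Agent.R152.Lat2B

/-! # Row 152: projections, submodularity, relative bounds -/

set_option autoImplicit false
open Matrix Filter
open Crest.FinProb Crest.ProbabilityR.SignMatrix

noncomputable section
namespace Crest.Agent.R152

variable {E F : Type} [NormedAddCommGroup E] [InnerProductSpace ℝ E] [FiniteDimensional ℝ E]
  [NormedAddCommGroup F] [InnerProductSpace ℝ F] [FiniteDimensional ℝ F]

/-- Extending a basis of `N` by a family whose projections are independent. -/
theorem lat2C_ext {N : Submodule ℤ E} (hN : IsLat N) {κ : Type} [Fintype κ] [DecidableEq κ]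
    (w : κ → E) (hw : LinearIndependent ℝ fun k => prj (rsp N) (w k)) :
    IsLat (N ⊔ Submodule.span ℤ (Set.range w)) ∧
      rk (N ⊔ Submodule.span ℤ (Set.range w)) = rk N + Fintype.card κ ∧
      cov (N ⊔ Submodule.span ℤ (Set.range w)) = cov N * gvol fun k => prj (rsp N) (w k) := by
  obtain ⟨u, hu, hsp⟩ := hN.exists_basis
  have h1 : rsp N = Submodule.span ℝ (Set.range u) := by rw [← rsp_span u, hsp]
  have h2 : gvol (Sum.elim u w) = gvol u * gvol fun k => prj (rsp N) (w k) := by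
    rw [gvol_sum_elim, h1]; rfl
  have h3 : LinearIndependent ℝ (Sum.elim u w) := by
    by_contra hc
    have := mul_pos (gvol_pos hu) (gvol_pos hw)
    rw [← h2, gvol_eq_zero hc] at this
    exact lt_irrefl _ this
  have h4 : Submodule.span ℤ (Set.range (Sum.elim u w)) = N ⊔ Submodule.span ℤ (Set.range w) := by
    rw [Set.Sum.elim_range, Submodule.span_union, hsp]
  have h5 : cov N = gvol u := by rw [← cov_span hu, hsp]
  rw [← h4]
  refine ⟨isLat_span h3, ?_, ?_⟩
  · rw [rk_span h3]; simp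
  · rw [cov_span h3, h2, h5]

/-- A lattice spanned over `N` by short vectors has small relative covolume. -/
theorem cov_le_short {Λ N : Submodule ℤ E} (h : IsLat Λ) (hN : N ≤ Λ) (S : Set E) {ρ : ℝ}
    (hρ : 0 ≤ ρ) (hS : ∀ s ∈ S, s ∈ Λ ∧ ‖s‖ ≤ ρ) (hsp : rsp Λ ≤ rsp N ⊔ Submodule.span ℝ S) :
    cov Λ ≤ cov N * ρ ^ (rk Λ - rk N) := by
  classical
  obtain ⟨κ, a, -, hspan, hli⟩ := exists_linearIndependent' ℝ fun s : S => prj (rsp N) (s : E)
  have : Finite κ := hli.finite
  have := Fintype.ofFinite κ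
  obtain ⟨-, h2, h3⟩ := lat2C_ext (h.sub hN) (fun k => (a k : E)) hli
  have hle : N ⊔ Submodule.span ℤ (Set.range fun k => (a k : E)) ≤ Λ := by
    refine sup_le hN (Submodule.span_le.2 ?_)
    rintro _ ⟨k, rfl⟩
    exact (hS _ (a k).2).1
  have hr : rsp Λ ≤ rsp (N ⊔ Submodule.span ℤ (Set.range fun k => (a k : E))) := by
    rw [rsp_sup, rsp_span]
    refine hsp.trans (sup_le le_sup_left (Submodule.span_le.2 fun s hs => ?_))
    have h4 : prj (rsp N) s ∈ Submodule.span ℝ (Set.range fun s : S => prj (rsp N) (s : E)) :=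
      Submodule.subset_span ⟨⟨s, hs⟩, rfl⟩
    rw [← hspan] at h4
    have h5 : Submodule.span ℝ (Set.range ((fun s : S => prj (rsp N) (s : E)) ∘ a)) =
        (Submodule.span ℝ (Set.range fun k => (a k : E))).map (prj (rsp N)) := by
      rw [Submodule.map_span, ← Set.range_comp]; rfl
    rw [h5] at h4
    obtain ⟨y, hy, hy'⟩ := h4
    have h6 : s - y ∈ rsp N := by rw [← prj_eq_zero_iff, map_sub, hy', sub_self]
    have := Submodule.add_mem_sup h6 hy
    rwa [sub_add_cancel] at this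
  have hr1 : rk Λ ≤ rk (N ⊔ Submodule.span ℤ (Set.range fun k => (a k : E))) :=
    Submodule.finrank_mono hr
  have hr2 := rk_mono hle
  have hk : rk Λ - rk N = Fintype.card κ := by omega
  refine (cov_le_of_rk h hle hr1).trans ?_
  rw [h3, hk]
  refine mul_le_mul_of_nonneg_left ((gvol_le_prod _).trans ?_) (cov_pos _).le
  calc ∏ k, ‖prj (rsp N) (a k : E)‖ ≤ ∏ _k : κ, ρ := by
        refine Finset.prod_le_prod (fun k _ => norm_nonneg _) fun k _ => ?_
        have := norm_prj_le (rsp N) (a k : E) (zero_mem _)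
        rw [sub_zero] at this
        exact this.trans (hS _ (a k).2).2
    _ = _ := by simp

/-- Orthogonal sums. -/
theorem cov_sup_orth {N₁ N₂ : Submodule ℤ E} (h₁ : IsLat N₁) (h₂ : IsLat N₂)
    (horth : ∀ x ∈ N₁, ∀ y ∈ N₂, inner ℝ x y = 0) :
    IsLat (N₁ ⊔ N₂) ∧ rk (N₁ ⊔ N₂) = rk N₁ + rk N₂ ∧ cov (N₁ ⊔ N₂) = cov N₁ * cov N₂ := by
  obtain ⟨w, hw, hsp⟩ := h₂.exists_basis
  have h1 : ∀ k, prj (rsp N₁) (w k) = w k := fun k => by
    have h2 : w k ∈ N₂ := by rw [← hsp]; exact Submodule.subset_span ⟨k, rfl⟩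
    have h3 : w k ∈ (rsp N₁)ᗮ := by
      rw [Submodule.mem_orthogonal]
      intro x hx
      induction hx using Submodule.span_induction with
      | mem x hx => exact horth x hx _ h2
      | zero => simp
      | add x y _ _ hx hy => rw [inner_add_left, hx, hy, add_zero]
      | smul c x _ hx => rw [inner_smul_left, hx, mul_zero]
    exact Submodule.starProjection_eq_self_iff.2 h3
  have h4 := lat2C_ext h₁ w (by simpa only [h1] using hw)
  simp only [h1] at h4
  rw [← cov_span hw, hsp, Fintype.card_fin] at h4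
  exact h4

/-- One-step extension: if `φ` is an integer-valued nonzero functional on `N`, then `N` is its
kernel part plus one vector, and the covolume is multiplied by the height of that vector. -/
theorem exists_step {N : Submodule ℤ E} (h : IsLat N) (φ : E →ₗ[ℝ] ℝ)
    (hint : ∀ x ∈ N, ∃ k : ℤ, φ x = k) (hne : ∃ x ∈ N, φ x ≠ 0) :
    ∃ v ∈ N, ∃ o : ℕ, 1 ≤ o ∧ φ v = o ∧ rk N = rk (sec N (LinearMap.ker φ)) + 1 ∧
      cov N = cov (sec N (LinearMap.ker φ)) * ‖prj (rsp (sec N (LinearMap.ker φ))) v‖ := by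
  classical
  have hex : ∃ o : ℕ, 1 ≤ o ∧ ∃ v ∈ N, φ v = o := by
    obtain ⟨x, hx, hx0⟩ := hne
    obtain ⟨k, hk⟩ := hint x hx
    have hk0 : k ≠ 0 := fun h0 => hx0 (by rw [hk, h0, Int.cast_zero])
    rcases Int.natAbs_eq k with h1 | h1
    · exact ⟨k.natAbs, by omega, x, hx, by rw [hk, ← Int.cast_natCast, ← h1]⟩
    · refine ⟨k.natAbs, by omega, -x, neg_mem hx, ?_⟩
      rw [map_neg, hk, neg_eq_iff_eq_neg]
      exact_mod_cast congrArg (Int.cast (R := ℝ)) h1
  obtain ⟨ho, v, hv, hφ⟩ := Nat.find_spec hex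
  have hmin : ∀ m < Nat.find hex, ¬ (1 ≤ m ∧ ∃ v ∈ N, φ v = m) := fun m hm => Nat.find_min hex hm
  generalize Nat.find hex = o at ho hφ hmin
  have hN : N = sec N (LinearMap.ker φ) ⊔ Submodule.span ℤ (Set.range fun _ : Fin 1 => v) := by
    refine le_antisymm (fun x hx => ?_) (sup_le (sec_le _ _) (Submodule.span_le.2 ?_))
    · obtain ⟨k, hk⟩ := hint x hx
      have h1 : x - (k / o) • v ∈ N := sub_mem hx (N.smul_mem _ hv)
      have h2 : φ (x - (k / o) • v) = ((k % o : ℤ) : ℝ) := by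
        rw [map_sub, map_zsmul, hk, hφ, Int.emod_def, zsmul_eq_mul]
        push_cast
        ring
      have h3 := Int.emod_nonneg k (show (o : ℤ) ≠ 0 by omega)
      have h4 := Int.emod_lt_of_pos k (show (0 : ℤ) < o by omega)
      have h5 : k % o = 0 := by
        by_contra h6
        refine hmin (k % o).toNat (by omega) ⟨by omega, _, h1, ?_⟩
        rw [h2]
        exact_mod_cast congrArg (Int.cast (R := ℝ)) (Int.toNat_of_nonneg h3).symm
      have h6 : x - (k / o) • v ∈ sec N (LinearMap.ker φ) :=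
        mem_sec.2 ⟨h1, by rw [LinearMap.mem_ker, h2, h5, Int.cast_zero]⟩
      have h7 : (k / o) • v ∈ Submodule.span ℤ (Set.range fun _ : Fin 1 => v) :=
        Submodule.smul_mem _ _ (Submodule.subset_span ⟨0, rfl⟩)
      have := Submodule.add_mem_sup h6 h7
      rwa [sub_add_cancel] at this
    · rintro _ ⟨_, rfl⟩
      exact hv
  have hp : prj (rsp (sec N (LinearMap.ker φ))) v ≠ 0 := by
    intro h0
    have h1 := rsp_sec_le _ _ (prj_eq_zero_iff.1 h0)
    rw [LinearMap.mem_ker, hφ] at h1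
    have : o = 0 := by exact_mod_cast h1
    omega
  obtain ⟨-, h2, h3⟩ := lat2C_ext (h.sub (sec_le N (LinearMap.ker φ))) (fun _ : Fin 1 => v)
    (linearIndependent_unique_iff.2 hp)
  rw [← hN, Fintype.card_fin] at h2
  rw [← hN, gvol_single] at h3
  exact ⟨v, hv, o, ho, hφ, h2, h3⟩

end Crest.Agent.R152
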