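import Crest.Agent.R152.Lat2

/-! # Row 152: integer lattices, reduced bases, minimisers, relative reverse Minkowski -/

set_option autoImplicit false
open Matrix Filter
open Crest.FinProb Crest.ProbabilityR.SignMatrix

noncomputable section
namespace Crest.Agent.R152

variable {E F : Type} [NormedAddCommGroup E] [InnerProductSpace ℝ E] [FiniteDimensional ℝ E]
  [NormedAddCommGroup F] [InnerProductSpace ℝ F] [FiniteDimensional ℝ F]

section Int
variable {ι : Type} [Fintype ι] [DecidableEq ι]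

theorem mem_Zl {x : V ι} : x ∈ Zl ι ↔ ∀ i, ∃ k : ℤ, x i = k := Iff.rfl

theorem mem_Rc {R : Finset ι} {x : V ι} : x ∈ Rc R ↔ ∀ i, i ∉ R → x i = 0 := Iff.rfl

theorem zv_mem (z : ι → ℤ) : zv z ∈ Zl ι := fun i => ⟨z i, rfl⟩

theorem exists_zv {x : V ι} (hx : x ∈ Zl ι) : ∃ z, zv z = x := by
  choose z hz using hx
  exact ⟨z, by ext i; simp [zv, hz i]⟩

/-- The standard vectors indexed by `R`. -/
private def eR (R : Finset ι) : R → V ι := fun i => EuclideanSpace.single (i : ι) (1 : ℝ)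

private theorem eR_on (R : Finset ι) : Orthonormal ℝ (eR R) :=
  (EuclideanSpace.orthonormal_single (𝕜 := ℝ) (ι := ι)).comp _ Subtype.val_injective

private theorem eR_expand (R : Finset ι) {x : V ι} (hx : x ∈ Rc R) : x = ∑ i : R, x i • eR R i := by
  ext j
  simp only [eR, WithLp.ofLp_sum, WithLp.ofLp_smul, Finset.sum_apply, Pi.smul_apply, EuclideanSpace.single_apply,
    smul_eq_mul, mul_ite, mul_one, mul_zero]
  by_cases hj : j ∈ R
  · rw [Finset.sum_eq_single ⟨j, hj⟩]
    · simp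
    · intro b _ hb
      rw [if_neg]
      intro h
      exact hb (Subtype.ext h.symm)
    · simp
  · rw [hx j hj, Finset.sum_eq_zero]
    intro b _
    rw [if_neg]
    intro h
    exact hj (h ▸ b.2)

private theorem eR_mem (R : Finset ι) (i : R) : eR R i ∈ Zc R := by
  refine ⟨fun j => ?_, fun j hj => ?_⟩
  · by_cases h : j = i
    · exact ⟨1, by simp [eR, h]⟩
    · exact ⟨0, by simp [eR, h]⟩
  · have : j ≠ i := fun h => hj (h ▸ i.2)
    simp [eR, this]

private theorem span_eR (R : Finset ι) : Submodule.span ℤ (Set.range (eR R)) = Zc R := by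
  refine le_antisymm (Submodule.span_le.2 (by rintro _ ⟨i, rfl⟩; exact eR_mem R i)) fun x hx => ?_
  obtain ⟨h1, h2⟩ := hx
  rw [eR_expand R h2]
  refine Submodule.sum_mem _ fun i _ => ?_
  obtain ⟨k, hk⟩ := h1 i
  rw [hk, Int.cast_smul_eq_zsmul]
  exact Submodule.smul_mem _ _ (Submodule.subset_span ⟨i, rfl⟩)

private theorem spanR_eR (R : Finset ι) : Submodule.span ℝ (Set.range (eR R)) = Rc R := by
  refine le_antisymm (Submodule.span_le.2 (by rintro _ ⟨i, rfl⟩; exact (eR_mem R i).2)) fun x hx => ?_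
  rw [eR_expand R hx]
  exact Submodule.sum_mem _ fun i _ => Submodule.smul_mem _ _ (Submodule.subset_span ⟨i, rfl⟩)

private theorem Zc_univ : Zc (Finset.univ : Finset ι) = Zl ι := by
  ext x
  exact ⟨fun h => h.1, fun h => ⟨h, fun i hi => absurd (Finset.mem_univ i) hi⟩⟩

private theorem rk_Zc' (R : Finset ι) : rk (Zc R) = R.card := by
  have h : rk (Submodule.span ℤ (Set.range (eR R))) = Fintype.card R := rk_span (eR_on R).linearIndependent
  rw [span_eR, Fintype.card_coe] at h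
  exact h

private theorem cov_Zc' (R : Finset ι) : cov (Zc R) = 1 := by
  have h : cov (Submodule.span ℤ (Set.range (eR R))) = gvol (eR R) := cov_span (eR_on R).linearIndependent
  rw [span_eR, gvol_orthonormal (eR_on R)] at h
  exact h

theorem isLat_Zl : IsLat (Zl ι) := by
  rw [← Zc_univ, ← span_eR]
  exact isLat_span (eR_on _).linearIndependent

theorem rsp_Zl : rsp (Zl ι) = ⊤ := by
  rw [← Zc_univ, ← span_eR, rsp_span, spanR_eR]
  exact Submodule.eq_top_iff'.2 fun x i hi => absurd (Finset.mem_univ i) hi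

theorem rk_Zl : rk (Zl ι) = Fintype.card ι := by
  rw [← Zc_univ, rk_Zc', Finset.card_univ]

theorem cov_Zl : cov (Zl ι) = 1 := by
  rw [← Zc_univ, cov_Zc']

theorem rsp_Zc (R : Finset ι) : rsp (Zc R) = Rc R := by
  rw [← span_eR, rsp_span, spanR_eR]

theorem rk_Zc (R : Finset ι) : rk (Zc R) = R.card := by
  exact rk_Zc' R

theorem cov_Zc (R : Finset ι) : cov (Zc R) = 1 := by
  exact cov_Zc' R

theorem finrank_Rc (R : Finset ι) : Module.finrank ℝ (Rc R) = R.card := by
  rw [← rsp_Zc]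
  exact rk_Zc R

/-- Integer lattices have covolume at least one. -/
theorem one_le_cov {N : Submodule ℤ (V ι)} (hN : N ≤ Zl ι) : 1 ≤ cov N := by
  obtain ⟨v, hv, hs⟩ := (isLat_Zl.sub hN).exists_basis
  have hm : ∀ i, ∃ z, zv z = v i := fun i => exists_zv (hN (hs ▸ Submodule.subset_span ⟨i, rfl⟩))
  choose z hz using hm
  have h1 : cov N = gvol v := by rw [← cov_span hv, hs]
  have h2 : Matrix.gram ℝ v = (Matrix.of fun i j => ∑ k, z i k * z j k).map (Int.cast : ℤ → ℝ) := by
    ext i j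
    rw [Matrix.gram_apply, ← hz i, ← hz j]
    simp [zv, PiLp.inner_apply, mul_comm]
  have h3 : gvol v ^ 2 = (((Matrix.of fun i j => ∑ k, z i k * z j k).det : ℤ) : ℝ) := by
    rw [gvol_sq, h2]
    exact ((Int.castRingHom ℝ).map_det _).symm
  have h4 := gvol_pos hv
  have h5 : (0 : ℝ) < (((Matrix.of fun i j => ∑ k, z i k * z j k).det : ℤ) : ℝ) := by rw [← h3]; positivity
  have h6 : (1 : ℝ) ≤ (((Matrix.of fun i j => ∑ k, z i k * z j k).det : ℤ) : ℝ) := by
    have : (0 : ℤ) < (Matrix.of fun i j => ∑ k, z i k * z j k).det := by exact_mod_cast h5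
    exact_mod_cast this
  rw [h1]
  nlinarith

/-- Coordinate sections of integer lattices. -/
theorem cov_sec_Rc {N : Submodule ℤ (V ι)} (hN : N ≤ Zl ι) (R : Finset ι) :
    cov (sec N (Rc R)) ≤ cov N ∧ rk N + R.card ≤ rk (sec N (Rc R)) + Fintype.card ι := by
  have hZ : Zc R ≤ Zl ι := sec_le _ _
  have e : N ⊓ Zc R = sec N (Rc R) := by
    ext x
    exact ⟨fun h => ⟨h.1, h.2.2⟩, fun h => ⟨h.1, hN h.1, h.2⟩⟩
  have h1 := cov_submod isLat_Zl hN hZ
  have h2 := rk_modular isLat_Zl hN hZ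
  have h3 := one_le_cov (sup_le hN hZ)
  have h4 := rk_mono (sup_le hN hZ)
  rw [e, cov_Zc] at h1
  rw [e, rk_Zc] at h2
  rw [rk_Zl] at h4
  have h5 := cov_pos (sec N (Rc R))
  exact ⟨by nlinarith, by omega⟩

theorem norm_sv_sq (x : ι → Bool) : ‖sv x‖ ^ 2 = Fintype.card ι := by
  rw [EuclideanSpace.real_norm_sq_eq]
  have : ∀ i, (sv x i) ^ 2 = 1 := fun i => by
    cases h : x i <;> simp [sv, zv, sz, sg, h]
  simp [this]

theorem act_zv (B : Matrix ι ι ℤ) (z : ι → ℤ) : act B (zv z) = zv (B *ᵥ z) := by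
  ext i
  simp [act, zv, Matrix.mulVec, dotProduct]

private theorem act_mul (A B : Matrix ι ι ℤ) (x : V ι) : act A (act B x) = act (A * B) x := by
  ext i
  have : (A * B).map (Int.cast : ℤ → ℝ) = A.map (Int.cast : ℤ → ℝ) * B.map (Int.cast : ℤ → ℝ) :=
    Matrix.map_mul (f := Int.castRingHom ℝ)
  simp [act, this]

private theorem act_smul_one (d : ℤ) (x : V ι) : act (d • (1 : Matrix ι ι ℤ)) x = (d : ℝ) • x := by
  have : (d • (1 : Matrix ι ι ℤ)).map (Int.cast : ℤ → ℝ) = (d : ℝ) • (1 : Matrix ι ι ℝ) := by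
    ext i j
    rw [Matrix.map_apply, Matrix.smul_apply, Matrix.smul_apply, Matrix.one_apply, Matrix.one_apply]
    split_ifs <;> simp
  ext i
  show (((d • (1 : Matrix ι ι ℤ)).map (Int.cast : ℤ → ℝ)) *ᵥ x.ofLp) i = _
  rw [this, Matrix.smul_mulVec, Matrix.one_mulVec]
  simp

theorem act_inj {B : Matrix ι ι ℤ} (hB : B.det ≠ 0) {x : V ι} (hx : act B x = 0) : x = 0 := by
  have h := act_mul B.adjugate B x
  rw [hx, map_zero, Matrix.adjugate_mul, act_smul_one] at h
  exact (smul_eq_zero.1 h.symm).resolve_left (by exact_mod_cast hB)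

theorem img_act_le (B : Matrix ι ι ℤ) {N : Submodule ℤ (V ι)} (hN : N ≤ Zl ι) :
    img (act B) N ≤ Zl ι := by
  rintro _ ⟨x, hx, rfl⟩
  obtain ⟨z, rfl⟩ := exists_zv (hN hx)
  show act B (zv z) ∈ Zl ι
  rw [act_zv]
  exact zv_mem _

/-- The integer preimage of a rational subspace has the same rank. -/
theorem rk_sec_comap {B : Matrix ι ι ℤ} (hB : B.det ≠ 0) {N : Submodule ℤ (V ι)}
    (hN : N ≤ Zl ι) : rk (sec (Zl ι) ((rsp N).comap (act B))) = rk N := by
  have hd : (B.det : ℝ) ≠ 0 := by exact_mod_cast hB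
  refine le_antisymm ?_ ?_
  · rw [← ((isLat_Zl.sub (sec_le (Zl ι) ((rsp N).comap (act B)))).img (act B) fun x _ hx => act_inj hB hx).2]
    refine Submodule.finrank_mono (Submodule.span_le.2 ?_)
    rintro _ ⟨x, hx, rfl⟩
    exact hx.2
  · have hi : ∀ x ∈ rsp N, act B.adjugate x = 0 → x = 0 := fun x _ hx => by
      have h := act_mul B B.adjugate x
      rw [hx, map_zero, Matrix.mul_adjugate, act_smul_one] at h
      exact (smul_eq_zero.1 h.symm).resolve_left hd
    rw [← ((isLat_Zl.sub hN).img (act B.adjugate) hi).2]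
    refine rk_mono fun y hy => ⟨img_act_le _ hN hy, ?_⟩
    obtain ⟨x, hx, rfl⟩ := hy
    show act B (act B.adjugate x) ∈ rsp N
    rw [act_mul, Matrix.mul_adjugate, act_smul_one]
    exact Submodule.smul_mem _ _ (mem_rsp hx)

theorem frob_act {B : Matrix ι ι ℤ} (hB : IsSS B) :
    ∑ i, ‖act B (EuclideanSpace.single i (1 : ℝ))‖ ^ 2 = (Fintype.card ι : ℝ) ^ 2 := by
  have : ∀ i, ‖act B (EuclideanSpace.single i (1 : ℝ))‖ ^ 2 = (Fintype.card ι : ℝ) := fun i => by
    rw [EuclideanSpace.real_norm_sq_eq]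
    have : ∀ j, (act B (EuclideanSpace.single i (1 : ℝ)) j) ^ 2 = 1 := fun j => by
      rcases hB.2 j i with h | h <;> simp [act, h]
    simp [this]
  simp [this, sq]

end Int

end Crest.Agent.R152
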