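import Crest.Agent.R152.Lat3A

/-! # Row 152: integer lattices, reduced bases, minimisers, relative reverse Minkowski -/

set_option autoImplicit false
open Matrix Filter
open Crest.FinProb Crest.ProbabilityR.SignMatrix

noncomputable section
namespace Crest.Agent.R152

variable {E F : Type} [NormedAddCommGroup E] [InnerProductSpace ℝ E] [FiniteDimensional ℝ E]
  [NormedAddCommGroup F] [InnerProductSpace ℝ F] [FiniteDimensional ℝ F]

/-- Lattices are discrete: finitely many points in a ball. -/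
theorem IsLat.finite_ball {Λ : Submodule ℤ E} (h : IsLat Λ) (ρ : ℝ) :
    {x : E | x ∈ Λ ∧ ‖x‖ ≤ ρ}.Finite := by
  obtain ⟨k, v, hv, rfl⟩ := h
  obtain ⟨K, -, hK⟩ := (Fintype.linearCombination ℝ v).exists_antilipschitzWith
    (LinearMap.ker_eq_bot.2 (linearIndependent_iff_injective_fintypeLinearCombination.1 hv))
  set M : ℤ := ⌈(K : ℝ) * ρ⌉ with hM
  have hfin : (Set.pi Set.univ fun _ : Fin k => Set.Icc (-M) M).Finite :=
    Set.Finite.pi fun _ => Set.finite_Icc _ _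
  refine (hfin.image fun z => ∑ i, z i • v i).subset ?_
  rintro x ⟨hx, hρ⟩
  obtain ⟨z, rfl⟩ := (Submodule.mem_span_range_iff_exists_fun ℤ).1 hx
  refine ⟨z, fun i _ => ?_, rfl⟩
  have h1 := hK.le_mul_dist (fun i => (z i : ℝ)) 0
  rw [map_zero, dist_zero_right, dist_zero_right, Fintype.linearCombination_apply] at h1
  simp only [Int.cast_smul_eq_zsmul] at h1
  have h2 : ‖(z i : ℝ)‖ ≤ ‖fun i => (z i : ℝ)‖ := norm_le_pi_norm (fun i => (z i : ℝ)) i
  have h3 : |(z i : ℝ)| ≤ (M : ℝ) :=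
    h2.trans (h1.trans ((mul_le_mul_of_nonneg_left hρ K.2).trans (Int.le_ceil _)))
  have h4 : |z i| ≤ M := by exact_mod_cast h3
  exact abs_le.1 h4

/-- a shortest nonzero vector -/
theorem lat3b_shortest {Λ : Submodule ℤ E} (h : IsLat Λ) (hne : Λ ≠ ⊥) :
    ∃ b ∈ Λ, b ≠ 0 ∧ ∀ x ∈ Λ, x ≠ 0 → ‖b‖ ≤ ‖x‖ := by
  obtain ⟨a, ha, ha0⟩ := (Submodule.ne_bot_iff Λ).1 hne
  have hfin : {x : E | (x ∈ Λ ∧ ‖x‖ ≤ ‖a‖) ∧ x ≠ 0}.Finite :=
    (h.finite_ball ‖a‖).subset fun x hx => hx.1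
  obtain ⟨b, hb, hmin⟩ := Set.exists_min_image _ (fun x : E => ‖x‖) hfin ⟨a, ⟨ha, le_rfl⟩, ha0⟩
  refine ⟨b, hb.1.1, hb.2, fun x hx hx0 => ?_⟩
  by_cases hxa : ‖x‖ ≤ ‖a‖
  · exact hmin x ⟨⟨hx, hxa⟩, hx0⟩
  · exact hb.1.2.trans (not_le.1 hxa).le

theorem lat3b_reduced (k : ℕ) : ∀ Λ : Submodule ℤ E, IsLat Λ → rk Λ = k →
    ∃ v : Fin k → E, LinearIndependent ℝ v ∧ Submodule.span ℤ (Set.range v) = Λ ∧
      ∏ i, ‖v i‖ ≤ 2 ^ (k ^ 2) * cov Λ := by
  induction k with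
  | zero =>
    intro Λ _ hk
    rw [eq_bot_of_rk_eq_zero hk]
    exact ⟨Fin.elim0, linearIndependent_empty_type, by simp, by simp [cov_bot]⟩
  | succ k ih =>
    intro Λ h hk
    have hne : Λ ≠ ⊥ := fun e => by rw [e, rk_bot] at hk; omega
    obtain ⟨b, hb, hb0, hmin⟩ := lat3b_shortest h hne
    have hbpos : 0 < ‖b‖ := norm_pos_iff.2 hb0
    have hli : LinearIndependent ℝ fun _ : Fin 1 => b := linearIndependent_unique_iff.2 hb0
    set N : Submodule ℤ E := Submodule.span ℤ (Set.range fun _ : Fin 1 => b) with hN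
    have hNΛ : N ≤ Λ := Submodule.span_le.2 (by rintro _ ⟨_, rfl⟩; exact hb)
    have hbN : b ∈ N := Submodule.subset_span ⟨0, rfl⟩
    have hr : ∀ x, x ∈ rsp N → ∃ t : ℝ, t • b = x := by
      intro x hx
      rw [hN, rsp_span, Set.range_const] at hx
      exact Submodule.mem_span_singleton.1 hx
    have hnorm : ∀ t : ℝ, ‖(t - round t) • b‖ ≤ ‖b‖ / 2 := by
      intro t
      rw [norm_smul, Real.norm_eq_abs]
      have := abs_sub_round t
      nlinarith
    have hsec : sec Λ (rsp N) = N := by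
      refine le_antisymm (fun x hx => ?_) fun x hx => mem_sec.2 ⟨hNΛ hx, mem_rsp hx⟩
      obtain ⟨hx1, hx2⟩ := mem_sec.1 hx
      obtain ⟨t, rfl⟩ := hr x hx2
      have e : (t - round t) • b = t • b - round t • b := by
        rw [sub_smul, Int.cast_smul_eq_zsmul]
      have h0 : (t - round t) • b = 0 := by
        by_contra h0
        have h1 := hmin _ (by rw [e]; exact Λ.sub_mem hx1 (Λ.smul_mem _ hb)) h0
        have := hnorm t
        linarith
      rw [e, sub_eq_zero] at h0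
      rw [h0]
      exact N.smul_mem _ hbN
    obtain ⟨p1, p2, p3⟩ := cov_prj h hNΛ
    have hrN : rk N = 1 := by rw [hN, rk_span hli]; simp
    have hcN : cov N = ‖b‖ := by rw [hN, cov_span hli, gvol_single]
    rw [hsec, hcN] at p3
    obtain ⟨w, hw, hwspan, hwle⟩ := ih _ p1 (by omega)
    have hlift : ∀ i, ∃ y ∈ Λ, prj (rsp N) y = w i ∧ ‖y‖ ≤ 2 * ‖w i‖ := by
      intro i
      have hwi : w i ∈ img (prj (rsp N)) Λ := hwspan ▸ Submodule.subset_span ⟨i, rfl⟩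
      obtain ⟨y, hy, hyw⟩ := mem_img.1 hwi
      obtain ⟨t, ht⟩ := hr _ (sub_prj_mem (rsp N) y)
      have hp : prj (rsp N) (y - round t • b) = w i := by
        rw [map_sub, hyw, prj_eq_zero_iff.2 (mem_rsp (N.smul_mem _ hbN)), sub_zero]
      have hmem : y - round t • b ∈ Λ := Λ.sub_mem hy (Λ.smul_mem _ hb)
      refine ⟨y - round t • b, hmem, hp, ?_⟩
      have h0 : y - round t • b ≠ 0 := fun e => hw.ne_zero i (by rw [← hp, e, map_zero])
      have h1 := hmin _ hmem h0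
      have e : y - round t • b = w i + (t - round t) • b := by
        rw [sub_smul, Int.cast_smul_eq_zsmul, ht, hyw]
        abel
      have h2 := norm_add_le (w i) ((t - round t) • b)
      rw [← e] at h2
      have := hnorm t
      linarith
    choose y hy hyw hyle using hlift
    have hspan : Submodule.span ℤ (Set.range (Fin.cons b y : Fin (k + 1) → E)) = Λ := by
      refine le_antisymm (Submodule.span_le.2 ?_) fun x hx => ?_
      · rintro _ ⟨i, rfl⟩
        refine Fin.cases ?_ (fun j => ?_) i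
        · exact hb
        · exact hy j
      · have h1 : prj (rsp N) x ∈ img (prj (rsp N)) (Submodule.span ℤ (Set.range y)) := by
          have h2 : prj (rsp N) x ∈ img (prj (rsp N)) Λ := mem_img.2 ⟨x, hx, rfl⟩
          rw [← hwspan] at h2
          refine Submodule.span_le.2 ?_ h2
          rintro _ ⟨i, rfl⟩
          exact mem_img.2 ⟨y i, Submodule.subset_span ⟨i, rfl⟩, hyw i⟩
        obtain ⟨u, hu, hux⟩ := mem_img.1 h1
        have huΛ : u ∈ Λ := Submodule.span_le.2 (by rintro _ ⟨i, rfl⟩; exact hy i) hu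
        have h3 : x - u ∈ N := by
          rw [← hsec]
          exact mem_sec.2 ⟨Λ.sub_mem hx huΛ, prj_eq_zero_iff.1 (by rw [map_sub, hux, sub_self])⟩
        have h4 : N ≤ Submodule.span ℤ (Set.range (Fin.cons b y : Fin (k + 1) → E)) :=
          Submodule.span_mono (by rintro _ ⟨_, rfl⟩; exact ⟨0, rfl⟩)
        have h5 : Submodule.span ℤ (Set.range y) ≤
            Submodule.span ℤ (Set.range (Fin.cons b y : Fin (k + 1) → E)) :=
          Submodule.span_mono (by rintro _ ⟨i, rfl⟩; exact ⟨i.succ, rfl⟩)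
        have := Submodule.add_mem _ (h4 h3) (h5 hu)
        rwa [sub_add_cancel] at this
    refine ⟨Fin.cons b y, ?_, hspan, ?_⟩
    · rw [linearIndependent_iff_card_eq_finrank_span, Fintype.card_fin]
      have h1 := hk
      rw [rk, ← hspan, rsp_span] at h1
      exact h1.symm
    · rw [Fin.prod_univ_succ]
      simp only [Fin.cons_zero, Fin.cons_succ]
      have h1 : ∏ i, ‖y i‖ ≤ 2 ^ k * ∏ i, ‖w i‖ := by
        refine (Finset.prod_le_prod (fun i _ => norm_nonneg _) fun i _ => hyle i).trans_eq ?_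
        rw [Finset.prod_mul_distrib]
        simp
      have h2 : (2 : ℝ) ^ k * 2 ^ (k ^ 2) ≤ 2 ^ ((k + 1) ^ 2) := by
        rw [← pow_add]
        exact pow_le_pow_right₀ one_le_two (by nlinarith)
      have h3 := cov_pos (img (prj (rsp N)) Λ)
      calc ‖b‖ * ∏ i, ‖y i‖ ≤ ‖b‖ * (2 ^ k * (2 ^ (k ^ 2) * cov (img (prj (rsp N)) Λ))) := by
            gcongr
            exact h1.trans (by gcongr)
        _ = (2 ^ k * 2 ^ (k ^ 2)) * (‖b‖ * cov (img (prj (rsp N)) Λ)) := by ring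
        _ ≤ 2 ^ ((k + 1) ^ 2) * cov Λ := by
            rw [p3]
            gcongr

/-- Hermite-reduced bases. -/
theorem exists_reduced {Λ : Submodule ℤ E} (h : IsLat Λ) :
    ∃ v : Fin (rk Λ) → E, LinearIndependent ℝ v ∧ Submodule.span ℤ (Set.range v) = Λ ∧
      ∏ i, ‖v i‖ ≤ 2 ^ (rk Λ ^ 2) * cov Λ :=
  lat3b_reduced _ Λ h rfl

/-- Finitely many sublattices of bounded covolume. -/
theorem finite_sublat {Λ : Submodule ℤ E} (h : IsLat Λ) (C : ℝ) :
    {N : Submodule ℤ E | N ≤ Λ ∧ cov N ≤ C}.Finite := by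
  obtain ⟨l, hl0, hl1, hl⟩ : ∃ l : ℝ, 0 < l ∧ l ≤ 1 ∧ ∀ x ∈ Λ, x ≠ 0 → l ≤ ‖x‖ := by
    by_cases hne : Λ = ⊥
    · exact ⟨1, one_pos, le_rfl, fun x hx hx0 => absurd (by simpa [hne] using hx) hx0⟩
    · obtain ⟨b, -, hb0, hmin⟩ := lat3b_shortest h hne
      exact ⟨min ‖b‖ 1, lt_min (norm_pos_iff.2 hb0) one_pos, min_le_right _ _,
        fun x hx hx0 => (min_le_left _ _).trans (hmin x hx hx0)⟩
  refine ((h.finite_ball (2 ^ (rk Λ ^ 2) * C / l ^ rk Λ)).finite_subsets.image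
    (Submodule.span ℤ)).subset ?_
  rintro N ⟨hN, hC⟩
  obtain ⟨v, hv, hspan, hle⟩ := exists_reduced (h.sub hN)
  have hvΛ : ∀ i, v i ∈ Λ := fun i => hN (hspan ▸ Submodule.subset_span ⟨i, rfl⟩)
  refine ⟨Set.range v, ?_, hspan⟩
  rintro _ ⟨j, rfl⟩
  refine ⟨hvΛ j, ?_⟩
  rw [le_div_iff₀ (pow_pos hl0 _)]
  have hr := rk_mono hN
  have h1 : l ^ rk Λ ≤ ∏ i ∈ Finset.univ.erase j, ‖v i‖ := by
    refine le_trans ?_ (Finset.prod_le_prod (f := fun _ => l) (fun _ _ => hl0.le)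
      fun i _ => hl _ (hvΛ i) (hv.ne_zero i))
    rw [Finset.prod_const]
    refine pow_le_pow_of_le_one hl0.le hl1 ?_
    refine (Finset.card_le_card (Finset.erase_subset _ _)).trans ?_
    simpa using hr
  have h2 := cov_pos N
  calc ‖v j‖ * l ^ rk Λ ≤ ‖v j‖ * ∏ i ∈ Finset.univ.erase j, ‖v i‖ := by gcongr
    _ = ∏ i, ‖v i‖ := Finset.mul_prod_erase _ (fun i => ‖v i‖) (Finset.mem_univ j)
    _ ≤ 2 ^ (rk N ^ 2) * cov N := hle
    _ ≤ 2 ^ (rk Λ ^ 2) * C := by
        gcongr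
        exact one_le_two

theorem exists_isMin {Λ N₀ : Submodule ℤ E} (h : IsLat Λ) (h₀ : N₀ ≤ Λ) (lam : ℝ) :
    ∃ N, IsMin lam N₀ Λ N := by
  have hfin : {N : Submodule ℤ E | N₀ ≤ N ∧ N ≤ Λ ∧ hn lam N ≤ hn lam N₀}.Finite := by
    refine (finite_sublat h (Real.exp (hn lam N₀ + |lam| * rk Λ))).subset ?_
    rintro N ⟨-, h1, h2⟩
    refine ⟨h1, ?_⟩
    rw [← Real.log_le_iff_le_exp (cov_pos N)]
    have h3 : (rk N : ℝ) ≤ rk Λ := by exact_mod_cast rk_mono h1
    have h4 : lam * rk N ≤ |lam| * rk Λ :=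
      mul_le_mul (le_abs_self lam) h3 (Nat.cast_nonneg _) (abs_nonneg _)
    have h5 : hn lam N = Real.log (cov N) - lam * rk N := rfl
    linarith
  obtain ⟨N, hN, hmin⟩ := Set.exists_min_image _ (hn lam) hfin ⟨N₀, le_rfl, h₀, le_rfl⟩
  refine ⟨N, hN.1, hN.2.1, fun N' h1 h2 => ?_⟩
  by_cases h3 : hn lam N' ≤ hn lam N₀
  · exact hmin N' ⟨h1, h2, h3⟩
  · exact hN.2.2.trans (not_le.1 h3).le

end Crest.Agent.R152
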