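import Crest.Agent.R152.Lat3B

/-! # Row 152: integer lattices, reduced bases, minimisers, relative reverse Minkowski -/

set_option autoImplicit false
open Matrix Filter
open Crest.FinProb Crest.ProbabilityR.SignMatrix

noncomputable section
namespace Crest.Agent.R152

variable {E F : Type} [NormedAddCommGroup E] [InnerProductSpace ℝ E] [FiniteDimensional ℝ E]
  [NormedAddCommGroup F] [InnerProductSpace ℝ F] [FiniteDimensional ℝ F]

private theorem Lat3C_le_sec {N N' : Submodule ℤ E} (hN : N ≤ N') : N ≤ sec N' (rsp N) :=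
  fun _ hx => mem_sec.2 ⟨hN hx, mem_rsp hx⟩

private theorem Lat3C_rk_sec {N N' : Submodule ℤ E} (hN : N ≤ N') :
    rk (sec N' (rsp N)) = rk N := by
  unfold rk
  rw [rsp_sec_rsp hN]

/-- Sublattices of the quotient by a minimiser have slope at least `lam`. -/
theorem IsMin.quot {Λ N₀ N : Submodule ℤ E} {lam : ℝ} (h : IsLat Λ) (hm : IsMin lam N₀ Λ N)
    {M : Submodule ℤ E} (hM : M ≤ img (prj (rsp N)) Λ) : Real.exp (lam * rk M) ≤ cov M := by
  set N₁ : Submodule ℤ E := Λ ⊓ M.comap ((prj (rsp N)).restrictScalars ℤ) with hN₁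
  have h1 : N₁ ≤ Λ := inf_le_left
  have h2 : N ≤ N₁ := fun x hx => ⟨hm.2.1 hx, by
    change prj (rsp N) x ∈ M
    rw [prj_eq_zero_iff.2 (mem_rsp hx)]
    exact M.zero_mem⟩
  have h3 : img (prj (rsp N)) N₁ = M := by
    refine le_antisymm (fun y hy => ?_) fun y hy => ?_
    · obtain ⟨x, hx, rfl⟩ := mem_img.1 hy
      exact hx.2
    · obtain ⟨x, hx, rfl⟩ := mem_img.1 (hM hy)
      exact mem_img.2 ⟨x, ⟨hx, hy⟩, rfl⟩
  have hl := h.sub h1
  obtain ⟨-, h4, h5⟩ := cov_prj hl h2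
  rw [h3] at h4 h5
  have h6 : cov (sec N₁ (rsp N)) ≤ cov N :=
    cov_le_of_rk (hl.sub (sec_le _ _)) (Lat3C_le_sec h2) (Lat3C_rk_sec h2).le
  have h7 := hm.2.2 N₁ (hm.1.trans h2) h1
  unfold hn at h7
  rw [h5, Real.log_mul (cov_pos _).ne' (cov_pos _).ne', ← h4] at h7
  have h8 := Real.log_le_log (cov_pos _) h6
  rw [← Real.le_log_iff_exp_le (cov_pos _)]
  push_cast at h7
  linarith

/-- Relative reduced basis: over a minimiser `N` of `hn (-μ)`, any `N' ⊇ N` is spanned by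
vectors close to the span of `N`. -/
theorem exists_rel_short {Λ N₀ N N' : Submodule ℤ E} {μ : ℝ} (hμ : 0 ≤ μ) (h : IsLat Λ)
    (hm : IsMin (-μ) N₀ Λ N) (hN : N ≤ N') (hN' : N' ≤ Λ) :
    ∃ v : Fin (rk N' - rk N) → E, (∀ i, v i ∈ N') ∧
      rsp N' = rsp N ⊔ Submodule.span ℝ (Set.range v) ∧
      ∀ i, ‖prj (rsp N) (v i)‖ ≤
        2 ^ ((rk N' - rk N) ^ 2) * (cov N' / cov N) * Real.exp (μ * (rk N' - rk N : ℕ)) := by
  have hl := h.sub hN'
  obtain ⟨hL, h1, h2⟩ := cov_prj hl hN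
  set L := img (prj (rsp N)) N' with hLdef
  have hk : rk N' - rk N = rk L := by omega
  rw [hk]
  have h3 : cov N ≤ cov (sec N' (rsp N)) := by
    have := hm.2.2 _ (hm.1.trans (Lat3C_le_sec hN)) ((sec_le _ _).trans hN')
    unfold hn at this
    rw [Lat3C_rk_sec hN] at this
    exact (Real.log_le_log_iff (cov_pos _) (cov_pos _)).1 (by linarith)
  have h4 : cov L ≤ cov N' / cov N := by
    rw [le_div_iff₀ (cov_pos _), h2, mul_comm]
    exact mul_le_mul_of_nonneg_right h3 (cov_pos _).le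
  obtain ⟨b, hb, hbs, hbp⟩ := exists_reduced hL
  have hbL : ∀ i, b i ∈ L := fun i => hbs ▸ Submodule.subset_span ⟨i, rfl⟩
  choose v hv hvb using fun i => mem_img.1 (hbL i)
  refine ⟨v, hv, le_antisymm ?_ ?_, fun i => ?_⟩
  · refine Submodule.span_le.2 fun x hx => ?_
    have h5 : prj (rsp N) x ∈ rsp L := mem_rsp (mem_img.2 ⟨x, hx, rfl⟩)
    rw [← hbs, rsp_span] at h5
    have h6 : Submodule.span ℝ (Set.range b) =
        (Submodule.span ℝ (Set.range v)).map (prj (rsp N)) := by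
      rw [Submodule.map_span, ← Set.range_comp]
      congr 2
      exact funext fun i => (hvb i).symm
    rw [h6] at h5
    obtain ⟨y, hy, hxy⟩ := h5
    have h7 : x - y ∈ rsp N := by rw [← prj_eq_zero_iff, map_sub, hxy, sub_self]
    have := Submodule.add_mem_sup h7 hy
    simpa using this
  · refine sup_le (rsp_mono hN) (Submodule.span_le.2 ?_)
    rintro _ ⟨i, rfl⟩
    exact mem_rsp (hv i)
  · rw [hvb]
    have hb' : LinearIndependent ℝ fun j : {j // j ≠ i} => b j := hb.comp _ Subtype.val_injective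
    have hM : Submodule.span ℤ (Set.range fun j : {j // j ≠ i} => b j) ≤ img (prj (rsp N)) Λ := by
      refine Submodule.span_le.2 ?_
      rintro _ ⟨j, rfl⟩
      exact mem_img.2 ⟨v j, hN' (hv j), hvb j⟩
    have h5 := hm.quot h hM
    rw [cov_span hb', rk_span hb'] at h5
    have h6 : (Fintype.card {j // j ≠ i} : ℝ) ≤ rk L := by
      have := Fintype.card_subtype_le fun j : Fin (rk L) => j ≠ i
      rw [Fintype.card_fin] at this
      exact_mod_cast this
    have h7 : Real.exp (-(μ * rk L)) ≤ ∏ j : {j // j ≠ i}, ‖b j‖ := by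
      refine le_trans (Real.exp_le_exp.2 ?_) (h5.trans (gvol_le_prod _))
      nlinarith
    have h8 : ‖b i‖ * ∏ j : {j // j ≠ i}, ‖b j‖ = ∏ j, ‖b j‖ :=
      (Fintype.prod_eq_mul_prod_subtype_ne (fun j => ‖b j‖) i).symm
    have h9 : ‖b i‖ * Real.exp (-(μ * rk L)) ≤ 2 ^ (rk L ^ 2) * (cov N' / cov N) :=
      (mul_le_mul_of_nonneg_left h7 (norm_nonneg _)).trans
        (h8.le.trans (hbp.trans (mul_le_mul_of_nonneg_left h4 (by positivity))))
    rwa [Real.exp_neg, ← div_eq_mul_inv, div_le_iff₀ (Real.exp_pos _)] at h9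

theorem rmRel_of_rm (h : RMStmt) : RMRel := by
  classical
  intro ε δ hε hδ
  have ht : Tendsto (fun n : ℕ => 2 * n) atTop atTop :=
    tendsto_id.const_mul_atTop' (by norm_num)
  filter_upwards [ht.eventually (h (min ε (1 / 4)) (δ / 2) (by positivity) (by positivity)),
    eventually_ge_atTop 1] with n hn hn1
  intro E _ _ _ Λ N₀ N K hΛ hrk hK hm
  obtain ⟨hL, h1, -⟩ := cov_prj hΛ hm.2.1
  set L := img (prj (rsp N)) Λ with hLdef
  let f : E →ₗ[ℝ] E := K⁻¹ • LinearMap.id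
  let g : E →ₗ[ℝ] E := K • LinearMap.id
  have hf : ∀ x, f x = K⁻¹ • x := fun _ => rfl
  have hg : ∀ x, g x = K • x := fun _ => rfl
  have hfinj : Function.Injective f := fun x y hxy => by
    rw [hf, hf] at hxy
    exact smul_right_injective E (inv_ne_zero hK.ne') hxy
  obtain ⟨hL', hrk'⟩ := hL.img f fun x _ hx => hfinj (by rw [hx, map_zero])
  have hsub : ∀ M, M ≤ img f L → 1 ≤ cov M := by
    intro M hM
    have hMl := hL'.sub hM
    have h2 : img g M ≤ L := by
      intro y hy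
      obtain ⟨x, hx, rfl⟩ := mem_img.1 hy
      obtain ⟨z, hz, rfl⟩ := mem_img.1 (hM hx)
      rwa [hg, hf, smul_inv_smul₀ hK.ne']
    have h3 := hm.quot hΛ h2
    have h4 := (hMl.img g fun x _ hx => by
      rw [hg] at hx
      exact (smul_eq_zero.1 hx).resolve_left hK.ne').2
    rw [cov_img_of_norm hMl g hK fun x _ => by rw [hg, norm_smul, Real.norm_of_nonneg hK.le], h4,
      mul_comm, Real.exp_nat_mul, Real.exp_log hK] at h3
    exact (le_mul_iff_one_le_right (pow_pos hK _)).1 h3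
  have hfin := hL.finite_ball (K * (n : ℝ) ^ (1 / 2 - ε))
  refine ⟨hfin.toFinset, ?_, fun v hv ⟨w, hw, hvw⟩ => ⟨prj (rsp N) v, ?_, sub_prj_mem _ _⟩⟩
  · have h2 := hn E (img f L) hL' (by omega) hsub (hfin.toFinset.image f) ?_
    · rw [Finset.card_image_of_injective _ hfinj] at h2
      refine h2.trans (le_of_eq ?_)
      push_cast
      ring_nf
    · intro y hy
      obtain ⟨x, hx, rfl⟩ := Finset.mem_image.1 hy
      obtain ⟨hx1, hx2⟩ := hfin.mem_toFinset.1 hx
      refine ⟨mem_img.2 ⟨x, hx1, rfl⟩, ?_⟩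
      have hn1' : (1 : ℝ) ≤ n := by exact_mod_cast hn1
      rw [hf, norm_smul, norm_inv, Real.norm_of_nonneg hK.le, inv_mul_le_iff₀ hK]
      refine hx2.trans (mul_le_mul_of_nonneg_left ?_ hK.le)
      refine (Real.rpow_le_rpow_of_exponent_le hn1'
        (show 1 / 2 - ε ≤ 1 / 2 - min ε (1 / 4) by linarith [min_le_left ε (1 / 4)])).trans ?_
      refine Real.rpow_le_rpow (by linarith) ?_ (by linarith [min_le_right ε (1 / 4)])
      push_cast
      linarith
  · exact hfin.mem_toFinset.2 ⟨mem_img.2 ⟨v, hv, rfl⟩, (norm_prj_le _ _ hw).trans hvw⟩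

end Crest.Agent.R152
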