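import Crest.Agent.R152.PosDefs

/-! # Row 152: Lewis' lemma for the Rademacher `ℓ`-norm (DESIGN.md, RM7 a) -/

set_option autoImplicit false
open Matrix Filter MeasureTheory Topology
open Crest.Agent.Lib.BiasedCube

noncomputable section
namespace Crest.Agent.R152

theorem posa_le_sum {r : ℕ} (N : Seminorm ℝ (Fin r → ℝ)) (y : Fin r → ℝ) :
    N y ≤ ∑ i, |y i| * N (Pi.single i 1) := by
  have e : y = ∑ i, y i • (Pi.single i 1 : Fin r → ℝ) := by
    ext j
    simp [Finset.sum_apply, Pi.single_apply]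
  conv_lhs => rw [e]
  refine (Finset.le_sum_of_subadditive N (map_zero N).le (map_add_le_add N) _ _).trans (le_of_eq ?_)
  refine Finset.sum_congr rfl fun i _ => ?_
  rw [map_smul_eq_mul, Real.norm_eq_abs]

theorem posa_cont {r : ℕ} (N : Seminorm ℝ (Fin r → ℝ)) : Continuous N := by
  refine Seminorm.continuous_of_le (q := (Real.toNNReal (∑ i, N (Pi.single i 1))) •
    normSeminorm ℝ (Fin r → ℝ)) ?_ fun y => ?_
  · exact continuous_norm.const_smul (Real.toNNReal (∑ i, N (Pi.single i 1)))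
  · refine (posa_le_sum N y).trans ?_
    change _ ≤ (Real.toNNReal (∑ i, N (Pi.single i 1)) : ℝ) * ‖y‖
    rw [Real.coe_toNNReal _ (Finset.sum_nonneg fun i _ => apply_nonneg N _), Finset.sum_mul]
    refine Finset.sum_le_sum fun i _ => ?_
    rw [mul_comm]
    exact mul_le_mul_of_nonneg_left (norm_le_pi_norm y i) (apply_nonneg N _)

theorem posa_lower {r : ℕ} (N : Seminorm ℝ (Fin r → ℝ)) (hN : ∀ y, N y = 0 → y = 0) :
    ∃ c : ℝ, 0 ≤ c ∧ ∀ y, ‖y‖ ≤ c * N y := by
  rcases (Metric.sphere (0 : Fin r → ℝ) 1).eq_empty_or_nonempty with h | h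
  · refine ⟨0, le_rfl, fun y => ?_⟩
    by_contra hy
    have hy' : 0 < ‖y‖ := by simpa using hy
    have : ‖y‖⁻¹ • y ∈ Metric.sphere (0 : Fin r → ℝ) 1 := by
      simp [norm_smul, hy'.ne']
    rw [h] at this
    exact this
  · obtain ⟨z, hz, hmin⟩ := (isCompact_sphere (0 : Fin r → ℝ) 1).exists_isMinOn h
      (posa_cont N).continuousOn
    have hz0 : 0 < N z := by
      refine lt_of_le_of_ne (apply_nonneg N z) fun h0 => ?_
      have := hN z h0.symm
      simp [this] at hz
    refine ⟨(N z)⁻¹, by positivity, fun y => ?_⟩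
    rcases (norm_nonneg y).eq_or_lt with hy | hy
    · rw [← hy]
      exact mul_nonneg (by positivity) (apply_nonneg N y)
    · have h1 : ‖y‖⁻¹ • y ∈ Metric.sphere (0 : Fin r → ℝ) 1 := by
        simp [norm_smul, hy.ne']
      have h2 : N z ≤ N (‖y‖⁻¹ • y) := hmin h1
      rw [map_smul_eq_mul, norm_inv, norm_norm, le_inv_mul_iff₀ hy] at h2
      rw [le_inv_mul_iff₀ hz0, mul_comm]
      exact h2

theorem posa_col {r : ℕ} (N : Seminorm ℝ (Fin r → ℝ)) (T : Matrix (Fin r) (Fin r) ℝ) (j : Fin r) :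
    N (T *ᵥ Pi.single j 1) ≤ Ex (1 / 2) (fun x => N (T *ᵥ sr x)) := by
  rw [Ex_split _ j, ← Ex_const (ι := Fin r) (1 / 2) (N (T *ᵥ Pi.single j 1))]
  refine Ex_mono (by norm_num) (by norm_num) fun x => ?_
  have e : (2 : ℝ) • (Pi.single j 1 : Fin r → ℝ) =
      sr (Function.update x j true) - sr (Function.update x j false) := by
    ext i
    by_cases h : i = j
    · subst h
      simp [sr, sg]
      norm_num
    · simp [sr, h]
  have h1 := map_sub_le_add N (T *ᵥ sr (Function.update x j true))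
    (T *ᵥ sr (Function.update x j false))
  rw [← Matrix.mulVec_sub, ← e, Matrix.mulVec_smul, map_smul_eq_mul, Real.norm_ofNat] at h1
  linarith

theorem posa_deriv {r : ℕ} (S : Matrix (Fin r) (Fin r) ℝ) {m : ℝ}
    (h : ∀ s : ℝ, 0 < s → (1 + s • S).det ≤ (1 + s * m) ^ r) : S.trace ≤ r * m := by
  set P := (det (1 + (Polynomial.X : Polynomial ℝ) • S.map Polynomial.C)).divX.divX with hP
  have h1 : HasDerivAt (fun s : ℝ => (1 + s * m) ^ r - (1 + S.trace * s + P.eval s * s ^ 2))
      (r * m - S.trace) 0 := by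
    have a1 : HasDerivAt (fun s : ℝ => 1 + s * m) m 0 := by
      simpa using ((hasDerivAt_id (0 : ℝ)).mul_const m).const_add 1
    have a2 := a1.pow r
    have a3 : HasDerivAt (fun s : ℝ => 1 + S.trace * s) S.trace 0 := by
      simpa using ((hasDerivAt_id (0 : ℝ)).const_mul S.trace).const_add 1
    have a4 := (P.hasDerivAt 0).mul (hasDerivAt_pow 2 (0 : ℝ))
    have a5 := a2.sub (a3.add a4)
    refine HasDerivAt.congr_deriv a5 ?_
    simp
  have h2 := h1.tendsto_slope_zero_right
  have h3 : 0 ≤ r * m - S.trace := by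
    refine ge_of_tendsto h2 ?_
    filter_upwards [self_mem_nhdsWithin] with s hs
    have hs' : 0 < s := hs
    have h4 := h s hs'
    rw [Matrix.det_one_add_smul] at h4
    simp only [zero_add, zero_mul, add_zero, one_pow, mul_zero, smul_eq_mul]
    refine mul_nonneg (inv_nonneg.2 hs'.le) ?_
    simp only [ne_eq, OfNat.ofNat_ne_zero, not_false_eq_true, zero_pow, mul_zero, add_zero,
      sub_self, sub_zero]
    linarith
  linarith

theorem lewis {r : ℕ} (N : Seminorm ℝ (Fin r → ℝ)) (hN : ∀ y, N y = 0 → y = 0) :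
    ∃ T : Matrix (Fin r) (Fin r) ℝ, 0 < T.det ∧ Ex (1 / 2) (fun x => N (T *ᵥ sr x)) ≤ 1 ∧
      ∀ S : Matrix (Fin r) (Fin r) ℝ,
        S.trace ≤ r * Ex (1 / 2) (fun x => N (T *ᵥ (S *ᵥ sr x))) := by
  obtain ⟨c, hc0, hc⟩ := posa_lower N hN
  set l : Matrix (Fin r) (Fin r) ℝ → ℝ := fun T => Ex (1 / 2) (fun x => N (T *ᵥ sr x)) with hl
  have l0 : ∀ T, 0 ≤ l T := fun T =>
    Ex_nonneg (by norm_num) (by norm_num) fun x => apply_nonneg N _
  have lsmul : ∀ (t : ℝ) T, 0 ≤ t → l (t • T) = t * l T := by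
    intro t T ht
    simp only [hl]
    rw [← Ex_const_mul]
    refine Ex_congr _ fun x => ?_
    rw [Matrix.smul_mulVec, map_smul_eq_mul, Real.norm_of_nonneg ht]
  have ladd : ∀ A B, l (A + B) ≤ l A + l B := by
    intro A B
    simp only [hl]
    rw [← Ex_add]
    refine Ex_mono (by norm_num) (by norm_num) fun x => ?_
    rw [Matrix.add_mulVec]
    exact map_add_le_add N _ _
  have lcont : Continuous l := by
    simp only [hl, Ex]
    refine continuous_finsetSum _ fun x _ => continuous_const.mul ((posa_cont N).comp ?_)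
    exact continuous_id.matrix_mulVec continuous_const
  have hK : IsCompact {T | l T ≤ 1} := by
    have h1 : IsCompact (Set.pi Set.univ fun _ : Fin r => Set.pi Set.univ fun _ : Fin r =>
        Set.Icc (-c) c) := isCompact_univ_pi fun _ => isCompact_univ_pi fun _ => isCompact_Icc
    refine h1.of_isClosed_subset (isClosed_le lcont continuous_const) ?_
    intro T hT i _ j _
    have h2 := posa_col N T j
    have h3 := hc (T *ᵥ Pi.single j 1)
    have h4 := norm_le_pi_norm (T *ᵥ Pi.single j (1 : ℝ)) i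
    have h5 : (T *ᵥ Pi.single j (1 : ℝ)) i = T i j := by simp
    rw [h5, Real.norm_eq_abs] at h4
    have h6 : l T ≤ 1 := hT
    have h7 : c * N (T *ᵥ Pi.single j 1) ≤ c * 1 :=
      mul_le_mul_of_nonneg_left (h2.trans h6) hc0
    exact abs_le.1 (by linarith)
  have hmem : ∀ (A : Matrix (Fin r) (Fin r) ℝ) (t : ℝ), 0 < t → l A ≤ t → t⁻¹ • A ∈ {T | l T ≤ 1} := by
    intro A t ht h
    change l _ ≤ 1
    rw [lsmul _ _ (inv_nonneg.2 ht.le), inv_mul_le_iff₀ ht, mul_one]
    exact h
  have h1 : 0 < l 1 + 1 := by linarith [l0 1]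
  have h2 := hmem 1 _ h1 (by linarith)
  obtain ⟨T, hT, hmax⟩ := hK.exists_isMaxOn ⟨_, h2⟩
    (f := fun T => T.det) (continuous_id.matrix_det).continuousOn
  have hT1 : l T ≤ 1 := hT
  have hdet : 0 < T.det := by
    refine lt_of_lt_of_le ?_ (hmax h2)
    simp only [Matrix.det_smul, Matrix.det_one, mul_one]
    positivity
  refine ⟨T, hdet, hT1, fun S => ?_⟩
  simp only [Matrix.mulVec_mulVec]
  refine posa_deriv S (m := l (T * S)) fun s hs => ?_
  have h3 : 0 < 1 + s * l (T * S) := by nlinarith [l0 (T * S)]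
  have h4 : l (T * (1 + s • S)) ≤ 1 + s * l (T * S) := by
    rw [mul_add, mul_one, Matrix.mul_smul]
    refine (ladd _ _).trans ?_
    rw [lsmul _ _ hs.le]
    linarith
  have h5 : ((1 + s * l (T * S))⁻¹ • (T * (1 + s • S))).det ≤ T.det := hmax (hmem _ _ h3 h4)
  rw [Matrix.det_smul, Matrix.det_mul, Fintype.card_fin, inv_pow,
    inv_mul_le_iff₀ (pow_pos h3 r), mul_comm] at h5
  exact le_of_mul_le_mul_right h5 hdet

/-- Consequences of the Lewis position: comparison with `ℓ¹` and `ℓ^∞`. -/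
theorem lewis_compare {r : ℕ} (N : Seminorm ℝ (Fin r → ℝ))
    (h1 : Ex (1 / 2) (fun x => N (sr x)) ≤ 1)
    (h2 : ∀ S : Matrix (Fin r) (Fin r) ℝ, S.trace ≤ r * Ex (1 / 2) (fun x => N (S *ᵥ sr x))) :
    (∀ y, N y ≤ ∑ i, |y i|) ∧ ∀ y i, |y i| ≤ r * N y := by
  constructor
  · intro y
    refine (posa_le_sum N y).trans (Finset.sum_le_sum fun i _ => ?_)
    have h3 := posa_col N 1 i
    simp only [Matrix.one_mulVec] at h3
    exact mul_le_of_le_one_right (abs_nonneg _) (h3.trans h1)
  · intro y i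
    have key : ∀ c : ℝ, |c| = 1 → y i * c ≤ r * N y := by
      intro c hc
      have h3 := h2 (vecMulVec y (Pi.single i c))
      have h4 : ∀ x, N (vecMulVec y (Pi.single i c) *ᵥ sr x) = N y := by
        intro x
        have e : vecMulVec y (Pi.single i c) *ᵥ sr x = (c * sr x i) • y := by
          rw [Matrix.vecMulVec_mulVec]
          ext k
          simp [mul_comm]
        have e2 : |sr x i| = 1 := by
          simp only [sr, sg]
          split_ifs <;> simp
        rw [e, map_smul_eq_mul, Real.norm_eq_abs, abs_mul, hc, e2, one_mul, one_mul]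
      simp only [h4, Ex_const] at h3
      rw [Matrix.trace_vecMulVec] at h3
      simpa using h3
    have a1 := key 1 abs_one
    have a2 := key (-1) (by simp)
    rw [abs_le]
    constructor <;> linarith

end Crest.Agent.R152
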