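import Crest.Agent.R152.Defs
import Crest.Agent.Lib.BiasedCube.Basic

/-! # Row 152: definitions for the position lemma (DESIGN.md, RM7) -/

set_option autoImplicit false
open Matrix Filter MeasureTheory Topology
open Crest.Agent.Lib.BiasedCube

noncomputable section
namespace Crest.Agent.R152

/-- Real sign vector. -/
def sr {r : ℕ} (x : Fin r → Bool) : Fin r → ℝ := fun i => (sg (x i) : ℝ)

/-- The matrix `E[f(ε) εᵀ]` of the Rademacher projection of `f`. -/
def radM {r : ℕ} (f : (Fin r → Bool) → (Fin r → ℝ)) : Matrix (Fin r) (Fin r) ℝ :=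
  Matrix.of fun i j => Ex (1 / 2) (fun y => f y i * sr y j)

end Crest.Agent.R152
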