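import Crest.Agent.R152.Defs
import Crest.Agent.Lib.BiasedCube.Hyper

/-! # Row 152: basic probability -/

set_option autoImplicit false
open Matrix Filter MeasureTheory
open Crest.FinProb Crest.ProbabilityR.SignMatrix Crest.Agent.Lib.BiasedCube

noncomputable section
namespace Crest.Agent.R152

section General
variable {ι : Type} [Fintype ι] [DecidableEq ι] {p : ℝ}

theorem P_nonneg (h0 : 0 ≤ p) (h1 : p ≤ 1) (A : Set (ι → Bool)) : 0 ≤ bernoulliProb p A := by
  unfold bernoulliProb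
  exact Finset.sum_nonneg fun x _ => bw_nonneg h0 h1 x

theorem P_mono (h0 : 0 ≤ p) (h1 : p ≤ 1) {A B : Set (ι → Bool)} (h : A ⊆ B) :
    bernoulliProb p A ≤ bernoulliProb p B := by
  classical
  rw [bernoulliProb_eq_Ex, bernoulliProb_eq_Ex]
  refine Ex_mono h0 h1 fun x => ?_
  by_cases hx : x ∈ A
  · simp [hx, h hx]
  · by_cases hx' : x ∈ B <;> simp [hx, hx']

theorem P_le_one (h0 : 0 ≤ p) (h1 : p ≤ 1) (A : Set (ι → Bool)) : bernoulliProb p A ≤ 1 := by
  classical
  rw [bernoulliProb_eq_Ex]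
  refine le_trans (Ex_mono h0 h1 fun x => ?_) (Ex_one (ι := ι) p).le
  by_cases hx : x ∈ A <;> simp [hx]

theorem P_empty : bernoulliProb p (∅ : Set (ι → Bool)) = 0 := by
  unfold bernoulliProb
  simp

theorem P_union_le (h0 : 0 ≤ p) (h1 : p ≤ 1) (A B : Set (ι → Bool)) :
    bernoulliProb p (A ∪ B) ≤ bernoulliProb p A + bernoulliProb p B := by
  classical
  rw [bernoulliProb_eq_Ex, bernoulliProb_eq_Ex, bernoulliProb_eq_Ex, ← Ex_add]
  refine Ex_mono h0 h1 fun x => ?_
  by_cases hx : x ∈ A <;> by_cases hx' : x ∈ B <;> simp [hx, hx']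

/-- Union bound. -/
theorem P_le_sum (h0 : 0 ≤ p) (h1 : p ≤ 1) {α : Type} (s : Finset α) (A : α → Set (ι → Bool))
    {B : Set (ι → Bool)} (h : ∀ ω ∈ B, ∃ a ∈ s, ω ∈ A a) :
    bernoulliProb p B ≤ ∑ a ∈ s, bernoulliProb p (A a) := by
  classical
  simp only [bernoulliProb_eq_Ex]
  rw [← Ex_sum]
  refine Ex_mono h0 h1 fun x => ?_
  have hn : ∀ a ∈ s, (0 : ℝ) ≤ if x ∈ A a then 1 else 0 := fun a _ => by split_ifs <;> norm_num
  by_cases hx : x ∈ B
  · obtain ⟨a, ha, hxa⟩ := h x hx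
    refine le_trans ?_ (Finset.single_le_sum hn ha)
    simp [hx, hxa]
  · rw [if_neg hx]
    exact Finset.sum_nonneg hn

theorem P_le_card_mul (h0 : 0 ≤ p) (h1 : p ≤ 1) {α : Type} (s : Finset α)
    (A : α → Set (ι → Bool)) {B : Set (ι → Bool)} (h : ∀ ω ∈ B, ∃ a ∈ s, ω ∈ A a) {c : ℝ}
    (hc : ∀ a ∈ s, bernoulliProb p (A a) ≤ c) : bernoulliProb p B ≤ s.card * c := by
  refine (P_le_sum h0 h1 s A h).trans ?_
  simpa using Finset.sum_le_card_nsmul s _ c hc

/-- Few outcomes, each of small weight. -/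
theorem P_le_card_weight (h0 : 0 ≤ p) (h1 : p ≤ 1) (T : Finset (ι → Bool)) {B : Set (ι → Bool)}
    {w : ℝ} (hw : 0 ≤ w) (h : ∀ x ∈ B, x ∈ T ∧ bernoulliWeight p x ≤ w) :
    bernoulliProb p B ≤ T.card * w := by
  classical
  have _ := h0
  have _ := h1
  unfold bernoulliProb
  refine (Finset.sum_le_card_nsmul _ _ w fun x hx => (h x (by simpa using hx)).2).trans ?_
  rw [nsmul_eq_mul]
  refine mul_le_mul_of_nonneg_right ?_ hw
  exact_mod_cast Finset.card_le_card fun x hx => (h x (by simpa using hx)).1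

/-- Markov's inequality. -/
theorem P_markov (h0 : 0 ≤ p) (h1 : p ≤ 1) {g : (ι → Bool) → ℝ} (hg : ∀ x, 0 ≤ g x) {a : ℝ}
    (ha : 0 < a) : bernoulliProb p {x | a ≤ g x} ≤ Ex p g / a := by
  classical
  rw [bernoulliProb_eq_Ex, div_eq_mul_inv, ← Ex_mul_const]
  refine Ex_mono h0 h1 fun x => ?_
  by_cases hx : a ≤ g x
  · rw [if_pos (show x ∈ {x | a ≤ g x} from hx), ← div_eq_mul_inv, le_div_iff₀ ha, one_mul]
    exact hx
  · rw [if_neg (show x ∉ {x | a ≤ g x} from hx)]
    exact mul_nonneg (hg x) (inv_nonneg.2 ha.le)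

private theorem PrA_pt {κ : Type} [Fintype κ] [DecidableEq κ] (f : κ → ι)
    (hf : Function.Injective f) (x : κ → Bool) :
    Ex p (fun ω : ι → Bool => if ω ∘ f = x then (1 : ℝ) else 0) = bernoulliWeight p x := by
  have e1 : ∀ ω : ι → Bool, (if ω ∘ f = x then (1 : ℝ) else 0) =
      ∏ i, ∏ k ∈ Finset.univ.filter (fun k => f k = i), if ω i = x k then (1 : ℝ) else 0 := by
    intro ω
    have : ∀ i, (∏ k ∈ Finset.univ.filter (fun k => f k = i), if ω i = x k then (1 : ℝ) else 0) =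
        ∏ k ∈ Finset.univ.filter (fun k => f k = i), if ω (f k) = x k then (1 : ℝ) else 0 :=
      fun i => Finset.prod_congr rfl fun k hk => by rw [(Finset.mem_filter.1 hk).2]
    simp only [this]
    rw [Finset.prod_fiberwise, Finset.prod_boole]
    simp [funext_iff]
  rw [Ex_congr p e1, Ex_prod p fun i b =>
    ∏ k ∈ Finset.univ.filter (fun k => f k = i), if b = x k then (1 : ℝ) else 0, bw_eq,
    ← Finset.prod_fiberwise Finset.univ f]
  refine Finset.prod_congr rfl fun i _ => ?_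
  by_cases hi : ∃ k, f k = i
  · obtain ⟨k, rfl⟩ := hi
    have : Finset.univ.filter (fun k' => f k' = f k) = {k} := by
      ext k'; simp [hf.eq_iff]
    rw [this]
    simp only [Finset.prod_singleton]
    cases x k <;> simp
  · have : Finset.univ.filter (fun k' => f k' = i) = ∅ := by
      ext k'; simpa using fun h => hi ⟨k', h⟩
    rw [this]
    simp

/-- Marginals of the product measure. -/
theorem P_comp_inj {κ : Type} [Fintype κ] [DecidableEq κ] (f : κ → ι)
    (hf : Function.Injective f) (A : Set (κ → Bool)) :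
    bernoulliProb p {ω : ι → Bool | ω ∘ f ∈ A} = bernoulliProb p A := by
  classical
  have e1 : ∀ ω : ι → Bool, (if ω ∈ {ω : ι → Bool | ω ∘ f ∈ A} then (1 : ℝ) else 0) =
      ∑ x ∈ Finset.univ.filter (· ∈ A), if ω ∘ f = x then (1 : ℝ) else 0 := by
    intro ω
    rw [Finset.sum_ite_eq]
    simp
  rw [bernoulliProb_eq_Ex, Ex_congr p e1, Ex_sum]
  simp only [PrA_pt f hf]
  unfold bernoulliProb
  convert rfl

private theorem PrA_cond (h0 : 0 ≤ p) (h1 : p ≤ 1) (T : Finset ι) {A : Set (ι → Bool)} {c : ℝ}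
    (h : ∀ ω : ι → Bool, bernoulliProb p {y | T.piecewise y ω ∈ A} ≤ c) :
    bernoulliProb p A ≤ c := by
  classical
  rw [bernoulliProb_eq_Ex, ← Ex_Ex_piecewise p T, ← Ex_const (ι := ι) p c]
  refine Ex_mono h0 h1 fun x => ?_
  have := h x
  rw [bernoulliProb_eq_Ex] at this
  exact this

/-- If the coordinates in `T` are determined by the others on `A`, then `A` is unlikely. -/
theorem P_determined (h0 : 0 ≤ p) (h1 : p ≤ 1) (T : Finset ι) {A : Set (ι → Bool)}
    (h : ∀ ω ∈ A, ∀ ω' ∈ A, (∀ e, e ∉ T → ω e = ω' e) → ω = ω') :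
    bernoulliProb p A ≤ mx p ^ T.card := by
  classical
  have hm : 0 ≤ mx p := h0.trans (le_max_left _ _)
  refine PrA_cond h0 h1 T fun ω => ?_
  by_cases hne : ∃ y, T.piecewise y ω ∈ A
  · obtain ⟨y0, hy0⟩ := hne
    have hsub : {y | T.piecewise y ω ∈ A} ⊆
        {y : ι → Bool | y ∘ (Subtype.val : T → ι) ∈ ({y0 ∘ Subtype.val} : Set (T → Bool))} := by
      intro y hy
      have := h _ hy _ hy0 fun e he => by simp [Finset.piecewise_eq_of_notMem _ _ _ he]
      funext k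
      have h2 := congrFun this k
      simpa [Finset.piecewise_eq_of_mem _ _ _ k.2] using h2
    refine (P_mono h0 h1 hsub).trans ?_
    rw [P_comp_inj _ Subtype.val_injective]
    have := P_le_card_weight h0 h1 {y0 ∘ (Subtype.val : T → ι)}
      (B := ({y0 ∘ Subtype.val} : Set (T → Bool))) (w := mx p ^ T.card) (pow_nonneg hm _) (by
        intro x hx
        refine ⟨by simpa using hx, ?_⟩
        rw [bw_eq]
        refine (Finset.prod_le_prod (fun i _ => cw_nonneg h0 h1 _) (g := fun _ => mx p)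
          fun i _ => ?_).trans (by simp)
        cases x i
        · exact le_max_right _ _
        · exact le_max_left _ _)
    simpa using this
  · have : {y | T.piecewise y ω ∈ A} = ∅ := by
      ext y; simpa using fun hy => hne ⟨y, hy⟩
    rw [this, P_empty]
    exact pow_nonneg hm _

/-- Conditioning on the coordinates outside `T`. -/
theorem P_le_of_cond (h0 : 0 ≤ p) (h1 : p ≤ 1) (T : Finset ι) {A : Set (ι → Bool)} {c : ℝ}
    (h : ∀ ω : ι → Bool, bernoulliProb p {y | T.piecewise y ω ∈ A} ≤ c) :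
    bernoulliProb p A ≤ c := by
  exact PrA_cond h0 h1 T h

end General

theorem half_le_rr (p : ℝ) : 1 / 2 ≤ rr p := by
  unfold rr; nlinarith [sq_nonneg (p - 1 / 2)]

theorem rr_pos (p : ℝ) : 0 < rr p := lt_of_lt_of_le (by norm_num) (half_le_rr p)

theorem rr_lt_one {p : ℝ} (h0 : 0 < p) (h1 : p < 1) : rr p < 1 := by
  unfold rr; nlinarith

theorem mx_pos (p : ℝ) : 0 < mx p := by
  unfold mx; rcases le_total p (1 - p) with h | h <;> simp [h] <;> linarith

theorem mx_lt_one {p : ℝ} (h0 : 0 < p) (h1 : p < 1) : mx p < 1 := by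
  unfold mx; exact max_lt h1 (by linarith)

theorem mat_apply {n : ℕ} (ω : Om n) (i j : Fin n) : mat ω i j = sg (ω s(i, j)) := rfl

theorem mat_isSS {n : ℕ} (ω : Om n) : IsSS (mat ω) := by
  refine ⟨Matrix.IsSymm.ext fun i j => ?_, fun i j => ?_⟩
  · rw [mat_apply, mat_apply, Sym2.eq_swap]
  · rw [mat_apply]; unfold sg; split_ifs <;> simp

theorem mat_sub {m n : ℕ} (f : Fin m → Fin n) (ω : Om n) :
    mat (ω ∘ Sym2.map f) = (mat ω).submatrix f f := by
  ext i j
  rfl

theorem P_sub {p : ℝ} {m n : ℕ} (f : Fin m → Fin n) (hf : Function.Injective f)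
    (Q : Matrix (Fin m) (Fin m) ℤ → Prop) :
    bernoulliProb p {ω : Om n | Q ((mat ω).submatrix f f)} =
      bernoulliProb p {ω : Om m | Q (mat ω)} := by
  rw [← P_comp_inj (Sym2.map f) (Sym2.map.injective hf) {ω : Om m | Q (mat ω)}]
  rfl

theorem Neg.mono {p : ℝ} (h0 : 0 ≤ p) (h1 : p ≤ 1) {A B : ∀ n, Set (Om n)} (hB : Neg p B)
    (h : ∀ᶠ n in atTop, A n ⊆ B n) : Neg p A := by
  intro C
  filter_upwards [hB C, h] with n hn hn'
  exact (P_mono h0 h1 hn').trans hn

theorem Neg.union {p : ℝ} (h0 : 0 ≤ p) (h1 : p ≤ 1) {A B : ∀ n, Set (Om n)} (hA : Neg p A)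
    (hB : Neg p B) : Neg p (fun n => A n ∪ B n) := by
  intro C
  filter_upwards [hA (C + 1), hB (C + 1), eventually_ge_atTop 1] with n hn hn' h1n
  refine (P_union_le h0 h1 _ _).trans ?_
  have h2 : (1 : ℝ) ≤ n := by exact_mod_cast h1n
  have h3 := Real.add_one_le_exp (n : ℝ)
  have h4 : Real.exp (-(C * n)) = Real.exp (-((C + 1) * n)) * Real.exp n := by
    rw [← Real.exp_add]; congr 1; ring
  have h5 := Real.exp_pos (-((C + 1) * n))
  rw [h4]
  nlinarith

theorem Neg.sm {p ε : ℝ} (hε : 0 ≤ ε) {A : ∀ n, Set (Om n)} (hA : Neg p A) : Sm p ε A := by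
  filter_upwards [hA 1] with n hn
  refine hn.trans ?_
  have h1 : Real.exp (-(1 * n)) = Real.exp (-1) ^ n := by
    rw [← Real.exp_nat_mul]; congr 1; ring
  rw [h1]
  refine pow_le_pow_left₀ (Real.exp_pos _).le ?_ n
  have h2 := Real.add_one_le_exp (1 : ℝ)
  have h3 : Real.exp (-1) ≤ 1 / 2 := by
    rw [Real.exp_neg, one_div]
    exact inv_anti₀ (by norm_num) (by linarith)
  have h4 := Real.one_le_exp hε
  have h5 := half_le_rr p
  nlinarith

theorem Sm.mono {p ε : ℝ} (h0 : 0 ≤ p) (h1 : p ≤ 1) {A B : ∀ n, Set (Om n)} (hB : Sm p ε B)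
    (h : ∀ᶠ n in atTop, A n ⊆ B n) : Sm p ε A := by
  filter_upwards [hB, h] with n hn hn'
  exact (P_mono h0 h1 hn').trans hn

theorem Sm.union {p ε ε' : ℝ} (h0 : 0 ≤ p) (h1 : p ≤ 1) (hε : ε < ε') {A B : ∀ n, Set (Om n)}
    (hA : Sm p ε A) (hB : Sm p ε B) : Sm p ε' (fun n => A n ∪ B n) := by
  have hd : 0 < ε' - ε := sub_pos.2 hε
  obtain ⟨N, hN⟩ := exists_nat_ge (1 / (ε' - ε))
  filter_upwards [hA, hB, eventually_ge_atTop N] with n hn hn' h1n
  refine (P_union_le h0 h1 _ _).trans ?_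
  have h2 : (1 : ℝ) ≤ n * (ε' - ε) := by
    rw [← div_le_iff₀ hd]
    exact hN.trans (by exact_mod_cast h1n)
  have h3 := Real.add_one_le_exp (n * (ε' - ε))
  have h4 : (rr p * Real.exp ε') ^ n = (rr p * Real.exp ε) ^ n * Real.exp (n * (ε' - ε)) := by
    rw [Real.exp_nat_mul, ← mul_pow, mul_assoc, ← Real.exp_add]; congr 3; ring
  have h5 : 0 < (rr p * Real.exp ε) ^ n := pow_pos (mul_pos (rr_pos p) (Real.exp_pos _)) n
  rw [h4]
  nlinarith

/-- Few small subsets. -/
theorem small_subsets {ε : ℝ} (hε : 0 < ε) : ∃ γ : ℝ, 0 < γ ∧ γ ≤ 1 ∧ ∀ (n : ℕ) (α : Type)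
    [Fintype α] [DecidableEq α], Fintype.card α ≤ n →
    ((Finset.univ.filter fun S : Finset α => (S.card : ℝ) ≤ γ * n).card : ℝ) ≤
      Real.exp (ε * n) := by
  obtain ⟨L, hL0, hL⟩ : ∃ L : ℝ, 0 < L ∧ Real.exp (-L) ≤ ε / 2 := by
    refine ⟨max 1 (-Real.log (ε / 2)), lt_of_lt_of_le one_pos (le_max_left _ _), ?_⟩
    rw [← Real.exp_log (half_pos hε)]
    refine Real.exp_le_exp.2 ?_
    rw [Real.exp_log (half_pos hε)]
    linarith [le_max_right 1 (-Real.log (ε / 2))]
  refine ⟨min 1 (ε / 2 / L), lt_min one_pos (by positivity), min_le_left _ _, ?_⟩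
  intro n α _ _ hn
  have hn0 : (0 : ℝ) ≤ n := Nat.cast_nonneg n
  have hx := Real.exp_pos (-L)
  have h1 : ∑ S : Finset α, Real.exp (-L) ^ S.card = (Real.exp (-L) + 1) ^ Fintype.card α := by
    rw [← Fintype.sum_pow_mul_eq_add_pow]
    simp
  have h2 : (Real.exp (-L) + 1) ^ Fintype.card α ≤ Real.exp (ε / 2 * n) := by
    calc (Real.exp (-L) + 1) ^ Fintype.card α ≤ (Real.exp (-L) + 1) ^ n :=
          pow_le_pow_right₀ (by linarith) hn
      _ ≤ Real.exp (ε / 2) ^ n :=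
          pow_le_pow_left₀ (by linarith) (by linarith [Real.add_one_le_exp (ε / 2)]) n
      _ = Real.exp (ε / 2 * n) := by rw [← Real.exp_nat_mul, mul_comm]
  have h3 := Finset.card_nsmul_le_sum
    (Finset.univ.filter fun S : Finset α => (S.card : ℝ) ≤ min 1 (ε / 2 / L) * n)
    (fun S => Real.exp (-L) ^ S.card) (Real.exp (-(ε / 2 * n))) (by
      intro S hS
      have hS' := (Finset.mem_filter.1 hS).2
      have h4 : (S.card : ℝ) ≤ ε / 2 / L * n :=
        hS'.trans (mul_le_mul_of_nonneg_right (min_le_right _ _) hn0)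
      rw [div_mul_eq_mul_div, le_div_iff₀ hL0] at h4
      show Real.exp (-(ε / 2 * n)) ≤ Real.exp (-L) ^ S.card
      rw [← Real.exp_nat_mul]
      exact Real.exp_le_exp.2 (by linarith))
  have h4 := Finset.sum_le_sum_of_subset_of_nonneg (Finset.subset_univ
    (Finset.univ.filter fun S : Finset α => (S.card : ℝ) ≤ min 1 (ε / 2 / L) * n))
    (f := fun S : Finset α => Real.exp (-L) ^ S.card) fun _ _ _ => pow_nonneg hx.le _
  rw [nsmul_eq_mul] at h3
  have h5 := h3.trans (h4.trans (h1.le.trans h2))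
  rw [Real.exp_neg, ← div_eq_mul_inv, div_le_iff₀ (Real.exp_pos _), ← Real.exp_add] at h5
  refine h5.trans (le_of_eq ?_)
  congr 1; ring

end Crest.Agent.R152
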