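import Crest.Agent.R152.PrA

/-! # Row 152: few high-leverage rows -/

set_option autoImplicit false
open Matrix Filter MeasureTheory
open Crest.FinProb Crest.ProbabilityR.SignMatrix Crest.Agent.Lib.BiasedCube

noncomputable section
namespace Crest.Agent.R152

/-- The quadratic form seen before row `j` is revealed. -/
def preQ {n : ℕ} (B : Matrix (Fin n) (Fin n) ℤ) (T : Finset (Fin n)) (η : ℝ) (j : Fin n)
    (w : Fin n → ℝ) : ℝ :=
  η * ∑ k, w k ^ 2 + ∑ i ∈ T.filter (· < j), (∑ k, (B i k : ℝ) * w k) ^ 2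

theorem spa_det_le {ι : Type} [Fintype ι] [DecidableEq ι] {X : Matrix ι ι ℝ} (hX : X.PosSemidef)
    {K : ℝ} (hK : 0 < K) (h : X.trace ≤ Fintype.card ι * K) : X.det ≤ K ^ Fintype.card ι := by
  have h1 := hX.1.det_eq_prod_eigenvalues
  have h2 := hX.1.trace_eq_sum_eigenvalues
  simp only [RCLike.ofReal_real_eq_id, id] at h1 h2
  calc X.det ≤ ∏ i, K * Real.exp (hX.1.eigenvalues i / K - 1) := by
        rw [h1]
        refine Finset.prod_le_prod (fun i _ => hX.eigenvalues_nonneg i) fun i _ => ?_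
        rw [← div_le_iff₀' hK]
        linarith [Real.add_one_le_exp (hX.1.eigenvalues i / K - 1)]
    _ = K ^ Fintype.card ι * Real.exp (X.trace / K - Fintype.card ι) := by
        rw [Finset.prod_mul_distrib, ← Real.exp_sum, Finset.sum_sub_distrib, ← Finset.sum_div, h2]
        simp
    _ ≤ _ := mul_le_of_le_one_right (by positivity)
        (Real.exp_le_one_iff.2 (sub_nonpos.2 ((div_le_iff₀ hK).2 h)))

theorem spa_step {ι : Type} [Fintype ι] [DecidableEq ι] {X : Matrix ι ι ℝ} (hX : X.PosDef)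
    (r : ι → ℝ) : ∃ q : ℝ, 0 ≤ q ∧ (X + vecMulVec r r).det = X.det * (1 + q) ∧
      ∀ w, (r ⬝ᵥ w) ^ 2 ≤ q * (w ⬝ᵥ X *ᵥ w) := by
  have hu : IsUnit X.det := hX.det_pos.ne'.isUnit
  have hy : X *ᵥ (X⁻¹ *ᵥ r) = r := by rw [mulVec_mulVec, mul_nonsing_inv _ hu, one_mulVec]
  have hn : ∀ v, 0 ≤ v ⬝ᵥ X *ᵥ v := fun v => by
    simpa using hX.posSemidef.dotProduct_mulVec_nonneg v
  refine ⟨r ⬝ᵥ X⁻¹ *ᵥ r, by simpa using hX.inv.posSemidef.dotProduct_mulVec_nonneg r, ?_,
    fun w => ?_⟩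
  · rw [vecMulVec_eq Unit, det_add_replicateCol_mul_replicateRow hu, Matrix.mul_assoc,
      ← replicateCol_mulVec, det_unique (n := Unit)]
    simp
  · have h1 : (X⁻¹ *ᵥ r) ⬝ᵥ X *ᵥ w = r ⬝ᵥ w := by
      rw [dotProduct_mulVec, ← mulVec_transpose, show Xᵀ = X from hX.1, hy]
    have h2 : ∀ t : ℝ, 0 ≤ (w ⬝ᵥ X *ᵥ w) * (t * t) + 2 * (r ⬝ᵥ w) * t + r ⬝ᵥ X⁻¹ *ᵥ r := fun t => by
      have h3 := hn (t • w + X⁻¹ *ᵥ r)
      simp only [mulVec_add, mulVec_smul, add_dotProduct, dotProduct_add, smul_dotProduct,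
        dotProduct_smul, smul_eq_mul, h1, hy] at h3
      rw [dotProduct_comm w r, dotProduct_comm _ r] at h3
      linarith
    have h3 := discrim_le_zero h2
    unfold discrim at h3
    linarith

open Classical in
theorem spa_main {ι : Type} [Fintype ι] [DecidableEq ι] {n : ℕ} (r : Fin n → ι → ℝ) {η c : ℝ}
    (hη : 0 < η) (hc : 0 ≤ c) (T : Finset (Fin n)) :
    (η • (1 : Matrix ι ι ℝ) + ∑ i ∈ T, vecMulVec (r i) (r i)).PosDef ∧
    η ^ Fintype.card ι * (c + 1) ^ (T.filter fun j => ∃ w : ι → ℝ,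
      c * (w ⬝ᵥ (η • (1 : Matrix ι ι ℝ) + ∑ i ∈ T.filter (· < j), vecMulVec (r i) (r i)) *ᵥ w) <
        (r j ⬝ᵥ w) ^ 2).card ≤
      (η • (1 : Matrix ι ι ℝ) + ∑ i ∈ T, vecMulVec (r i) (r i)).det := by
  induction T using Finset.induction_on_max with
  | empty => simpa using PosDef.one.smul hη
  | insert a s hs ih =>
    have ha : a ∉ s := fun h => (hs a h).false
    obtain ⟨q, q0, q1, q2⟩ := spa_step ih.1 (r a)
    rw [Finset.sum_insert ha, add_comm (vecMulVec _ _), ← add_assoc]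
    refine ⟨ih.1.add_posSemidef (by simpa using posSemidef_vecMulVec_self_star (r a)), ?_⟩
    have e1 : (insert a s).filter (· < a) = s := by
      rw [Finset.filter_insert, if_neg (lt_irrefl a), Finset.filter_true_of_mem hs]
    have e2 : ∀ j ∈ s, (insert a s).filter (· < j) = s.filter (· < j) := fun j hj => by
      rw [Finset.filter_insert, if_neg (hs j hj).not_gt]
    have d0 := ih.1.det_pos
    rw [q1, Finset.filter_insert, e1, Finset.filter_congr fun j hj => by rw [e2 j hj]]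
    split_ifs with h
    · obtain ⟨w, hw⟩ := h
      have h1 : c < q := lt_of_mul_lt_mul_right (hw.trans_le (q2 w))
        (by simpa using ih.1.posSemidef.dotProduct_mulVec_nonneg w)
      rw [Finset.card_insert_of_notMem fun h => ha (Finset.mem_filter.1 h).1, pow_succ, ← mul_assoc]
      exact mul_le_mul ih.2 (by linarith) (by linarith) d0.le
    · exact ih.2.trans (le_mul_of_one_le_right d0.le (by linarith))

open Classical in
theorem high_leverage {n : ℕ} {B : Matrix (Fin n) (Fin n) ℤ} (hB : ∀ i j, B i j = 1 ∨ B i j = -1)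
    (S T : Finset (Fin n)) {η : ℝ} (hη : 0 < η) :
    ((n : ℝ) + 1) ^ (T.filter fun j => ∃ w : Fin n → ℝ, (∀ k, k ∉ S → w k = 0) ∧
        (n : ℝ) * preQ B T η j w < (∑ k, (B j k : ℝ) * w k) ^ 2).card ≤
      ((η + n) / η) ^ S.card := by
  obtain ⟨h1, h2⟩ := spa_main (ι := S) (fun i k => (B i k : ℝ)) hη (Nat.cast_nonneg n) T
  have h3 := spa_det_le h1.posSemidef (K := η + n) (by positivity) (by
    have h4 : ∀ i, (vecMulVec (fun k : S => (B i k : ℝ)) fun k : S => (B i k : ℝ)).trace =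
        Fintype.card S := fun i => by
      rw [trace_vecMulVec, dotProduct, Finset.sum_congr rfl (g := fun _ => (1 : ℝ)) fun k _ => by
        rcases hB i k with h | h <;> simp [h]]
      simp
    rw [trace_add, trace_sum, trace_smul, trace_one, Finset.sum_congr rfl fun i _ => h4 i,
      Finset.sum_const, nsmul_eq_mul, smul_eq_mul]
    have h5 : (T.card : ℝ) ≤ n := by exact_mod_cast T.card_le_univ.trans_eq (Fintype.card_fin n)
    nlinarith [Nat.cast_nonneg (α := ℝ) (Fintype.card S)])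
  rw [Fintype.card_coe] at h2 h3
  rw [div_pow, le_div_iff₀' (by positivity)]
  refine le_trans (mul_le_mul_of_nonneg_left (pow_le_pow_right₀ (by linarith [Nat.cast_nonneg (α := ℝ) n])
    (Finset.card_le_card (Finset.monotone_filter_right _ ?_))) (by positivity)) (h2.trans h3)
  rintro j - ⟨w, hw, hw'⟩
  have e : ∀ f : Fin n → ℝ, ∑ k, f k * w k = ∑ k : S, f k * w k := fun f => by
    rw [Finset.sum_coe_sort S fun k => f k * w k]
    exact (Finset.sum_subset S.subset_univ fun k _ hk => by rw [hw k hk, mul_zero]).symm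
  refine ⟨fun k => w k, ?_⟩
  simp only [preQ, sq (w _), e] at hw'
  refine lt_of_eq_of_lt (congrArg _ ?_) hw'
  rw [add_mulVec, dotProduct_add, smul_mulVec, one_mulVec, dotProduct_smul, sum_mulVec,
    dotProduct_sum]
  congr 1
  refine Finset.sum_congr rfl fun i _ => ?_
  rw [vecMulVec_mulVec, dotProduct_smul, dotProduct_comm (fun k : S => w k), sq]
  rfl

end Crest.Agent.R152
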