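import Crest.Agent.R152.PrB
import Crest.Agent.R152.PrC
import Crest.Agent.R152.PrSPA

/-! # Row 152: no sparse approximate kernel vectors -/

set_option autoImplicit false
open Matrix Filter MeasureTheory
open Crest.FinProb Crest.ProbabilityR.SignMatrix Crest.Agent.Lib.BiasedCube

noncomputable section
namespace Crest.Agent.R152

/-- The event used when row `j` is revealed. -/
def spH {n : ℕ} (S T : Finset (Fin n)) (j : Fin n) (ω : Om n) : Prop :=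
  (∃ w : Fin n → ℝ, (∀ k, k ∉ S → w k = 0) ∧ ∑ k, w k ^ 2 = 1 ∧
      preQ (mat ω) T (1 / (n : ℝ) ^ 5) j w ≤ 2 / (n : ℝ) ^ 5) ∧
    ∀ w : Fin n → ℝ, (∀ k, k ∉ S → w k = 0) →
      (∑ k, (mat ω j k : ℝ) * w k) ^ 2 ≤ n * preQ (mat ω) T (1 / (n : ℝ) ^ 5) j w

theorem sp_block {n : ℕ} {p : ℝ} (h0 : 0 ≤ p) (h1 : p ≤ 1) (hn : 16 ≤ n) {S T G : Finset (Fin n)}
    (hG : Disjoint G S) : bernoulliProb p {ω : Om n | ∀ j ∈ G, spH S T j ω} ≤ rr p ^ G.card := by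
  have hn' : (16 : ℝ) ≤ n := by exact_mod_cast hn
  refine expose h0 h1 S ∅ G hG (Finset.disjoint_empty_right _) _ (rr_pos p).le fun j _ ω => ?_
  rcases Set.eq_empty_or_nonempty {x : Fin n → Bool | ∃ ω' : Om n, spH S T j ω' ∧
      (∀ i k, k ∈ S → (i ∈ S ∨ i ∈ (∅ : Finset (Fin n)) ∨ i < j) → ω' s(i, k) = ω s(i, k)) ∧
      ∀ k ∈ S, ω' s(j, k) = x k} with he | ⟨-, ω₀, ⟨⟨w, hw, hw1, hw2⟩, -⟩, hv₀, -⟩
  · rw [he, P_empty]
    exact (rr_pos p).le
  refine (P_mono h0 h1 ?_).trans (two_point_real h0 h1 w hw1 (ζ := 2 / (n : ℝ) ^ 2) ?_)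
  · rintro x ⟨ω', ⟨-, hl⟩, hv, hx⟩
    have e1 : preQ (mat ω') T (1 / (n : ℝ) ^ 5) j w = preQ (mat ω₀) T (1 / (n : ℝ) ^ 5) j w := by
      unfold preQ
      congr 1
      refine Finset.sum_congr rfl fun i hi => congrArg (· ^ 2) (Finset.sum_congr rfl fun k _ => ?_)
      have hi' := Or.inr (a := i ∈ S) (Or.inr (a := i ∈ (∅ : Finset (Fin n)))
        (Finset.mem_filter.1 hi).2)
      by_cases hk : k ∈ S
      · rw [mat_apply, mat_apply, hv i k hk hi', hv₀ i k hk hi']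
      · rw [hw k hk, mul_zero, mul_zero]
    have e2 : ∑ k, (mat ω' j k : ℝ) * w k = ∑ k, (sg (x k) : ℝ) * w k :=
      Finset.sum_congr rfl fun k _ => by
        by_cases hk : k ∈ S
        · rw [mat_apply, hx k hk]
        · rw [hw k hk, mul_zero, mul_zero]
    have h2 := hl w hw
    rw [e1, e2] at h2
    refine (abs_le_of_sq_le_sq ?_ (by positivity) : |∑ k, (sg (x k) : ℝ) * w k| ≤ 2 / (n : ℝ) ^ 2)
    refine (h2.trans (mul_le_mul_of_nonneg_left hw2 (by positivity))).trans ?_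
    rw [div_pow, ← mul_div_assoc, div_le_div_iff₀ (by positivity) (by positivity)]
    have : 0 ≤ (n : ℝ) ^ 5 := by positivity
    linarith
  · have h2 : Real.sqrt n ≤ n / 4 := Real.sqrt_le_iff.2 ⟨by positivity, by nlinarith⟩
    have h3 := mul_le_mul_of_nonneg_left h2 (by positivity : 0 ≤ (n : ℝ) + 1)
    rw [div_mul_eq_mul_div, div_lt_one (by positivity)]
    nlinarith

theorem sp_cover {n : ℕ} (hn : 1 ≤ n) {δ : ℝ} (hδ : 0 ≤ δ) {ω : Om n} (h : ¬ SP δ (mat ω)) :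
    ∃ (S Hi : Finset (Fin n)) (i i' : Fin n), (S.card : ℝ) ≤ 6 * δ * n ∧ (Hi.card : ℝ) ≤ 6 * δ * n ∧
      ∀ j ∈ (S ∪ {i, i'})ᶜ \ Hi, spH S (S ∪ {i, i'})ᶜ j ω := by
  classical
  have hn' : (1 : ℝ) ≤ n := by exact_mod_cast hn
  simp only [SP, not_forall, not_exists, not_and, not_lt] at h
  obtain ⟨S, u, i, i', hS, hu, ⟨k₀, hk₀⟩, h⟩ := h
  obtain ⟨Hi, hh, hH⟩ : ∃ Hi : Finset (Fin n), ((n : ℝ) + 1) ^ Hi.card ≤ _ ∧
      ∀ j ∈ (S ∪ {i, i'})ᶜ, (∃ w : Fin n → ℝ, (∀ k, k ∉ S → w k = 0) ∧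
        n * preQ (mat ω) (S ∪ {i, i'})ᶜ (1 / (n : ℝ) ^ 5) j w <
          (∑ k, (mat ω j k : ℝ) * w k) ^ 2) → j ∈ Hi :=
    ⟨_, high_leverage (mat_isSS ω).2 S (S ∪ {i, i'})ᶜ (η := 1 / (n : ℝ) ^ 5) (by positivity),
      fun j hj h => Finset.mem_filter.2 ⟨hj, h⟩⟩
  refine ⟨S, Hi, i, i', by nlinarith, ?_, fun j hj => ⟨?_, fun w hw => not_lt.1 fun hlt =>
    (Finset.mem_sdiff.1 hj).2 (hH j (Finset.mem_sdiff.1 hj).1 ⟨w, hw, hlt⟩)⟩⟩
  · have h2 : (1 / (n : ℝ) ^ 5 + n) / (1 / (n : ℝ) ^ 5) ≤ ((n : ℝ) + 1) ^ 6 := by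
      rw [show (1 / (n : ℝ) ^ 5 + n) / (1 / (n : ℝ) ^ 5) = n ^ 6 + 1 ^ 6 by field_simp; ring]
      exact pow_add_pow_le (by positivity) zero_le_one (by norm_num)
    have h3 := hh.trans (pow_le_pow_left₀ (by positivity) h2 _)
    rw [← pow_mul, pow_le_pow_iff_right₀ (by linarith), ← Nat.cast_le (α := ℝ)] at h3
    push_cast at h3
    linarith
  · have hs : 1 ≤ ∑ k, u k ^ 2 := (one_le_sq_iff_one_le_abs _).2 hk₀ |>.trans
      (Finset.single_le_sum (f := fun k => u k ^ 2) (fun _ _ => sq_nonneg _) (Finset.mem_univ k₀))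
    have hs0 : 0 < ∑ k, u k ^ 2 := by linarith
    have e : ∑ k, (u k / Real.sqrt (∑ k, u k ^ 2)) ^ 2 = 1 := by
      simp only [div_pow, Real.sq_sqrt hs0.le, ← Finset.sum_div, div_self hs0.ne']
    refine ⟨fun k => u k / Real.sqrt (∑ k, u k ^ 2), fun k hk => by simp only [hu k hk, zero_div], e, ?_⟩
    unfold preQ
    have h2 := Finset.sum_le_card_nsmul (((S ∪ {i, i'})ᶜ).filter (· < j))
      (fun a => (∑ k, (mat ω a k : ℝ) * (u k / Real.sqrt (∑ k, u k ^ 2))) ^ 2)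
      ((1 / (n : ℝ) ^ 3) ^ 2) fun a ha => by
        have ha' := (Finset.mem_filter.1 ha).1
        simp only [Finset.mem_compl, Finset.mem_union, Finset.mem_insert, Finset.mem_singleton,
          not_or] at ha'
        have h3 := pow_le_pow_left₀ (abs_nonneg _) (h a ha'.1 ha'.2.1 ha'.2.2) 2
        simp only [← mul_div_assoc, ← Finset.sum_div, div_pow, Real.sq_sqrt hs0.le]
        rw [sq_abs, div_pow] at h3
        exact (div_le_self (sq_nonneg _) hs).trans h3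
    have h3 : ((((S ∪ {i, i'})ᶜ).filter (· < j)).card : ℝ) ≤ n := by
      exact_mod_cast (Finset.card_le_univ _).trans (Fintype.card_fin n).le
    have h4 := mul_le_mul_of_nonneg_right h3 (sq_nonneg (1 / (n : ℝ) ^ 3))
    rw [nsmul_eq_mul] at h2
    rw [show (n : ℝ) * (1 / (n : ℝ) ^ 3) ^ 2 = 1 / (n : ℝ) ^ 5 by field_simp] at h4
    rw [e, show 2 / (n : ℝ) ^ 5 = 1 / (n : ℝ) ^ 5 * 1 + 1 / (n : ℝ) ^ 5 by ring]
    linarith

theorem sp_pow (p : ℝ) {m n : ℕ} {c : ℝ} (h : m ≤ n) (hc : (n : ℝ) ≤ m + c) :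
    rr p ^ m ≤ rr p ^ n * Real.exp c := by
  obtain ⟨d, rfl⟩ := Nat.exists_eq_add_of_le h
  have h1 : 1 ≤ rr p * Real.exp 1 := by
    nlinarith [half_le_rr p, Real.add_one_le_exp 1]
  have h2 := one_le_pow₀ h1 (n := d)
  rw [mul_pow, ← Real.exp_nat_mul, mul_one] at h2
  rw [pow_add, mul_assoc]
  refine le_mul_of_one_le_right (pow_pos (rr_pos p) _).le (h2.trans ?_)
  push_cast at hc
  exact mul_le_mul_of_nonneg_left (Real.exp_le_exp.2 (by linarith)) (pow_pos (rr_pos p) _).le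

theorem sm_SP {p : ℝ} (h0 : 0 < p) (h1 : p < 1) {ε : ℝ} (hε : 0 < ε) :
    ∃ δ : ℝ, 0 < δ ∧ Sm p ε (fun n => {ω : Om n | ¬ SP δ (mat ω)}) := by
  obtain ⟨γ, hγ, -, hs⟩ := small_subsets (ε := ε / 4) (by positivity)
  obtain ⟨δ, hδ, hδ1, hδ2⟩ : ∃ δ : ℝ, 0 < δ ∧ δ ≤ γ / 6 ∧ δ ≤ ε / 48 :=
    ⟨min (γ / 6) (ε / 48), by positivity, min_le_left _ _, min_le_right _ _⟩
  refine ⟨δ, hδ, ?_⟩
  filter_upwards [eventually_ge_atTop 16, (tendsto_natCast_atTop_atTop (R := ℝ)).eventually_ge_atTop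
    (6 * Real.exp 2 / (ε / 4) ^ 3)] with n hn hn2
  have hn' : (16 : ℝ) ≤ n := by exact_mod_cast hn
  let sm := Finset.univ.filter fun S : Finset (Fin n) => (S.card : ℝ) ≤ 6 * δ * n
  have hsm : (sm.card : ℝ) ≤ Real.exp (ε / 4 * n) := by
    refine le_trans (Nat.cast_le.2 (Finset.card_le_card fun S hS => ?_))
      (hs n (Fin n) (Fintype.card_fin n).le)
    exact Finset.mem_filter.2 ⟨Finset.mem_univ _, (Finset.mem_filter.1 hS).2.trans (by nlinarith)⟩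
  refine (P_le_card_mul h0.le h1.le (sm ×ˢ sm ×ˢ (Finset.univ : Finset (Fin n × Fin n)))
    (fun a => {ω | ∀ j ∈ (a.1 ∪ {a.2.2.1, a.2.2.2})ᶜ \ a.2.1,
      spH a.1 (a.1 ∪ {a.2.2.1, a.2.2.2})ᶜ j ω})
    (fun ω hω => ?_) (c := rr p ^ n * Real.exp (ε / 4 * n + 2)) ?_).trans ?_
  · obtain ⟨S, Hi, i, i', a1, a2, a3⟩ := sp_cover (by omega) hδ.le hω
    exact ⟨(S, Hi, i, i'), by simp [sm, a1, a2], a3⟩
  · rintro ⟨S, Hi, i, i'⟩ ha
    simp only [sm, Finset.mem_product, Finset.mem_filter, Finset.mem_univ, true_and,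
      and_true] at ha
    refine (sp_block h0.le h1.le hn (Finset.disjoint_left.2 fun j hj hj' => ?_)).trans
      (sp_pow p ((Finset.card_le_univ _).trans (Fintype.card_fin n).le) ?_)
    · simp [hj'] at hj
    · have a1 := Finset.le_card_sdiff Hi (S ∪ {i, i'})ᶜ
      have a2 := Finset.card_add_card_compl (S ∪ {i, i'})
      have a3 := Finset.card_union_le S {i, i'}
      have a4 := Finset.card_le_two (a := i) (b := i')
      rw [Fintype.card_fin] at a2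
      have a5 : (n : ℝ) ≤ (((S ∪ {i, i'})ᶜ \ Hi).card : ℝ) + (S.card + Hi.card + 2) := by
        exact_mod_cast (by omega : n ≤ ((S ∪ {i, i'})ᶜ \ Hi).card + (S.card + Hi.card + 2))
      nlinarith [ha.1, ha.2]
  · have a1 : (n : ℝ) * n * Real.exp 2 ≤ Real.exp (ε / 4 * n) := by
      refine le_trans ?_ (Real.pow_div_factorial_le_exp _ (by positivity) 3)
      rw [div_le_iff₀ (by positivity)] at hn2
      have := mul_le_mul_of_nonneg_left hn2 (by positivity : 0 ≤ (n : ℝ) * n)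
      norm_num [Nat.factorial]
      linarith
    have a2 : Real.exp ε ^ n = Real.exp (ε / 4 * n) * Real.exp (ε / 4 * n) *
        Real.exp (ε / 4 * n) * Real.exp (ε / 4 * n) := by
      rw [← Real.exp_nat_mul, ← Real.exp_add, ← Real.exp_add, ← Real.exp_add]
      congr 1
      ring
    simp only [Finset.card_product, Finset.card_univ, Fintype.card_prod, Fintype.card_fin,
      Nat.cast_mul]
    rw [mul_pow, a2, Real.exp_add]
    have a3 := pow_pos (rr_pos p) n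
    calc _ = rr p ^ n * (sm.card * sm.card * (n * n * Real.exp 2) * Real.exp (ε / 4 * n)) := by ring
      _ ≤ _ := by gcongr

end Crest.Agent.R152
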