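import Crest.Agent.R152.PrB

/-! # Row 152: rational coranks, reduction to corank one -/

set_option autoImplicit false
open Matrix Filter MeasureTheory
open Crest.FinProb Crest.ProbabilityR.SignMatrix Crest.Agent.Lib.BiasedCube

noncomputable section
namespace Crest.Agent.R152

/-- pivots of a subspace -/
theorem t1q_pivot {K ι : Type} [Field K] [Fintype ι] [DecidableEq ι] (W : Submodule K (ι → K)) :
    ∃ (J : Finset ι) (w : ι → ι → K), (∀ j ∈ J, w j ∈ W ∧ ∀ j' ∈ J, w j j' = if j = j' then 1 else 0) ∧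
      (∀ u ∈ W, (∀ j ∈ J, u j = 0) → u = 0) ∧ J.card = Module.finrank K W := by
  classical
  obtain ⟨J, hJ, hmax⟩ := Finset.exists_max_image ((Finset.univ : Finset (Finset ι)).filter
    fun J => ∃ w : ι → ι → K, ∀ j ∈ J, w j ∈ W ∧ ∀ j' ∈ J, w j j' = if j = j' then 1 else 0)
    Finset.card ⟨∅, by simp⟩
  obtain ⟨w, hw⟩ := (Finset.mem_filter.1 hJ).2
  have hinj : ∀ u ∈ W, (∀ j ∈ J, u j = 0) → u = 0 := by
    intro u hu h0
    by_contra hne
    obtain ⟨i, hi⟩ := Function.ne_iff.1 hne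
    have hi' : u i ≠ 0 := hi
    have hiJ : i ∉ J := fun h => hi' (h0 i h)
    have := hmax (insert i J) (Finset.mem_filter.2 ⟨Finset.mem_univ _,
      fun j => if j = i then (u i)⁻¹ • u else w j - (w j i * (u i)⁻¹) • u, ?_⟩)
    · rw [Finset.card_insert_of_notMem hiJ] at this
      omega
    · intro j hj
      by_cases hji : j = i
      · subst hji
        simp only [if_true]
        refine ⟨W.smul_mem _ hu, fun j' hj' => ?_⟩
        rcases Finset.mem_insert.1 hj' with rfl | hj'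
        · simp [hi']
        · have : j ≠ j' := fun e => hiJ (e ▸ hj')
          simp [h0 j' hj', this]
      · have hjJ : j ∈ J := (Finset.mem_insert.1 hj).resolve_left hji
        simp only [if_neg hji]
        refine ⟨W.sub_mem (hw j hjJ).1 (W.smul_mem _ hu), fun j' hj' => ?_⟩
        rcases Finset.mem_insert.1 hj' with rfl | hj'
        · simp [hi', hji]
        · simp [h0 j' hj', (hw j hjJ).2 j' hj']
  refine ⟨J, w, hw, hinj, ?_⟩
  let f : W →ₗ[K] (J → K) := (LinearMap.funLeft K K (Subtype.val : J → ι)) ∘ₗ W.subtype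
  have hf : Function.Bijective f := by
    constructor
    · rw [← LinearMap.ker_eq_bot, LinearMap.ker_eq_bot']
      intro u hu
      exact Subtype.ext (hinj u.1 u.2 fun j hj => congrFun hu ⟨j, hj⟩)
    · intro v
      refine ⟨⟨∑ j : J, v j • w j, W.sum_mem fun j _ => W.smul_mem _ (hw j j.2).1⟩, ?_⟩
      funext j'
      show (∑ j : J, v j • w j) j' = v j'
      rw [Finset.sum_apply, Finset.sum_eq_single j']
      · simp [(hw j' j'.2).2 j' j'.2]
      · intro j _ hne
        have : (j : ι) ≠ j' := fun e => hne (Subtype.ext e)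
        simp [(hw j j.2).2 j' j'.2, this]
      · simp
  rw [(LinearEquiv.ofBijective f hf).finrank_eq]
  simp

/-- extension by zero -/
def t1qExt {κ ι : Type} [Fintype κ] [DecidableEq ι] (f : κ → ι) : (κ → ℚ) →ₗ[ℚ] (ι → ℚ) where
  toFun v i := ∑ k, if f k = i then v k else 0
  map_add' v w := by
    funext i
    simp only [Pi.add_apply, ← Finset.sum_add_distrib]
    refine Finset.sum_congr rfl fun k _ => ?_
    split_ifs <;> simp
  map_smul' c v := by
    funext i
    simp only [Pi.smul_apply, smul_eq_mul, RingHom.id_apply, Finset.mul_sum]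
    refine Finset.sum_congr rfl fun k _ => ?_
    split_ifs <;> simp

theorem t1qExt_apply {κ ι : Type} [Fintype κ] [DecidableEq ι] {f : κ → ι}
    (hf : Function.Injective f) (v : κ → ℚ) (k : κ) : t1qExt f v (f k) = v k := by
  show (∑ k', if f k' = f k then v k' else 0) = v k
  rw [Finset.sum_eq_single k]
  · simp
  · intro k' _ h
    rw [if_neg fun e => h (hf e)]
  · simp

theorem t1qExt_zero {κ ι : Type} [Fintype κ] [DecidableEq ι] {f : κ → ι} (v : κ → ℚ) {i : ι}
    (hi : ∀ k, f k ≠ i) : t1qExt f v i = 0 :=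
  Finset.sum_eq_zero fun k _ => if_neg (hi k)

theorem t1qExt_mulVec {κ ι : Type} [Fintype κ] [Fintype ι] [DecidableEq ι] (f : κ → ι)
    (A : Matrix ι ι ℚ) (v : κ → ℚ) (k : κ) :
    (A *ᵥ t1qExt f v) (f k) = (A.submatrix f f *ᵥ v) k := by
  show (∑ l, A (f k) l * ∑ k', if f k' = l then v k' else 0) = ∑ k', A (f k) (f k') * v k'
  simp only [Finset.mul_sum, mul_ite, mul_zero]
  rw [Finset.sum_comm]
  simp

theorem t1qExt_comp {κ ι : Type} [Fintype κ] [DecidableEq ι] {f : κ → ι}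
    (hf : Function.Injective f) {w : ι → ℚ} (hw : ∀ i, (∀ k, f k ≠ i) → w i = 0) :
    t1qExt f (w ∘ f) = w := by
  funext i
  by_cases h : ∃ k, f k = i
  · obtain ⟨k, rfl⟩ := h
    rw [t1qExt_apply hf]
    rfl
  · push Not at h
    rw [t1qExt_zero _ h, hw i h]

theorem t1q_kerJ {n : ℕ} {B : Matrix (Fin n) (Fin n) ℤ} {ρ : ℝ} (h : ¬ T1Q ρ B) :
    ∃ U J : Finset (Fin n), J ⊆ U ∧ ρ * n < J.card ∧ KerJ ℚ U J B := by
  unfold T1Q at h
  push Not at h
  obtain ⟨U, hU⟩ := h
  obtain ⟨M, hM⟩ : ∃ M, M = (B.map (Int.cast : ℤ → ℚ)).submatrix (fun i : U => i.1)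
    (fun i : U => i.1) := ⟨_, rfl⟩
  rw [← hM] at hU
  have hinj : Function.Injective (t1qExt (fun i : U => i.1)) := fun v v' e => funext fun k => by
    rw [← t1qExt_apply Subtype.val_injective v k, e, t1qExt_apply Subtype.val_injective]
  obtain ⟨J, w, hw, -, hc⟩ := t1q_pivot ((LinearMap.ker M.mulVecLin).map (t1qExt fun i : U => i.1))
  rw [← (Submodule.equivMapOfInjective _ hinj _).finrank_eq] at hc
  have h1 := LinearMap.finrank_range_add_finrank_ker M.mulVecLin
  have h2 : M.rank + J.card = U.card := by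
    rw [hc]
    simpa [Matrix.rank] using h1
  have h3 : (M.rank : ℝ) + J.card = U.card := by exact_mod_cast h2
  have hz : ∀ j ∈ J, ∀ k, k ∉ U → w j k = 0 := by
    intro j hj k hk
    obtain ⟨v, -, hv⟩ := (hw j hj).1
    rw [← hv]
    exact t1qExt_zero v fun k' e => hk (e ▸ k'.2)
  refine ⟨U, J, fun j hj => ?_, by linarith, w, fun j hj => ⟨hz j hj, fun i hi => ?_, (hw j hj).2⟩⟩
  · by_contra hjU
    have := (hw j hj).2 j hj
    rw [hz j hj j hjU] at this
    simp at this
  · obtain ⟨v, hv0, hv⟩ := (hw j hj).1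
    rw [← hv]
    have := t1qExt_mulVec (fun i : U => i.1) (B.map (Int.cast : ℤ → ℚ)) v ⟨i, hi⟩
    rw [← hM] at this
    exact this.trans (congrFun hv0 ⟨i, hi⟩)

theorem neg_T1Q {p : ℝ} (h0 : 0 < p) (h1 : p < 1) {ρ : ℝ} (hρ : 0 < ρ) :
    Neg p (fun n => {ω : Om n | ¬ T1Q ρ (mat ω)}) := by
  classical
  intro C
  have hm0 := mx_pos p
  have hc : 0 < -Real.log (mx p) := neg_pos.2 (Real.log_neg hm0 (mx_lt_one h0 h1))
  obtain ⟨c, hcd⟩ : ∃ c, c = -Real.log (mx p) := ⟨_, rfl⟩
  rw [← hcd] at hc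
  have hk : 0 < c * ρ ^ 2 / 2 := by positivity
  filter_upwards [tendsto_natCast_atTop_atTop.eventually_ge_atTop
    ((C + Real.log 4) / (c * ρ ^ 2 / 2))] with n hn
  rw [div_le_iff₀ hk] at hn
  have hn0 : (0 : ℝ) ≤ n := Nat.cast_nonneg n
  have hP := P_le_card_mul h0.le h1.le
    ((Finset.univ : Finset (Finset (Fin n) × Finset (Fin n))).filter
      fun z => z.2 ⊆ z.1 ∧ ρ * n < z.2.card) (fun z => {ω : Om n | KerJ ℚ z.1 z.2 (mat ω)})
    (B := {ω : Om n | ¬ T1Q ρ (mat ω)}) (c := Real.exp (-(c * ρ ^ 2 / 2 * n ^ 2)))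
    (fun ω hω => by
      obtain ⟨U, J, hJU, hJ, hK⟩ := t1q_kerJ hω
      exact ⟨(U, J), Finset.mem_filter.2 ⟨Finset.mem_univ _, hJU, hJ⟩, hK⟩)
    (fun z hz => by
      obtain ⟨hJU, hJ⟩ := (Finset.mem_filter.1 hz).2
      refine (P_KerJ ℚ two_ne_zero h0.le h1.le hJU).trans ?_
      have e1 : ((z.2.card * (z.2.card + 1) / 2 : ℕ) : ℝ) = z.2.card * (z.2.card + 1) / 2 := by
        rw [Nat.cast_div (Nat.even_mul_succ_self _).two_dvd (by norm_num)]
        push_cast
        ring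
      rw [← Real.exp_log hm0, ← Real.exp_nat_mul, e1, Real.exp_le_exp,
        show Real.log (mx p) = -c by rw [hcd, neg_neg]]
      have h3 : 0 ≤ ρ * n := by positivity
      have h4 : (ρ * n) ^ 2 ≤ z.2.card * (z.2.card + 1) := by nlinarith
      nlinarith [mul_le_mul_of_nonneg_left h4 hc.le])
  refine hP.trans ?_
  have h5 : ((((Finset.univ : Finset (Finset (Fin n) × Finset (Fin n))).filter
      fun z => z.2 ⊆ z.1 ∧ ρ * n < z.2.card).card : ℕ) : ℝ) ≤ Real.exp (n * Real.log 4) := by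
    rw [Real.exp_nat_mul, Real.exp_log (by norm_num)]
    have := Finset.card_le_univ ((Finset.univ : Finset (Finset (Fin n) × Finset (Fin n))).filter
      fun z => z.2 ⊆ z.1 ∧ ρ * n < z.2.card)
    rw [Fintype.card_prod, Fintype.card_finset, Fintype.card_fin, ← mul_pow] at this
    exact_mod_cast this
  refine (mul_le_mul_of_nonneg_right h5 (Real.exp_pos _).le).trans ?_
  rw [← Real.exp_add, Real.exp_le_exp]
  nlinarith [mul_le_mul_of_nonneg_left hn hn0]

/-- A singular symmetric matrix of small corank has a large principal submatrix of corank one. -/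
theorem exists_cor1 {n : ℕ} {B : Matrix (Fin n) (Fin n) ℤ} (hB : B.IsSymm) (hd : B.det = 0)
    {ρ : ℝ} (hQ : T1Q ρ B) : ∃ (m : ℕ) (S : Finset (Fin n)) (hS : S.card = m + 1),
      (n : ℝ) ≤ m + ρ * n ∧ Cor1 (B.submatrix (S.orderEmbOfFin hS) (S.orderEmbOfFin hS)) := by
  classical
  obtain ⟨A, hA⟩ : ∃ A, A = B.map (Int.cast : ℤ → ℚ) := ⟨_, rfl⟩
  have hdet : ∀ {m : ℕ} (f : Fin m → Fin n), (B.submatrix f f).det = 0 ↔
      ∃ v ≠ 0, A.submatrix f f *ᵥ v = 0 := by
    intro m f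
    rw [Matrix.exists_mulVec_eq_zero_iff, hA, Matrix.submatrix_map, ← Int.cast_det, Int.cast_eq_zero]
  have hAs : A.IsSymm := hA ▸ hB.map _
  obtain ⟨J, w, hw, hinj, hc⟩ := t1q_pivot (LinearMap.ker A.mulVecLin)
  have hw0 : ∀ j ∈ J, A *ᵥ w j = 0 := fun j hj => (hw j hj).1
  obtain ⟨j, hj⟩ : J.Nonempty := by
    obtain ⟨v, hv, hv0⟩ := (hdet id).1 hd
    by_contra hne
    exact hv (hinj v hv0 fun j hj => absurd ⟨j, hj⟩ hne)
  have h1 := LinearMap.finrank_range_add_finrank_ker A.mulVecLin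
  have h2 : A.rank + J.card = n := by
    rw [hc]
    simpa [Matrix.rank] using h1
  have h3 : (n : ℝ) ≤ A.rank + ρ * n := by
    have h := hQ Finset.univ
    rw [← hA] at h
    have h' := Matrix.rank_submatrix_le A (fun i : (Finset.univ : Finset (Fin n)) => i.1)
      (fun i : (Finset.univ : Finset (Fin n)) => i.1)
    have h'' : ((A.submatrix (fun i : (Finset.univ : Finset (Fin n)) => i.1)
      (fun i : (Finset.univ : Finset (Fin n)) => i.1)).rank : ℝ) ≤ A.rank := by exact_mod_cast h'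
    rw [Finset.card_univ, Fintype.card_fin] at h
    linarith
  have hS : (insert j Jᶜ).card = A.rank + 1 := by
    rw [Finset.card_insert_of_notMem (by simpa using hj), Finset.card_compl, Fintype.card_fin]
    omega
  refine ⟨A.rank, insert j Jᶜ, hS, h3, ?_⟩
  obtain ⟨g, hg⟩ : ∃ g : Fin (A.rank + 1) → Fin n, g = (insert j Jᶜ).orderEmbOfFin hS := ⟨_, rfl⟩
  have hgi : Function.Injective g := hg ▸ ((insert j Jᶜ).orderEmbOfFin hS).injective
  have hgr : ∀ i, (∃ k, g k = i) ↔ i = j ∨ i ∉ J := by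
    intro i
    have := Finset.range_orderEmbOfFin (insert j Jᶜ) hS
    rw [← hg] at this
    rw [← Set.mem_range, this]
    simp
  rw [← hg]
  obtain ⟨i₀, hi₀⟩ := (hgr j).2 (Or.inl rfl)
  refine ⟨(hdet g).2 ⟨w j ∘ g, fun h => ?_, ?_⟩, i₀, ?_⟩
  · have := congrFun h i₀
    simp [hi₀, (hw j hj).2 j hj] at this
  · funext k
    rw [← t1qExt_mulVec, t1qExt_comp hgi, hw0 j hj]
    · rfl
    · intro i hi
      have h4 : ¬ (i = j ∨ i ∉ J) := fun h => by
        obtain ⟨k, hk⟩ := (hgr i).2 h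
        exact hi k hk
      push Not at h4
      rw [(hw j hj).2 i h4.2, if_neg (Ne.symm h4.1)]
  · intro hd0
    rw [del, Matrix.submatrix_submatrix, hdet] at hd0
    obtain ⟨v, hv, hv0⟩ := hd0
    have hfi : Function.Injective (g ∘ i₀.succAbove) := hgi.comp Fin.succAbove_right_injective
    have hfJ : ∀ k, (g ∘ i₀.succAbove) k ∉ J := by
      intro k hk
      rcases (hgr _).1 ⟨_, rfl⟩ with h | h
      · exact Fin.succAbove_ne i₀ k (hgi (h.trans hi₀.symm))
      · exact h hk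
    have hfI : ∀ i, i ∉ J → ∃ k, (g ∘ i₀.succAbove) k = i := by
      intro i hi
      obtain ⟨k, rfl⟩ := (hgr i).2 (Or.inr hi)
      have : k ≠ i₀ := fun e => hi (by rw [e, hi₀]; exact hj)
      obtain ⟨k', rfl⟩ := Fin.exists_succAbove_eq this
      exact ⟨k', rfl⟩
    obtain ⟨u, hu⟩ : ∃ u, u = t1qExt (g ∘ i₀.succAbove) v := ⟨_, rfl⟩
    have hI : ∀ i, i ∉ J → (A *ᵥ u) i = 0 := by
      intro i hi
      obtain ⟨k, rfl⟩ := hfI i hi
      rw [hu, t1qExt_mulVec, hv0]
      rfl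
    have hJ : ∀ i ∈ J, (A *ᵥ u) i = 0 := by
      intro i hi
      have h5 : w i ⬝ᵥ (A *ᵥ u) = 0 := by
        rw [Matrix.dotProduct_mulVec, ← Matrix.mulVec_transpose, hAs.eq, hw0 i hi, zero_dotProduct]
      rw [dotProduct, Finset.sum_eq_single i] at h5
      · simpa [(hw i hi).2 i hi] using h5
      · intro l _ hl
        by_cases hlJ : l ∈ J
        · rw [(hw i hi).2 l hlJ, if_neg (Ne.symm hl), zero_mul]
        · rw [hI l hlJ, mul_zero]
      · simp
    have hu0 : u = 0 := hinj u (funext fun i => by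
      by_cases hi : i ∈ J
      · exact hJ i hi
      · exact hI i hi) fun i hi => by
        rw [hu]
        exact t1qExt_zero v fun k e => hfJ k (e ▸ hi)
    refine hv (funext fun k => ?_)
    rw [← t1qExt_apply hfi v k, ← hu, hu0]
    rfl

end Crest.Agent.R152
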