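import Crest.Agent.R152.PrA

/-! # Row 152: Gaussian representation of the regularised determinant -/

set_option autoImplicit false
open Matrix Filter MeasureTheory
open Crest.FinProb Crest.ProbabilityR.SignMatrix Crest.Agent.Lib.BiasedCube

noncomputable section
namespace Crest.Agent.R152

theorem t2a_diag {n : ℕ} (B : Matrix (Fin n) (Fin n) ℝ) (hB : B.IsSymm) :
    ∃ (U : Matrix (Fin n) (Fin n) ℝ) (d : Fin n → ℝ), U * Uᵀ = 1 ∧ Uᵀ * U = 1 ∧
      B = U * diagonal d * Uᵀ := by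
  have hH : B.IsHermitian := by
    unfold Matrix.IsHermitian
    rw [conjTranspose_eq_transpose_of_trivial]
    exact hB
  have hs : star (hH.eigenvectorUnitary : Matrix (Fin n) (Fin n) ℝ) =
      (hH.eigenvectorUnitary : Matrix (Fin n) (Fin n) ℝ)ᵀ := by
    rw [star_eq_conjTranspose, conjTranspose_eq_transpose_of_trivial]
  refine ⟨hH.eigenvectorUnitary, hH.eigenvalues, ?_, ?_, ?_⟩
  · rw [← hs]; exact Unitary.coe_mul_star_self _
  · rw [← hs]; exact Unitary.coe_star_mul_self _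
  · have := hH.spectral_theorem
    rw [Unitary.conjStarAlgAut_apply, hs] at this
    simpa using this

theorem t2a_sq {n : ℕ} {B U : Matrix (Fin n) (Fin n) ℝ} {d : Fin n → ℝ} (h1 : U * Uᵀ = 1)
    (h2 : Uᵀ * U = 1) (hB : B = U * diagonal d * Uᵀ) (a : ℝ) :
    B * B + a • (1 : Matrix (Fin n) (Fin n) ℝ) = U * diagonal (fun i => d i ^ 2 + a) * Uᵀ := by
  have e1 : B * B = U * diagonal (fun i => d i ^ 2) * Uᵀ := by
    rw [hB]
    calc U * diagonal d * Uᵀ * (U * diagonal d * Uᵀ)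
        = U * (diagonal d * (Uᵀ * U) * diagonal d) * Uᵀ := by simp only [Matrix.mul_assoc]
      _ = U * diagonal (fun i => d i ^ 2) * Uᵀ := by
          rw [h2, Matrix.mul_one, diagonal_mul_diagonal]
          simp only [sq]
  have e2 : a • (1 : Matrix (Fin n) (Fin n) ℝ) = U * diagonal (fun _ => a) * Uᵀ := by
    have : diagonal (fun _ : Fin n => a) = a • (1 : Matrix (Fin n) (Fin n) ℝ) := by
      ext i j
      by_cases h : i = j
      · subst h; simp
      · simp [h]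
    rw [this, Matrix.mul_smul, Matrix.mul_one, Matrix.smul_mul, h1]
  rw [e1, e2, ← Matrix.add_mul, ← Matrix.mul_add, diagonal_add]

theorem t2a_det {n : ℕ} {B U : Matrix (Fin n) (Fin n) ℝ} {d : Fin n → ℝ} (h1 : U * Uᵀ = 1)
    (h2 : Uᵀ * U = 1) (hB : B = U * diagonal d * Uᵀ) (a : ℝ) :
    (B * B + a • (1 : Matrix (Fin n) (Fin n) ℝ)).det = ∏ i, (d i ^ 2 + a) := by
  rw [t2a_sq h1 h2 hB a, det_mul, det_mul, det_diagonal]
  have : U.det * Uᵀ.det = 1 := by rw [← det_mul, h1, det_one]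
  calc U.det * (∏ i, (d i ^ 2 + a)) * Uᵀ.det = (U.det * Uᵀ.det) * ∏ i, (d i ^ 2 + a) := by ring
    _ = _ := by rw [this, one_mul]

theorem t2a_trace {n : ℕ} {B U : Matrix (Fin n) (Fin n) ℝ} {d : Fin n → ℝ} (h1 : U * Uᵀ = 1)
    (h2 : Uᵀ * U = 1) (hB : B = U * diagonal d * Uᵀ) :
    (B * B).trace = ∑ i, d i ^ 2 := by
  have := t2a_sq h1 h2 hB 0
  rw [zero_smul, add_zero] at this
  rw [this, trace_mul_cycle, h2, Matrix.one_mul, trace_diagonal]
  simp

theorem t2a_holder_pt {x a b w : ℝ} (hx : 0 ≤ x) (ha : 0 < a) (hb : 0 < b) (hw0 : 0 ≤ w)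
    (hw1 : w ≤ 1) : x + a ^ w * b ^ (1 - w) ≤ (x + a) ^ w * (x + b) ^ (1 - w) := by
  have hA : 0 < x + a := by linarith
  have hB : 0 < x + b := by linarith
  have hw1' : 0 ≤ 1 - w := by linarith
  have h1 := Real.geom_mean_le_arith_mean2_weighted hw0 hw1' (div_nonneg hx hA.le)
    (div_nonneg hx hB.le) (by ring : w + (1 - w) = 1)
  have h2 := Real.geom_mean_le_arith_mean2_weighted hw0 hw1' (div_nonneg ha.le hA.le)
    (div_nonneg hb.le hB.le) (by ring : w + (1 - w) = 1)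
  rw [Real.div_rpow hx hA.le, Real.div_rpow hx hB.le] at h1
  rw [Real.div_rpow ha.le hA.le, Real.div_rpow hb.le hB.le] at h2
  have hP : 0 < (x + a) ^ w := Real.rpow_pos_of_pos hA w
  have hQ : 0 < (x + b) ^ (1 - w) := Real.rpow_pos_of_pos hB _
  have hxx : x ^ w * x ^ (1 - w) = x := by
    rw [← Real.rpow_add' hx (by simp)]
    simp
  have hsum : w * (x / (x + a)) + (1 - w) * (x / (x + b)) +
      (w * (a / (x + a)) + (1 - w) * (b / (x + b))) = 1 := by
    field_simp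
    ring
  have h3 : (x + a ^ w * b ^ (1 - w)) / ((x + a) ^ w * (x + b) ^ (1 - w)) ≤ 1 := by
    have : (x + a ^ w * b ^ (1 - w)) / ((x + a) ^ w * (x + b) ^ (1 - w)) =
        x ^ w / (x + a) ^ w * (x ^ (1 - w) / (x + b) ^ (1 - w)) +
          a ^ w / (x + a) ^ w * (b ^ (1 - w) / (x + b) ^ (1 - w)) := by
      rw [div_mul_div_comm, div_mul_div_comm, hxx, add_div]
    rw [this]
    linarith
  rwa [div_le_one (mul_pos hP hQ)] at h3

/-- One-sided Gaussian Fourier integral. -/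
theorem t2a_fourier {n : ℕ} {τ : ℝ} (hτ : 0 < τ) (w : Fin n → ℝ) :
    ∫ z : Fin n → ℝ, Real.exp (-(τ / 2) * ∑ i, z i ^ 2) * Real.cos (z ⬝ᵥ w) =
      Real.sqrt (2 * Real.pi / τ) ^ n * Real.exp (-(∑ i, w i ^ 2) / (2 * τ)) := by
  have hb : ∀ _ : Fin n, 0 < (((τ / 2 : ℝ) : ℂ)).re := fun _ => by
    rw [Complex.ofReal_re]; positivity
  have h := GaussianFourier.integral_cexp_neg_sum_mul_add hb (fun i => Complex.I * (w i : ℂ))
  have hint := GaussianFourier.integrable_cexp_neg_sum_mul_add hb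
    (fun i => Complex.I * (w i : ℂ))
  have hre : ∀ z : Fin n → ℝ, Real.exp (-(τ / 2) * ∑ i, z i ^ 2) * Real.cos (z ⬝ᵥ w) =
      (Complex.exp (-∑ i, ((τ / 2 : ℝ) : ℂ) * (z i : ℂ) ^ 2 +
        ∑ i, Complex.I * (w i : ℂ) * z i)).re := by
    intro z
    have e : (-∑ i, ((τ / 2 : ℝ) : ℂ) * (z i : ℂ) ^ 2 + ∑ i, Complex.I * (w i : ℂ) * z i) =
        ((-(τ / 2) * ∑ i, z i ^ 2 : ℝ) : ℂ) + ((z ⬝ᵥ w : ℝ) : ℂ) * Complex.I := by
      simp only [dotProduct]
      push_cast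
      rw [← Finset.mul_sum, Finset.sum_mul]
      congr 1
      · ring
      · exact Finset.sum_congr rfl fun i _ => by ring
    rw [e, Complex.exp_re]
    simp only [Complex.add_re, Complex.add_im, Complex.ofReal_re, Complex.ofReal_im,
      Complex.mul_re, Complex.mul_im, Complex.I_re, Complex.I_im, mul_zero, mul_one, sub_zero,
      add_zero, zero_add]
  simp_rw [hre]
  have := integral_re hint
  simp only [RCLike.re_to_complex] at this
  rw [this, h]
  have e2 : ∀ i, ((Real.pi : ℂ) / ((τ / 2 : ℝ) : ℂ)) ^ (1 / 2 : ℂ) *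
      Complex.exp ((Complex.I * (w i : ℂ)) ^ 2 / (4 * ((τ / 2 : ℝ) : ℂ))) =
      ((Real.sqrt (2 * Real.pi / τ) * Real.exp (-(w i ^ 2) / (2 * τ)) : ℝ) : ℂ) := by
    intro i
    have hτ' : (τ : ℂ) ≠ 0 := by exact_mod_cast hτ.ne'
    rw [Complex.ofReal_mul, Complex.ofReal_exp, Real.sqrt_eq_rpow,
      Complex.ofReal_cpow (by positivity)]
    congr 2
    · push_cast; field_simp
    · push_cast; ring
    · push_cast
      rw [mul_pow, Complex.I_sq]
      field_simp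
      ring
  simp_rw [e2]
  rw [← Complex.ofReal_prod, Complex.ofReal_re, Finset.prod_mul_distrib, Finset.prod_const,
    ← Real.exp_sum]
  simp only [Finset.card_univ, Fintype.card_fin]
  congr 2
  rw [← Finset.sum_div, Finset.sum_neg_distrib]

/-- Orthogonal change of variables. -/
theorem t2a_cov {n : ℕ} {U : Matrix (Fin n) (Fin n) ℝ} (h1 : U * Uᵀ = 1)
    (f : (Fin n → ℝ) → ℝ) (hf : Continuous f) :
    ∫ y, f y = ∫ x, f (U *ᵥ x) := by
  have hd : U.det * U.det = 1 := by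
    have : U.det * Uᵀ.det = 1 := by rw [← det_mul, h1, det_one]
    rwa [det_transpose] at this
  have hne : U.det ≠ 0 := fun h => by simp [h] at hd
  have habs : |(U.det)⁻¹| = 1 := by
    rw [abs_inv]
    have : |U.det| = 1 := by
      have h2 : |U.det| * |U.det| = 1 := by rw [← abs_mul, hd, abs_one]
      nlinarith [abs_nonneg U.det]
    rw [this, inv_one]
  have hm := Real.map_matrix_volume_pi_eq_smul_volume_pi hne
  rw [habs, ENNReal.ofReal_one, one_smul] at hm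
  have hmeas : AEMeasurable (toLin' U) (volume : Measure (Fin n → ℝ)) :=
    (LinearMap.continuous_of_finiteDimensional _).aemeasurable
  have := integral_map hmeas (f := f) hf.aestronglyMeasurable
  rw [hm] at this
  simpa using this

theorem t2a_normsq {n : ℕ} {U : Matrix (Fin n) (Fin n) ℝ} (h2 : Uᵀ * U = 1) (x : Fin n → ℝ) :
    ∑ i, (U *ᵥ x) i ^ 2 = ∑ i, x i ^ 2 := by
  have : (U *ᵥ x) ⬝ᵥ (U *ᵥ x) = x ⬝ᵥ x := by
    rw [dotProduct_mulVec, vecMul_mulVec, h2, vecMul_one]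
  simpa only [dotProduct, sq] using this

theorem t2a_gauss_int {n : ℕ} {c : ℝ} (hc : 0 < c) :
    Integrable (fun z : Fin n → ℝ => Real.exp (-c * ∑ i, z i ^ 2)) := by
  have h := Integrable.fintype_prod (ι := Fin n) (μ := fun _ => (volume : Measure ℝ))
    (f := fun _ (x : ℝ) => Real.exp (-c * x ^ 2)) (fun _ => integrable_exp_neg_mul_sq hc)
  have e : (fun z : Fin n → ℝ => Real.exp (-c * ∑ i, z i ^ 2)) =
      fun z : Fin n → ℝ => ∏ i, Real.exp (-c * z i ^ 2) := by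
    funext z
    rw [Finset.mul_sum, Real.exp_sum]
  rw [e]
  exact h

theorem det_gauss {n : ℕ} (B : Matrix (Fin n) (Fin n) ℝ) (hB : B.IsSymm) {τ : ℝ} (hτ : 0 < τ) :
    1 / Real.sqrt (B * B + (τ ^ 2) • (1 : Matrix (Fin n) (Fin n) ℝ)).det =
      (1 / (2 * Real.pi)) ^ n * ∫ yz : (Fin n → ℝ) × (Fin n → ℝ),
        Real.exp (-(τ / 2) * (∑ i, yz.1 i ^ 2 + ∑ i, yz.2 i ^ 2)) *
          Real.cos (yz.2 ⬝ᵥ (B *ᵥ yz.1)) := by
  obtain ⟨U, d, h1, h2, hBU⟩ := t2a_diag B hB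
  have hτ2 : 0 < τ / 2 := by positivity
  -- integrability on the product
  have hint : Integrable (fun yz : (Fin n → ℝ) × (Fin n → ℝ) =>
      Real.exp (-(τ / 2) * (∑ i, yz.1 i ^ 2 + ∑ i, yz.2 i ^ 2)) *
        Real.cos (yz.2 ⬝ᵥ (B *ᵥ yz.1))) (volume.prod volume) := by
    have hg := (t2a_gauss_int (n := n) hτ2).mul_prod (t2a_gauss_int (n := n) hτ2)
    refine hg.mono' ?_ (Eventually.of_forall fun yz => ?_)
    · refine Continuous.aestronglyMeasurable ?_
      fun_prop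
    · rw [Real.norm_eq_abs, abs_mul, abs_of_pos (Real.exp_pos _), ← Real.exp_add, ← mul_add]
      exact mul_le_of_le_one_right (Real.exp_pos _).le (Real.abs_cos_le_one _)
  rw [Measure.volume_eq_prod, integral_prod _ hint]
  have hin : ∀ y : Fin n → ℝ, ∫ z : Fin n → ℝ,
      Real.exp (-(τ / 2) * (∑ i, y i ^ 2 + ∑ i, z i ^ 2)) * Real.cos (z ⬝ᵥ (B *ᵥ y)) =
      Real.sqrt (2 * Real.pi / τ) ^ n *
        (Real.exp (-(τ / 2) * ∑ i, y i ^ 2) * Real.exp (-(∑ i, (B *ᵥ y) i ^ 2) / (2 * τ))) := by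
    intro y
    simp_rw [mul_add, Real.exp_add, mul_assoc]
    rw [integral_const_mul, t2a_fourier hτ]
    ring
  simp_rw [hin]
  rw [integral_const_mul, t2a_cov h1 _ (by fun_prop)]
  have hx : ∀ x : Fin n → ℝ,
      Real.exp (-(τ / 2) * ∑ i, (U *ᵥ x) i ^ 2) *
        Real.exp (-(∑ i, (B *ᵥ (U *ᵥ x)) i ^ 2) / (2 * τ)) =
      ∏ i, Real.exp (-((d i ^ 2 + τ ^ 2) / (2 * τ)) * x i ^ 2) := by
    intro x
    have e : B *ᵥ (U *ᵥ x) = U *ᵥ (diagonal d *ᵥ x) := by
      rw [mulVec_mulVec, mulVec_mulVec, hBU, Matrix.mul_assoc, h2, Matrix.mul_one]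
    rw [e, t2a_normsq h2, t2a_normsq h2, ← Real.exp_add, ← Real.exp_sum]
    congr 1
    rw [Finset.mul_sum, ← Finset.sum_neg_distrib, Finset.sum_div, ← Finset.sum_add_distrib]
    refine Finset.sum_congr rfl fun i _ => ?_
    rw [mulVec_diagonal]
    field_simp
    ring
  simp_rw [hx]
  rw [integral_fintype_prod_volume_eq_prod
    (f := fun i (x : ℝ) => Real.exp (-((d i ^ 2 + τ ^ 2) / (2 * τ)) * x ^ 2))]
  simp_rw [integral_gaussian]
  rw [t2a_det h1 h2 hBU, Real.sqrt_prod _ (fun i _ => by positivity)]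
  have e1 : (1 / (2 * Real.pi)) ^ n = ∏ _i : Fin n, (1 / (2 * Real.pi)) := by simp
  have e2 : Real.sqrt (2 * Real.pi / τ) ^ n = ∏ _i : Fin n, Real.sqrt (2 * Real.pi / τ) := by simp
  rw [e1, e2, ← Finset.prod_mul_distrib, ← Finset.prod_mul_distrib, one_div,
    ← Finset.prod_inv_distrib]
  refine Finset.prod_congr rfl fun i _ => ?_
  have hp : 0 < d i ^ 2 + τ ^ 2 := by positivity
  have hpi := Real.pi_pos
  rw [← Real.sqrt_mul (by positivity)]
  have e3 : 2 * Real.pi / τ * (Real.pi / ((d i ^ 2 + τ ^ 2) / (2 * τ))) =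
      (2 * Real.pi) ^ 2 / (d i ^ 2 + τ ^ 2) := by
    field_simp
  rw [e3, Real.sqrt_div (by positivity), Real.sqrt_sq (by positivity)]
  field_simp

theorem det_reg_pos {n : ℕ} (B : Matrix (Fin n) (Fin n) ℝ) (hB : B.IsSymm) {a : ℝ} (ha : 0 < a) :
    0 < (B * B + a • (1 : Matrix (Fin n) (Fin n) ℝ)).det := by
  obtain ⟨U, d, h1, h2, hBU⟩ := t2a_diag B hB
  rw [t2a_det h1 h2 hBU]
  exact Finset.prod_pos fun i _ => by positivity

/-- Log-convexity of the regularised determinant in `log a` (Hölder on the eigenvalues). -/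
theorem det_reg_holder {n : ℕ} (B : Matrix (Fin n) (Fin n) ℝ) (hB : B.IsSymm) {a b w : ℝ}
    (ha : 0 < a) (hb : 0 < b) (hw0 : 0 ≤ w) (hw1 : w ≤ 1) :
    (B * B + (a ^ w * b ^ (1 - w)) • (1 : Matrix (Fin n) (Fin n) ℝ)).det ≤
      (B * B + a • (1 : Matrix (Fin n) (Fin n) ℝ)).det ^ w *
        (B * B + b • (1 : Matrix (Fin n) (Fin n) ℝ)).det ^ (1 - w) := by
  obtain ⟨U, d, h1, h2, hBU⟩ := t2a_diag B hB
  rw [t2a_det h1 h2 hBU, t2a_det h1 h2 hBU, t2a_det h1 h2 hBU,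
    ← Real.finsetProd_rpow _ _ (fun i _ => by positivity),
    ← Real.finsetProd_rpow _ _ (fun i _ => by positivity), ← Finset.prod_mul_distrib]
  refine Finset.prod_le_prod (fun i _ => by positivity) fun i _ => ?_
  exact t2a_holder_pt (sq_nonneg _) ha hb hw0 hw1

theorem det_reg_mono {n : ℕ} (B : Matrix (Fin n) (Fin n) ℝ) (hB : B.IsSymm) {a b : ℝ}
    (ha : 0 ≤ a) (hab : a ≤ b) :
    (B * B + a • (1 : Matrix (Fin n) (Fin n) ℝ)).det ≤
      (B * B + b • (1 : Matrix (Fin n) (Fin n) ℝ)).det := by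
  obtain ⟨U, d, h1, h2, hBU⟩ := t2a_diag B hB
  rw [t2a_det h1 h2 hBU, t2a_det h1 h2 hBU]
  exact Finset.prod_le_prod (fun i _ => by positivity) fun i _ => by linarith

theorem det_reg_le {n : ℕ} {B : Matrix (Fin n) (Fin n) ℤ} (hB : IsSS B) :
    ((B.map (Int.cast : ℤ → ℝ)) * (B.map (Int.cast : ℤ → ℝ)) +
      (n : ℝ) • (1 : Matrix (Fin n) (Fin n) ℝ)).det ≤ (2 * (n : ℝ)) ^ n := by
  rcases Nat.eq_zero_or_pos n with rfl | hn
  · simp
  have hs : (B.map (Int.cast : ℤ → ℝ)).IsSymm := hB.1.map _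
  obtain ⟨U, d, h1, h2, hBU⟩ := t2a_diag _ hs
  have htr := t2a_trace h1 h2 hBU
  have htr2 : ((B.map (Int.cast : ℤ → ℝ)) * (B.map (Int.cast : ℤ → ℝ))).trace = (n : ℝ) ^ 2 := by
    have : ∀ i j, (B.map (Int.cast : ℤ → ℝ)) i j * (B.map (Int.cast : ℤ → ℝ)) j i = 1 := by
      intro i j
      have hij : B j i = B i j := hB.1.apply i j
      simp only [map_apply, hij]
      rcases hB.2 i j with h | h <;> simp [h]
    simp only [Matrix.trace, Matrix.diag, Matrix.mul_apply, this]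
    simp [sq]
  rw [t2a_det h1 h2 hBU]
  have hn' : (0 : ℝ) < n := by exact_mod_cast hn
  have hsum : ∑ i, d i ^ 2 = (n : ℝ) ^ 2 := by rw [← htr, htr2]
  -- `∏ x_i ≤ exp (∑ (x_i - 1)) = 1` for `x_i = (d_i² + n) / (2n)`
  have hle : ∏ i, ((d i ^ 2 + n) / (2 * (n : ℝ))) ≤ 1 := by
    calc ∏ i, ((d i ^ 2 + n) / (2 * (n : ℝ)))
        ≤ ∏ i, Real.exp ((d i ^ 2 + n) / (2 * (n : ℝ)) - 1) :=
          Finset.prod_le_prod (fun i _ => by positivity) fun i _ => by
            linarith [Real.add_one_le_exp ((d i ^ 2 + n) / (2 * (n : ℝ)) - 1)]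
      _ = Real.exp (∑ i, ((d i ^ 2 + n) / (2 * (n : ℝ)) - 1)) := (Real.exp_sum _ _).symm
      _ = 1 := by
          rw [Finset.sum_sub_distrib, ← Finset.sum_div, Finset.sum_add_distrib, hsum]
          simp only [Finset.sum_const, Finset.card_univ, Fintype.card_fin, nsmul_eq_mul]
          rw [show ((n : ℝ) ^ 2 + n * n) / (2 * n) - n * 1 = 0 by field_simp; ring, Real.exp_zero]
  rw [Finset.prod_div_distrib, Finset.prod_const, Finset.card_univ, Fintype.card_fin,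
    div_le_one (by positivity)] at hle
  exact hle

end Crest.Agent.R152
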