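import Crest.Agent.R152.PrA

/-! # Row 152: characteristic function of the bilinear form -/

set_option autoImplicit false
open Matrix Filter MeasureTheory
open Crest.FinProb Crest.ProbabilityR.SignMatrix Crest.Agent.Lib.BiasedCube

noncomputable section
namespace Crest.Agent.R152

/-- The indices where both vectors are small. -/
def smallIdx {n : ℕ} (y z : Fin n → ℝ) : Finset (Fin n) :=
  Finset.univ.filter fun i => |y i| ≤ 1 / 2 ∧ |z i| ≤ 1 / 2

/-- Sum over the ordered pairs above an unordered pair. -/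
def t2bF {n : ℕ} (f : Fin n × Fin n → ℝ) (e : Sym2 (Fin n)) : ℝ :=
  ∑ q ∈ Finset.univ.filter (fun q : Fin n × Fin n => s(q.1, q.2) = e), f q

theorem t2b_F_mk {n : ℕ} (f : Fin n × Fin n → ℝ) (i j : Fin n) :
    t2bF f s(i, j) = if i = j then f (i, i) else f (i, j) + f (j, i) := by
  have e : Finset.univ.filter (fun q : Fin n × Fin n => s(q.1, q.2) = s(i, j)) =
      {(i, j), (j, i)} := by
    ext ⟨a, b⟩
    simp only [Finset.mem_filter, Finset.mem_univ, true_and, Sym2.eq_iff, Finset.mem_insert,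
      Finset.mem_singleton, Prod.mk.injEq]
  rw [t2bF, e]
  split_ifs with h
  · subst h
    simp
  · rw [Finset.sum_pair]
    intro h'
    exact h (Prod.mk.inj h').1

theorem t2b_sum_F {n : ℕ} (f : Fin n × Fin n → ℝ) : ∑ e, t2bF f e = ∑ q, f q :=
  Finset.sum_fiberwise _ _ _

theorem t2b_form {n : ℕ} (y z : Fin n → ℝ) (ω : Om n) :
    z ⬝ᵥ (((mat ω).map (Int.cast : ℤ → ℝ)) *ᵥ y) =
      ∑ e, t2bF (fun q => z q.1 * y q.2) e * (if ω e then 1 else -1) := by
  have e1 : ∀ e, t2bF (fun q => z q.1 * y q.2) e * (if ω e then 1 else -1) =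
      t2bF (fun q => z q.1 * y q.2 * (if ω s(q.1, q.2) then 1 else -1)) e := by
    intro e
    rw [t2bF, t2bF, Finset.sum_mul]
    refine Finset.sum_congr rfl fun q hq => ?_
    rw [(Finset.mem_filter.1 hq).2]
  simp only [e1, t2b_sum_F, Fintype.sum_prod_type, dotProduct, mulVec, Finset.mul_sum]
  refine Finset.sum_congr rfl fun i _ => Finset.sum_congr rfl fun j _ => ?_
  simp only [mat, symSignMatrix, Matrix.map_apply, Matrix.of_apply]
  split_ifs <;> simp

theorem t2b_sq {n : ℕ} (y z : Fin n → ℝ) :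
    (∑ i, y i ^ 2) * ∑ i, z i ^ 2 ≤ 2 * ∑ e, t2bF (fun q => z q.1 * y q.2) e ^ 2 := by
  have h1 : ∑ q : Fin n × Fin n, (z q.1 * y q.2 + z q.2 * y q.1) ^ 2 =
      2 * ((∑ i, y i ^ 2) * ∑ i, z i ^ 2) + 2 * (∑ i, y i * z i) ^ 2 := by
    have a1 : (∑ i, y i ^ 2) * ∑ i, z i ^ 2 = ∑ i, ∑ j, y i ^ 2 * z j ^ 2 :=
      Finset.sum_mul_sum _ _ _ _
    have a2 : (∑ i, y i ^ 2) * ∑ i, z i ^ 2 = ∑ i, ∑ j, y j ^ 2 * z i ^ 2 := by
      rw [a1, Finset.sum_comm]
    have a3 : (∑ i, y i * z i) ^ 2 = ∑ i, ∑ j, y i * z i * (y j * z j) := by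
      rw [sq, Finset.sum_mul_sum]
    rw [two_mul ((∑ i, y i ^ 2) * _)]
    nth_rewrite 1 [a1]
    rw [a2, a3, Fintype.sum_prod_type, Finset.mul_sum, ← Finset.sum_add_distrib,
      ← Finset.sum_add_distrib]
    refine Finset.sum_congr rfl fun i _ => ?_
    rw [Finset.mul_sum, ← Finset.sum_add_distrib, ← Finset.sum_add_distrib]
    exact Finset.sum_congr rfl fun j _ => by ring
  have h2 : ∑ q : Fin n × Fin n, (z q.1 * y q.2 + z q.2 * y q.1) ^ 2 ≤
      4 * ∑ e, t2bF (fun q => z q.1 * y q.2) e ^ 2 := by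
    rw [← t2b_sum_F, Finset.mul_sum]
    refine Finset.sum_le_sum fun e _ => ?_
    induction e using Sym2.ind with
    | _ i j =>
      rw [t2b_F_mk, t2b_F_mk]
      split_ifs
      · exact le_of_eq (by ring)
      · nlinarith [sq_nonneg (z i * y j + z j * y i)]
  nlinarith [sq_nonneg (∑ i, y i * z i)]

theorem t2b_phi_sq (p t : ℝ) :
    ‖(p : ℂ) * Complex.exp ((t * 1 : ℝ) * Complex.I) +
      ((1 - p : ℝ) : ℂ) * Complex.exp ((t * -1 : ℝ) * Complex.I)‖ ^ 2 =
      1 - 4 * (p * (1 - p)) * Real.sin t ^ 2 := by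
  rw [Complex.sq_norm, Complex.normSq_apply]
  simp only [Complex.add_re, Complex.add_im, Complex.re_ofReal_mul, Complex.im_ofReal_mul,
    Complex.exp_ofReal_mul_I_re, Complex.exp_ofReal_mul_I_im, mul_one, mul_neg, Real.cos_neg,
    Real.sin_neg]
  linear_combination Real.sin_sq_add_cos_sq t

theorem t2b_phi {p t s : ℝ} (h0 : 0 ≤ p) (h1 : p ≤ 1) (hs : s = 0 ∨ (s = t ∧ |t| ≤ 1 / 2)) :
    ‖(p : ℂ) * Complex.exp ((t * 1 : ℝ) * Complex.I) +
      ((1 - p : ℝ) : ℂ) * Complex.exp ((t * -1 : ℝ) * Complex.I)‖ ≤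
      Real.exp (-(p * (1 - p) / 2) * s ^ 2) := by
  have hpq : 0 ≤ p * (1 - p) := mul_nonneg h0 (by linarith)
  have h2 : s ^ 2 ≤ 4 * Real.sin t ^ 2 := by
    rcases hs with rfl | ⟨rfl, hs⟩
    · nlinarith [sq_nonneg (Real.sin t)]
    · have h3 := Real.mul_abs_le_abs_sin (x := s) (by linarith [Real.pi_gt_three])
      have h4 : 1 / 2 ≤ 2 / Real.pi := by
        rw [div_le_div_iff₀ (by norm_num) Real.pi_pos]
        linarith [Real.pi_le_four]
      have h5 : |s| ≤ 2 * |Real.sin s| := by nlinarith [abs_nonneg s]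
      have h6 := pow_le_pow_left₀ (abs_nonneg s) h5 2
      rw [mul_pow, sq_abs, sq_abs] at h6
      linarith
  refine (pow_le_pow_iff_left₀ (norm_nonneg _) (Real.exp_pos _).le two_ne_zero).1 ?_
  rw [t2b_phi_sq, ← Real.exp_nat_mul]
  refine le_trans ?_ (Real.add_one_le_exp _)
  push_cast
  nlinarith [mul_le_mul_of_nonneg_left h2 hpq]

theorem t2b_prod {ι : Type} [Fintype ι] [DecidableEq ι] (p : ℝ) (c : ι → ℝ) :
    Ex p (fun ω : ι → Bool => Real.cos (∑ e, c e * (if ω e then 1 else -1))) =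
      (∏ e, ((p : ℂ) * Complex.exp ((c e * 1 : ℝ) * Complex.I) +
        ((1 - p : ℝ) : ℂ) * Complex.exp ((c e * -1 : ℝ) * Complex.I))).re := by
  have e1 : ∀ e, (p : ℂ) * Complex.exp ((c e * 1 : ℝ) * Complex.I) +
      ((1 - p : ℝ) : ℂ) * Complex.exp ((c e * -1 : ℝ) * Complex.I) =
      ∑ b : Bool, (cw p b : ℂ) * Complex.exp ((c e * (if b then 1 else -1) : ℝ) * Complex.I) := by
    intro e
    simp [cw]
  simp only [e1]
  rw [Finset.prod_univ_sum, Fintype.piFinset_univ, Complex.re_sum, Ex]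
  refine Finset.sum_congr rfl fun ω _ => ?_
  rw [Finset.prod_mul_distrib, ← Complex.exp_sum, ← Finset.sum_mul, ← Complex.ofReal_sum,
    ← Complex.ofReal_prod, Complex.re_ofReal_mul, Complex.exp_ofReal_mul_I_re, bw_eq]

theorem char_bound {n : ℕ} {p : ℝ} (h0 : 0 ≤ p) (h1 : p ≤ 1) (y z : Fin n → ℝ) :
    |Ex p (fun ω : Om n => Real.cos (z ⬝ᵥ (((mat ω).map (Int.cast : ℤ → ℝ)) *ᵥ y)))| ≤
      Real.exp (-(p * (1 - p) / 4) *
        ((∑ i ∈ smallIdx y z, y i ^ 2) * ∑ i ∈ smallIdx y z, z i ^ 2)) := by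
  classical
  set I := smallIdx y z with hI
  set y' : Fin n → ℝ := fun i => if i ∈ I then y i else 0 with hy'
  set z' : Fin n → ℝ := fun i => if i ∈ I then z i else 0 with hz'
  have hy2 : ∑ i ∈ I, y i ^ 2 = ∑ i, y' i ^ 2 := by
    simp [hy', Finset.sum_ite_mem]
  have hz2 : ∑ i ∈ I, z i ^ 2 = ∑ i, z' i ^ 2 := by
    simp [hz', Finset.sum_ite_mem]
  have hsm : ∀ i ∈ I, ∀ j ∈ I, |z i * y j| ≤ 1 / 4 := by
    intro i hi j hj
    have a1 := (Finset.mem_filter.1 hi).2.2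
    have a2 := (Finset.mem_filter.1 hj).2.1
    rw [abs_mul]
    nlinarith [abs_nonneg (z i), abs_nonneg (y j)]
  have hc : ∀ e, t2bF (fun q => z' q.1 * y' q.2) e = 0 ∨
      (t2bF (fun q => z' q.1 * y' q.2) e = t2bF (fun q => z q.1 * y q.2) e ∧
        |t2bF (fun q => z q.1 * y q.2) e| ≤ 1 / 2) := by
    intro e
    induction e using Sym2.ind with
    | _ i j =>
      rw [t2b_F_mk, t2b_F_mk]
      by_cases hi : i ∈ I
      · by_cases hj : j ∈ I
        · right
          refine ⟨by simp [hy', hz', hi, hj], ?_⟩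
          split_ifs
          · linarith [hsm i hi i hi]
          · exact (abs_add_le _ _).trans (by linarith [hsm i hi j hj, hsm j hj i hi])
        · left
          have hij : i ≠ j := fun h => hj (h ▸ hi)
          simp [hy', hz', hj, hij]
      · left
        simp [hy', hz', hi]
  simp only [t2b_form]
  rw [t2b_prod, hy2, hz2]
  refine (Complex.abs_re_le_norm _).trans ?_
  rw [norm_prod]
  refine (Finset.prod_le_prod (fun e _ => norm_nonneg _)
    fun e _ => t2b_phi h0 h1 (hc e)).trans ?_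
  rw [← Real.exp_sum, Real.exp_le_exp, ← Finset.mul_sum]
  have hpq : 0 ≤ p * (1 - p) := mul_nonneg h0 (by linarith)
  nlinarith [mul_le_mul_of_nonneg_left (t2b_sq y' z') hpq]

end Crest.Agent.R152
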