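import Crest.Agent.R152.PrB

/-! # Row 152: all but boundedly many rows are typical; the lower bound -/

set_option autoImplicit false
open Matrix Filter MeasureTheory
open Crest.FinProb Crest.ProbabilityR.SignMatrix Crest.Agent.Lib.BiasedCube

noncomputable section
namespace Crest.Agent.R152

/-- The rows whose weight is atypically large. -/
def atyp (p ε : ℝ) {n : ℕ} (ω : Om n) : Finset (Fin n) :=
  Finset.univ.filter fun j => (rr p * Real.exp ε) ^ n < bernoulliWeight p (row ω j)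

theorem prTyp_cw_le_one {p : ℝ} (h0 : 0 ≤ p) (h1 : p ≤ 1) (b : Bool) : cw p b ≤ 1 := by
  cases b
  · rw [cw_false]; linarith
  · rw [cw_true]; exact h1

theorem prTyp_fixed {p : ℝ} (h0 : 0 ≤ p) (h1 : p ≤ 1) (ε : ℝ) {n : ℕ} (G : Finset (Fin n)) :
    bernoulliProb p {ω : Om n | ∀ j ∈ G,
      (rr p * Real.exp ε) ^ n < bernoulliWeight p (row ω j)} ≤
      (2 ^ G.card / Real.exp ε ^ n) ^ G.card := by
  have ha : 0 < (rr p * Real.exp ε) ^ n := pow_pos (mul_pos (rr_pos p) (Real.exp_pos ε)) n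
  refine expose h0 h1 Gᶜ ∅ G disjoint_compl_right (Finset.disjoint_empty_right G)
    (fun j ω => (rr p * Real.exp ε) ^ n < bernoulliWeight p (row ω j)) (by positivity)
    fun j _ ω => ?_
  have hg : ∀ x : Fin n → Bool, 0 ≤ ∏ k, if k ∈ G then 1 else cw p (x k) := fun x =>
    Finset.prod_nonneg fun k _ => by
      split_ifs
      · exact zero_le_one
      · exact cw_nonneg h0 h1 _
  refine le_trans (P_mono h0 h1 (B := {x | (rr p * Real.exp ε) ^ n ≤
    ∏ k, if k ∈ G then 1 else cw p (x k)}) ?_) ((P_markov h0 h1 hg ha).trans ?_)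
  · rintro x ⟨ω', h2, -, h3⟩
    refine h2.le.trans ?_
    rw [bw_eq]
    refine Finset.prod_le_prod (fun k _ => cw_nonneg h0 h1 _) fun k _ => ?_
    split_ifs with hk
    · exact prTyp_cw_le_one h0 h1 _
    · exact le_of_eq (congrArg (cw p) (h3 k (Finset.mem_compl.2 hk)))
  · rw [Ex_prod p (fun k b => if k ∈ G then 1 else cw p b), div_le_div_iff₀ ha (by positivity),
      mul_pow, ← mul_assoc]
    refine mul_le_mul_of_nonneg_right ?_ (by positivity)
    have e : (2 : ℝ) ^ G.card * rr p ^ n = ∏ k : Fin n, (if k ∈ G then 2 else 1) * rr p := by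
      rw [Finset.prod_mul_distrib, Finset.prod_ite_mem, Finset.univ_inter, Finset.prod_const,
        Finset.prod_const, Finset.card_univ, Fintype.card_fin]
    rw [e]
    have h4 := half_le_rr p
    refine Finset.prod_le_prod (fun k _ => ?_) fun k _ => ?_
    · split_ifs
      · linarith
      · exact add_nonneg (mul_nonneg h0 (cw_nonneg h0 h1 _))
          (mul_nonneg (by linarith) (cw_nonneg h0 h1 _))
    · split_ifs
      · linarith
      · rw [cw_true, cw_false, rr]
        exact le_of_eq (by ring)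

theorem sm_atyp {p : ℝ} (h0 : 0 < p) (h1 : p < 1) {ε : ℝ} (hε : 0 < ε) :
    ∃ K : ℕ, Sm p ε (fun n => {ω : Om n | K < (atyp p ε ω).card}) := by
  obtain ⟨K, hK⟩ := exists_nat_ge (1 / ε)
  refine ⟨K, ?_⟩
  have h2 : 2 ≤ Real.exp ε ^ (K + 1) := by
    rw [← Real.exp_nat_mul]
    have h3 : 1 ≤ ((K + 1 : ℕ) : ℝ) * ε := by
      rw [div_le_iff₀ hε] at hK
      push_cast
      linarith
    linarith [Real.add_one_le_exp (((K + 1 : ℕ) : ℝ) * ε)]
  have hc : (0 : ℝ) < ((2 ^ (K + 1)) ^ (K + 1))⁻¹ := by positivity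
  filter_upwards [tendsto_natCast_atTop_atTop.eventually
    ((isLittleO_pow_exp_pos_mul_atTop (K + 1) hε).bound hc)] with n hn
  rw [Real.norm_of_nonneg (by positivity), Real.norm_of_nonneg (Real.exp_pos _).le,
    mul_comm ε, Real.exp_nat_mul, le_inv_mul_iff₀ (by positivity)] at hn
  refine (P_le_card_mul h0.le h1.le (Finset.powersetCard (K + 1) Finset.univ)
    (fun G => {ω : Om n | ∀ j ∈ G, (rr p * Real.exp ε) ^ n < bernoulliWeight p (row ω j)})
    (c := (2 ^ (K + 1) / Real.exp ε ^ n) ^ (K + 1)) (fun ω hω => ?_) fun G hG => ?_).trans ?_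
  · obtain ⟨G, hG, hc⟩ := Finset.exists_subset_card_eq (Nat.succ_le_of_lt hω)
    exact ⟨G, Finset.mem_powersetCard.2 ⟨Finset.subset_univ G, hc⟩,
      fun j hj => (Finset.mem_filter.1 (hG hj)).2⟩
  · have h3 := prTyp_fixed h0.le h1.le ε G
    rwa [(Finset.mem_powersetCard.1 hG).2] at h3
  · rw [Finset.card_powersetCard, Finset.card_univ, Fintype.card_fin, div_pow, ← mul_div_assoc,
      div_le_iff₀ (by positivity), mul_pow, pow_right_comm (Real.exp ε) n]
    have h3 : (n.choose (K + 1) : ℝ) ≤ (n : ℝ) ^ (K + 1) := by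
      exact_mod_cast Nat.choose_le_pow n (K + 1)
    have h4 : 1 ≤ rr p ^ n * (Real.exp ε ^ (K + 1)) ^ n := by
      rw [← mul_pow]
      refine one_le_pow₀ ?_
      nlinarith [half_le_rr p]
    calc _ ≤ (2 ^ (K + 1)) ^ (K + 1) * (n : ℝ) ^ (K + 1) := by
          rw [mul_comm]
          exact mul_le_mul_of_nonneg_left h3 (by positivity)
      _ ≤ Real.exp ε ^ n := hn
      _ ≤ Real.exp ε ^ n * (rr p ^ n * (Real.exp ε ^ (K + 1)) ^ n) :=
          le_mul_of_one_le_right (by positivity) h4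
      _ = _ := by ring

/-- The positions of the first two rows. -/
def prTypF (m : ℕ) : Option (Bool × Fin (m + 1)) → Sym2 (Fin (m + 2))
  | none => s(0, 0)
  | some q => s(if q.1 then 1 else 0, q.2.succ)

theorem prTypF_inj (m : ℕ) : Function.Injective (prTypF m) := by
  have h1 : ((1 : Fin (m + 2)) : ℕ) = 1 := rfl
  have h0 : ((0 : Fin (m + 2)) : ℕ) = 0 := rfl
  rintro (_ | ⟨b, k⟩) (_ | ⟨b', k'⟩) h
  · rfl
  · exfalso
    cases b' <;> simp only [prTypF, Sym2.eq_iff, Fin.ext_iff, Fin.val_succ, h0, h1, if_true,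
      Bool.false_eq_true, if_false] at h <;> omega
  · exfalso
    cases b <;> simp only [prTypF, Sym2.eq_iff, Fin.ext_iff, Fin.val_succ, h0, h1, if_true,
      Bool.false_eq_true, if_false] at h <;> omega
  · cases b <;> cases b' <;> simp only [prTypF, Sym2.eq_iff, Fin.ext_iff, Fin.val_succ, h0, h1,
      if_true, Bool.false_eq_true, if_false, Option.some.injEq, Prod.mk.injEq, true_and,
      Bool.true_eq_false, false_and] at h ⊢ <;> omega

/-- Two equal rows. -/
def prTypG {m : ℕ} (z : Fin (m + 1) → Bool) : Option (Bool × Fin (m + 1)) → Bool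
  | none => z 0
  | some q => z q.2

theorem prTypG_inj (m : ℕ) : Function.Injective (prTypG (m := m)) := fun _ _ h =>
  funext fun k => congrFun h (some (true, k))

theorem prTyp_range {p : ℝ} (h0 : 0 ≤ p) (h1 : p ≤ 1) (m : ℕ) :
    p * (1 - p) * rr p ^ (m + 1) ≤ bernoulliProb p (Set.range (prTypG (m := m))) := by
  classical
  have e1 : bernoulliProb p (Set.range (prTypG (m := m)))
      = ∑ z : Fin (m + 1) → Bool, bernoulliWeight p (prTypG z) := by
    rw [← Finset.sum_image (f := bernoulliWeight p) fun a _ b _ h => prTypG_inj m h]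
    unfold bernoulliProb
    refine Finset.sum_congr ?_ fun _ _ => rfl
    ext y
    simp
  have e2 : rr p ^ (m + 1)
      = ∑ z : Fin (m + 1) → Bool, bernoulliWeight p z * ∏ k, cw p (z k) := by
    have h := Ex_prod (ι := Fin (m + 1)) p (fun _ b => cw p b)
    rw [Finset.prod_const, Finset.card_univ, Fintype.card_fin, cw_true, cw_false] at h
    rw [rr, sq, sq, ← h]
    rfl
  rw [e1, e2, Finset.mul_sum]
  refine Finset.sum_le_sum fun z _ => ?_
  rw [bw_eq, bw_eq, Fintype.prod_option, Fintype.prod_prod_type, Fintype.prod_bool]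
  refine mul_le_mul_of_nonneg_right ?_ (mul_nonneg
    (Finset.prod_nonneg fun k _ => cw_nonneg h0 h1 _) (Finset.prod_nonneg fun k _ => cw_nonneg h0 h1 _))
  change _ ≤ cw p (z 0)
  cases z 0
  · rw [cw_false]; nlinarith
  · rw [cw_true]; nlinarith

/-- Two equal rows. -/
theorem lower_bound {p : ℝ} (h0 : 0 < p) (h1 : p < 1) :
    ∃ c : ℝ, 0 < c ∧ ∀ n : ℕ, 2 ≤ n → c * rr p ^ n ≤ singularProb n p := by
  have hc : 0 < p * (1 - p) := mul_pos h0 (sub_pos.2 h1)
  refine ⟨p * (1 - p), hc, fun n hn => ?_⟩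
  obtain ⟨m, rfl⟩ := Nat.exists_eq_add_of_le' hn
  have h2 : rr p ^ (m + 2) ≤ rr p ^ (m + 1) :=
    pow_le_pow_of_le_one (rr_pos p).le (rr_lt_one h0 h1).le (by omega)
  refine (mul_le_mul_of_nonneg_left h2 hc.le).trans ((prTyp_range h0.le h1.le m).trans ?_)
  rw [← P_comp_inj (prTypF m) (prTypF_inj m)]
  refine P_mono h0.le h1.le ?_
  rintro ω ⟨z, hz⟩
  refine Matrix.det_zero_of_row_eq (i := 0) (j := 1) Fin.zero_ne_one' ?_
  have a0 : z 0 = ω s(0, 0) := congrFun hz none
  have a1 : ∀ k, z k = ω s(0, k.succ) := fun k => congrFun hz (some (false, k))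
  have a2 : ∀ k, z k = ω s(1, k.succ) := fun k => congrFun hz (some (true, k))
  funext k
  change sg (ω s(0, k)) = sg (ω s(1, k))
  congr 1
  refine Fin.cases ?_ (fun k => ?_) k
  · rw [← a0, a1 0, Sym2.eq_swap]
    rfl
  · rw [← a1, a2]

end Crest.Agent.R152
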