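import Crest.Agent.R152.PrSP

/-! # Row 152: kernel vectors modulo primes have large support -/

set_option autoImplicit false
open Matrix Filter MeasureTheory
open Crest.FinProb Crest.ProbabilityR.SignMatrix Crest.Agent.Lib.BiasedCube

noncomputable section
namespace Crest.Agent.R152

/-- A few rows see everything that all the rows see. -/
private theorem WS_span {K : Type} [Field K] {n : ℕ} (T S : Finset (Fin n))
    (M : Fin n → Fin n → K) : ∃ J : Finset (Fin n), J ⊆ T ∧ J.card ≤ S.card ∧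
      ∀ u : Fin n → K, (∀ j ∈ J, ∑ k ∈ S, M j k * u k = 0) →
        ∀ j ∈ T, ∑ k ∈ S, M j k * u k = 0 := by
  classical
  obtain ⟨b, hbT, -, hsp, hli⟩ := exists_linearIndepOn_extension
    (v := fun j (k : S) => M j k) (linearIndepOn_empty K _) (Set.empty_subset (T : Set (Fin n)))
  refine ⟨b.toFinset, fun j hj => hbT (Set.mem_toFinset.1 hj), ?_, fun u hu j hj => ?_⟩
  · have := LinearIndependent.fintype_card_le_finrank hli
    simpa [Set.toFinset_card] using this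
  · let φ : (S → K) →ₗ[K] K :=
      { toFun := fun x => ∑ k : S, x k * u k
        map_add' := fun x y => by simp [add_mul, Finset.sum_add_distrib]
        map_smul' := fun c x => by simp [Finset.mul_sum, mul_assoc] }
    have hφ : ∀ i, φ (fun k : S => M i k) = ∑ k ∈ S, M i k * u k := fun i =>
      Finset.sum_coe_sort S fun k => M i k * u k
    have h1 : Submodule.span K ((fun j (k : S) => M j k) '' b) ≤ LinearMap.ker φ := by
      rw [Submodule.span_le]
      rintro _ ⟨i, hi, rfl⟩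
      exact (hφ i).trans (hu i (Set.mem_toFinset.2 hi))
    rw [← hφ]
    exact h1 (hsp ⟨j, hj, rfl⟩)

private theorem WS_pow {p : ℝ} {n g : ℕ} (hg : g ≤ n) :
    rr p ^ g ≤ rr p ^ n * Real.exp ((n : ℝ) - g) := by
  obtain ⟨d, rfl⟩ := Nat.exists_eq_add_of_le hg
  have h1 : 1 ≤ rr p * Real.exp 1 := by
    have := Real.add_one_le_exp 1
    nlinarith [half_le_rr p]
  have h2 : Real.exp (((g + d : ℕ) : ℝ) - g) = Real.exp 1 ^ d := by
    rw [← Real.exp_nat_mul]
    congr 1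
    push_cast
    ring
  rw [h2, pow_add, mul_assoc, ← mul_pow]
  exact le_mul_of_one_le_right (pow_nonneg (rr_pos p).le _) (one_le_pow₀ h1)

/-- The union bound over the small sets `S`, `J` and a label `a`. -/
private theorem WS_union {p : ℝ} (h0 : 0 < p) (h1 : p < 1) {ε : ℝ} (hε : 0 < ε) :
    ∃ γ : ℝ, 0 < γ ∧ γ ≤ 1 ∧
      ∀ H : ∀ n : ℕ, Finset (Fin n) → Finset (Fin n) → ℕ → Set (Om n),
        (∀ n S J a, bernoulliProb p (H n S J a) ≤ rr p ^ (S ∪ J)ᶜ.card) →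
        Sm p ε fun n => {ω | ∃ S J a, (S.card : ℝ) ≤ γ * n ∧ (J.card : ℝ) ≤ γ * n ∧
          a ≤ 2 * n ^ 2 ∧ ω ∈ H n S J a} := by
  obtain ⟨γ₀, hγ₀, hγ₁, hsm⟩ := small_subsets (ε := ε / 5) (by positivity)
  refine ⟨min γ₀ (ε / 5), by positivity, (min_le_left _ _).trans hγ₁, fun H hH => ?_⟩
  have hev : ∀ᶠ n : ℕ in atTop, (2 * (n : ℝ) ^ 2 + 1) ≤ Real.exp (ε / 5 * n) := by
    filter_upwards [eventually_ge_atTop 1,
      tendsto_natCast_atTop_atTop.eventually_ge_atTop (18 / (ε / 5) ^ 3)] with n hn1 hn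
    have h3 := Real.pow_div_factorial_le_exp (ε / 5 * n) (by positivity) 3
    have hn1' : (1 : ℝ) ≤ n := by exact_mod_cast hn1
    rw [div_le_iff₀ (by positivity)] at hn
    have h4 := mul_le_mul_of_nonneg_right hn (sq_nonneg (n : ℝ))
    have h5 : (ε / 5 * n) ^ 3 / ((Nat.factorial 3 : ℕ) : ℝ) = n * (ε / 5) ^ 3 * n ^ 2 / 6 := by
      simp only [Nat.factorial]
      push_cast
      ring
    nlinarith
  filter_upwards [hev] with n hn
  set γ := min γ₀ (ε / 5) with hγ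
  set F := Finset.univ.filter fun S : Finset (Fin n) => (S.card : ℝ) ≤ γ * n with hF
  have hFc : (F.card : ℝ) ≤ Real.exp (ε / 5 * n) := by
    refine le_trans ?_ (hsm n (Fin n) (by simp))
    refine Nat.cast_le.2 (Finset.card_le_card fun S hS => ?_)
    simp only [hF, Finset.mem_filter, Finset.mem_univ, true_and] at hS ⊢
    exact hS.trans (mul_le_mul_of_nonneg_right (min_le_left _ _) (Nat.cast_nonneg _))
  have key := P_le_card_mul h0.le h1.le (F ×ˢ F ×ˢ Finset.range (2 * n ^ 2 + 1))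
    (fun x => H n x.1 x.2.1 x.2.2)
    (B := {ω | ∃ S J a, (S.card : ℝ) ≤ γ * n ∧ (J.card : ℝ) ≤ γ * n ∧
      a ≤ 2 * n ^ 2 ∧ ω ∈ H n S J a})
    (by
      rintro ω ⟨S, J, a, b1, b2, b3, b4⟩
      refine ⟨(S, J, a), ?_, b4⟩
      simp only [hF, Finset.mem_product, Finset.mem_filter, Finset.mem_univ, true_and,
        Finset.mem_range]
      exact ⟨b1, b2, Nat.lt_succ_of_le b3⟩)
    (c := rr p ^ n * Real.exp (2 * (ε / 5 * n)))
    (by
      rintro ⟨S, J, a⟩ hx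
      simp only [hF, Finset.mem_product, Finset.mem_filter, Finset.mem_univ, true_and] at hx
      obtain ⟨b1, b2, -⟩ := hx
      have c1 : (S ∪ J)ᶜ.card ≤ n := by simpa using Finset.card_le_univ (S ∪ J)ᶜ
      refine (hH n S J a).trans ((WS_pow c1).trans ?_)
      refine mul_le_mul_of_nonneg_left (Real.exp_le_exp.2 ?_) (pow_nonneg (rr_pos p).le _)
      have c2 : (S ∪ J).card + (S ∪ J)ᶜ.card = n := by
        simpa using Finset.card_add_card_compl (S ∪ J)
      have c3 : ((S ∪ J).card : ℝ) + (S ∪ J)ᶜ.card = n := by exact_mod_cast c2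
      have c4 : ((S ∪ J).card : ℝ) ≤ S.card + J.card := by exact_mod_cast Finset.card_union_le S J
      have c5 : γ * n ≤ ε / 5 * n :=
        mul_le_mul_of_nonneg_right (min_le_right _ _) (Nat.cast_nonneg _)
      linarith)
  refine key.trans ?_
  rw [Finset.card_product, Finset.card_product, Finset.card_range]
  push_cast
  have e : (rr p * Real.exp ε) ^ n = Real.exp (ε / 5 * n) * (Real.exp (ε / 5 * n) *
      Real.exp (ε / 5 * n)) * (rr p ^ n * Real.exp (2 * (ε / 5 * n))) := by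
    rw [mul_pow, ← Real.exp_nat_mul, ← Real.exp_add, ← Real.exp_add, mul_left_comm, ← Real.exp_add]
    congr 2
    ring
  rw [e]
  have := (rr_pos p).le
  gcongr

/-- The event for the prime `2`. -/
private def WS_H2 (n : ℕ) (S J : Finset (Fin n)) (c : ℕ) : Set (Om n) :=
  {ω | S.Nonempty ∧ ∀ j ∈ (S ∪ J)ᶜ, (4 : ℤ) ∣ (∑ k ∈ S, sg (ω s(j, k))) - 2 * (c : ℤ)}

private theorem WS_disj {n : ℕ} (S J : Finset (Fin n)) :
    Disjoint (S ∪ J)ᶜ S ∧ Disjoint (S ∪ J)ᶜ J := by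
  constructor <;> rw [Finset.disjoint_left] <;> intro a ha hb <;> simp [hb] at ha

private theorem WS_P2 {p : ℝ} (h0 : 0 < p) (h1 : p < 1) (n : ℕ) (S J : Finset (Fin n)) (c : ℕ) :
    bernoulliProb p (WS_H2 n S J c) ≤ rr p ^ (S ∪ J)ᶜ.card := by
  by_cases hS : S.Nonempty
  swap
  · have : WS_H2 n S J c = ∅ := Set.eq_empty_of_forall_notMem fun ω hω => hS hω.1
    rw [this, P_empty]
    exact pow_nonneg (rr_pos p).le _
  refine (P_mono h0.le h1.le fun ω hω => hω.2).trans (expose h0.le h1.le S J (S ∪ J)ᶜ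
    (WS_disj S J).1 (WS_disj S J).2
    (fun j ω => (4 : ℤ) ∣ (∑ k ∈ S, sg (ω s(j, k))) - 2 * (c : ℤ)) (rr_pos p).le fun j _ ω => ?_)
  refine (P_mono h0.le h1.le ?_).trans (two_point_four h0.le h1.le S hS c)
  rintro x ⟨ω', a1, -, a3⟩
  have : ∑ k ∈ S, sg (x k) = ∑ k ∈ S, sg (ω' s(j, k)) :=
    Finset.sum_congr rfl fun k hk => by rw [a3 k hk]
  simpa only [Set.mem_ofPred_eq, this] using a1

/-- The visible block. -/
private def WS_vis {n : ℕ} (S J : Finset (Fin n)) (ω : Om n) : Matrix (Fin n) (Fin n) ℤ :=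
  Matrix.of fun i k => if i ∈ J ∧ k ∈ S then sg (ω s(i, k)) else 0

/-- The Gram matrix of the visible block. -/
private def WS_gram {n : ℕ} (S : Finset (Fin n)) (A : Matrix (Fin n) (Fin n) ℤ) :
    Matrix (Fin n) (Fin n) ℤ :=
  Aᵀ * A + Matrix.diagonal fun k => if k ∈ S then 0 else 1

/-- The prime with the label `a`. -/
private def WS_pr {n : ℕ} (S : Finset (Fin n)) (A : Matrix (Fin n) (Fin n) ℤ) (a : ℕ) : ℕ :=
  (WS_gram S A).det.natAbs.primeFactorsList.getD a 0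

private def WS_R {n : ℕ} (S : Finset (Fin n)) (A : Matrix (Fin n) (Fin n) ℤ) (l : ℕ)
    (x : Fin n → Bool) : Prop :=
  l.Prime ∧ l ≠ 2 ∧
    (∃ u : Fin n → ZMod l, (∃ k ∈ S, u k ≠ 0) ∧ ∀ i, ∑ k ∈ S, (A i k : ZMod l) * u k = 0) ∧
    ∀ u : Fin n → ZMod l, (∀ i, ∑ k ∈ S, (A i k : ZMod l) * u k = 0) →
      ∑ k ∈ S, (sg (x k) : ZMod l) * u k = 0

/-- The event for the odd primes. -/
private def WS_H (n : ℕ) (S J : Finset (Fin n)) (a : ℕ) : Set (Om n) :=
  {ω | ∀ j ∈ (S ∪ J)ᶜ, WS_R S (WS_vis S J ω) (WS_pr S (WS_vis S J ω) a) fun k => ω s(j, k)}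

private theorem WS_PR {p : ℝ} (h0 : 0 < p) (h1 : p < 1) {n : ℕ} (S : Finset (Fin n))
    (A : Matrix (Fin n) (Fin n) ℤ) (l : ℕ) :
    bernoulliProb p {x | ∃ y, WS_R S A l y ∧ ∀ k ∈ S, y k = x k} ≤ rr p := by
  by_cases h : ∃ y, WS_R S A l y
  swap
  · have : {x : Fin n → Bool | ∃ y, WS_R S A l y ∧ ∀ k ∈ S, y k = x k} = ∅ :=
      Set.eq_empty_of_forall_notMem fun x ⟨y, hy, _⟩ => h ⟨y, hy⟩
    rw [this, P_empty]
    exact (rr_pos p).le
  obtain ⟨_, hl, hl2, ⟨u, ⟨k₀, hk₀, hu0⟩, hu⟩, -⟩ := h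
  refine (P_mono h0.le h1.le ?_).trans (two_point_mod h0.le h1.le hl hl2
    (fun k => if k ∈ S then u k else 0) fun h => hu0 (by simpa [hk₀] using congrFun h k₀))
  rintro x ⟨y, hy, hyx⟩
  have := hy.2.2.2 u hu
  simp only [Set.mem_ofPred_eq, mul_ite, mul_zero, Finset.sum_ite_mem, Finset.univ_inter]
  rw [← this]
  exact Finset.sum_congr rfl fun k hk => by rw [hyx k hk]

private theorem WS_P {p : ℝ} (h0 : 0 < p) (h1 : p < 1) (n : ℕ) (S J : Finset (Fin n)) (a : ℕ) :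
    bernoulliProb p (WS_H n S J a) ≤ rr p ^ (S ∪ J)ᶜ.card := by
  refine expose h0.le h1.le S J (S ∪ J)ᶜ (WS_disj S J).1 (WS_disj S J).2
    (fun j ω => WS_R S (WS_vis S J ω) (WS_pr S (WS_vis S J ω) a) fun k => ω s(j, k))
    (rr_pos p).le fun j _ ω => ?_
  refine (P_mono h0.le h1.le ?_).trans
    (WS_PR h0 h1 S (WS_vis S J ω) (WS_pr S (WS_vis S J ω) a))
  rintro x ⟨ω', a1, a2, a3⟩
  have : WS_vis S J ω' = WS_vis S J ω := by
    ext i k
    simp only [WS_vis, Matrix.of_apply]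
    split_ifs with h
    · rw [a2 i k h.2 (Or.inr (Or.inl h.1))]
    · rfl
  rw [this] at a1
  exact ⟨_, a1, a3⟩

private theorem WS_vis_sum {K : Type} [CommRing K] {n : ℕ} (S J : Finset (Fin n)) (ω : Om n)
    (u : Fin n → K) (i : Fin n) : ∑ k, (WS_vis S J ω i k : K) * u k =
      if i ∈ J then ∑ k ∈ S, (sg (ω s(i, k)) : K) * u k else 0 := by
  by_cases hi : i ∈ J <;> simp [WS_vis, hi, apply_ite (Int.cast : ℤ → K)]

private theorem WS_vis_sum' {K : Type} [CommRing K] {n : ℕ} (S J : Finset (Fin n)) (ω : Om n)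
    (u : Fin n → K) (i : Fin n) : ∑ k ∈ S, (WS_vis S J ω i k : K) * u k =
      if i ∈ J then ∑ k ∈ S, (sg (ω s(i, k)) : K) * u k else 0 := by
  by_cases hi : i ∈ J
  · rw [if_pos hi]
    exact Finset.sum_congr rfl fun k hk => by simp [WS_vis, hi, hk]
  · simp [WS_vis, hi]

private theorem WS_gram_mulVec {K : Type} [CommRing K] {n : ℕ} (S : Finset (Fin n))
    (A : Matrix (Fin n) (Fin n) ℤ) (u : Fin n → K) (k : Fin n) :
    (((WS_gram S A).map (Int.cast : ℤ → K)) *ᵥ u) k =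
      ∑ i, (A i k : K) * ∑ k', (A i k' : K) * u k' + if k ∈ S then 0 else u k := by
  simp only [WS_gram, Matrix.mulVec, dotProduct, Matrix.map_apply, Matrix.add_apply,
    Matrix.mul_apply, Matrix.transpose_apply, Int.cast_add, Int.cast_sum, Int.cast_mul, add_mul,
    Finset.sum_add_distrib, Finset.sum_mul, Finset.mul_sum, mul_assoc]
  rw [Finset.sum_comm]
  congr 1
  rw [Finset.sum_eq_single k]
  · by_cases h : k ∈ S <;> simp [h]
  · intro b _ hb
    simp [Matrix.diagonal_apply_ne _ hb.symm]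
  · simp

private theorem WS_len {n : ℕ} (S J : Finset (Fin n)) (ω : Om n)
    (h : (WS_gram S (WS_vis S J ω)).det ≠ 0) :
    (WS_gram S (WS_vis S J ω)).det.natAbs.primeFactorsList.length ≤ 2 * n ^ 2 := by
  have hA : ∀ i k, |WS_vis S J ω i k| ≤ 1 := fun i k => by
    simp only [WS_vis, Matrix.of_apply, sg]
    split_ifs <;> simp
  have hG : ∀ k k', AbsoluteValue.abs (WS_gram S (WS_vis S J ω) k k') ≤ (n : ℤ) + 1 := by
    intro k k'
    rw [AbsoluteValue.abs_apply]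
    simp only [WS_gram, Matrix.add_apply, Matrix.mul_apply, Matrix.transpose_apply]
    refine (abs_add_le _ _).trans (add_le_add ?_ ?_)
    · refine (Finset.abs_sum_le_sum_abs _ _).trans ?_
      refine (Finset.sum_le_card_nsmul _ _ 1 fun i _ => ?_).trans (by simp)
      rw [abs_mul]
      exact mul_le_one₀ (hA i k) (abs_nonneg _) (hA i k')
    · rw [Matrix.diagonal_apply]
      split_ifs <;> simp
  have h1 := Matrix.det_le hG
  rw [AbsoluteValue.abs_apply, Fintype.card_fin, nsmul_eq_mul, Int.abs_eq_natAbs] at h1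
  have h2 : (WS_gram S (WS_vis S J ω)).det.natAbs ≤ n.factorial * (n + 1) ^ n := by
    exact_mod_cast h1
  have h3 : n + 1 ≤ 2 ^ n := Nat.lt_two_pow_self
  have h4 : n.factorial * (n + 1) ^ n ≤ (2 ^ n) ^ n * (2 ^ n) ^ n :=
    Nat.mul_le_mul (n.factorial_le_pow.trans (Nat.pow_le_pow_left (by omega) n))
      (Nat.pow_le_pow_left h3 n)
  have h5 := List.pow_card_le_prod (WS_gram S (WS_vis S J ω)).det.natAbs.primeFactorsList 2
    fun x hx => (Nat.prime_of_mem_primeFactorsList hx).two_le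
  rw [Nat.prod_primeFactorsList (Int.natAbs_ne_zero.2 h)] at h5
  have h6 := h5.trans (h2.trans h4)
  rw [← pow_mul, ← pow_add] at h6
  have := (Nat.pow_le_pow_iff_right (by norm_num : 1 < 2)).1 h6
  nlinarith

private theorem WS_two {n : ℕ} (ω : Om n) (w : Fin n → ℤ) (h : ∀ i, (4 : ℤ) ∣ (mat ω *ᵥ w) i) :
    ∃ c : ℕ, c ≤ 1 ∧ ∀ j, (4 : ℤ) ∣
      (∑ k ∈ Finset.univ.filter fun k => ¬ (2 : ℤ) ∣ w k, sg (ω s(j, k))) - 2 * (c : ℤ) := by
  have hk : ∀ j k, (4 : ℤ) ∣ sg (ω s(j, k)) * w k -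
      ((if ¬ (2 : ℤ) ∣ w k then sg (ω s(j, k)) else 0) + 2 * (w k / 2)) := by
    intro j k
    unfold sg
    split_ifs <;> omega
  refine ⟨((∑ k, w k / 2) % 2).toNat, by omega, fun j => ?_⟩
  have h1 := Finset.dvd_sum (s := Finset.univ) fun k _ => hk j k
  rw [Finset.sum_sub_distrib, Finset.sum_add_distrib, ← Finset.sum_filter, ← Finset.mul_sum] at h1
  have h2 : (4 : ℤ) ∣ ∑ k, sg (ω s(j, k)) * w k := h j
  omega

private theorem WS_odd {n : ℕ} (ω : Om n) {δ : ℝ} (hSP : SP δ (mat ω)) {l : ℕ} (hl : l.Prime)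
    (hl2 : l ≠ 2) (w : Fin n → ℤ) (h : ∀ i, (l : ℤ) ∣ (mat ω *ᵥ w) i) (S : Finset (Fin n))
    (hS : ∀ k, k ∈ S ↔ ¬ (l : ℤ) ∣ w k) (hne : S.Nonempty) (hδ : (S.card : ℝ) ≤ δ * n) :
    ∃ (J : Finset (Fin n)) (a : ℕ), J.card ≤ 2 * S.card ∧ a ≤ 2 * n ^ 2 ∧ ω ∈ WS_H n S J a := by
  have := Fact.mk hl
  obtain ⟨J₀, hJ₀, hc₀, hk₀⟩ := WS_span Sᶜ S fun j k => (sg (ω s(j, k)) : ℝ)
  obtain ⟨J₁, hJ₁, hc₁, hk₁⟩ := WS_span Sᶜ S fun j k => (sg (ω s(j, k)) : ZMod l)
  set J := J₀ ∪ J₁ with hJ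
  set A := WS_vis S J ω with hA
  have hw0 : ∀ k, k ∉ S → (w k : ZMod l) = 0 := fun k hk =>
    (ZMod.intCast_zmod_eq_zero_iff_dvd _ _).2 (not_not.1 fun h => hk ((hS k).2 h))
  have hw : ∀ i, ∑ k ∈ S, (sg (ω s(i, k)) : ZMod l) * (w k : ZMod l) = 0 := fun i => by
    have h1 := (ZMod.intCast_zmod_eq_zero_iff_dvd _ _).2 (h i)
    have h2 : (mat ω *ᵥ w) i = ∑ k, sg (ω s(i, k)) * w k := rfl
    rw [h2] at h1
    push_cast at h1
    rw [← h1]
    exact Finset.sum_subset (Finset.subset_univ S) fun k _ hk => by rw [hw0 k hk, mul_zero]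
  obtain ⟨k₀, hk₀S⟩ := hne
  have hwk : (w k₀ : ZMod l) ≠ 0 := fun h =>
    (hS k₀).1 hk₀S ((ZMod.intCast_zmod_eq_zero_iff_dvd _ _).1 h)
  have hD : (WS_gram S A).det ≠ 0 := by
    intro hD
    have h1 : ((WS_gram S A).map (Int.cast : ℤ → ℝ)).det = 0 := by
      rw [← Int.cast_det, hD, Int.cast_zero]
    obtain ⟨u, hu0, hu⟩ := Matrix.exists_mulVec_eq_zero_iff.2 h1
    have h2 : ∑ i, (∑ k', (A i k' : ℝ) * u k') ^ 2 + ∑ k, (if k ∈ S then 0 else u k) ^ 2 = 0 := by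
      have h3 : ∑ k, u k * (((WS_gram S A).map (Int.cast : ℤ → ℝ)) *ᵥ u) k = 0 := by simp [hu]
      simp only [WS_gram_mulVec, mul_add, Finset.sum_add_distrib] at h3
      refine Eq.trans (congrArg₂ (· + ·) ?_ ?_) h3
      · have h4 : ∀ k, u k * ∑ i, (A i k : ℝ) * ∑ k', (A i k' : ℝ) * u k' =
            ∑ i, (A i k : ℝ) * u k * ∑ k', (A i k' : ℝ) * u k' := fun k => by
          rw [Finset.mul_sum]
          exact Finset.sum_congr rfl fun i _ => by ring
        rw [Finset.sum_congr rfl fun k _ => h4 k, Finset.sum_comm]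
        exact Finset.sum_congr rfl fun i _ => by rw [sq, Finset.sum_mul]
      · exact Finset.sum_congr rfl fun k _ => by split_ifs <;> ring
    have p1 : 0 ≤ ∑ i, (∑ k', (A i k' : ℝ) * u k') ^ 2 := by positivity
    have p2 : 0 ≤ ∑ k, (if k ∈ S then 0 else u k) ^ 2 := by positivity
    have q1 := (Finset.sum_eq_zero_iff_of_nonneg fun i _ => sq_nonneg _).1
      (show ∑ i, (∑ k', (A i k' : ℝ) * u k') ^ 2 = 0 by linarith)
    have q2 := (Finset.sum_eq_zero_iff_of_nonneg fun i _ => sq_nonneg _).1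
      (show ∑ k, (if k ∈ S then 0 else u k) ^ 2 = 0 by linarith)
    have huS : ∀ k, k ∉ S → u k = 0 := fun k hk => by
      simpa [hk] using q2 k (Finset.mem_univ k)
    have hall := hk₀ u fun j hj => by
      have := pow_eq_zero_iff (two_ne_zero) |>.1 (q1 j (Finset.mem_univ j))
      rwa [hA, WS_vis_sum, if_pos (Finset.mem_union_left _ hj)] at this
    obtain ⟨k₁, hk₁⟩ := Function.ne_iff.1 hu0
    have hk₁' : u k₁ ≠ 0 := hk₁
    obtain ⟨j, hj, -, -, hlt⟩ := hSP S (fun k => u k / u k₁) k₀ k₀ hδ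
      (fun k hk => by rw [huS k hk, zero_div]) ⟨k₁, by rw [div_self hk₁', abs_one]⟩
    have h4 : (((mat ω).map (Int.cast : ℤ → ℝ)) *ᵥ fun k => u k / u k₁) j =
        (∑ k ∈ S, (sg (ω s(j, k)) : ℝ) * u k) / u k₁ := by
      rw [Finset.sum_subset (Finset.subset_univ S) fun k _ hk => by rw [huS k hk, mul_zero],
        Finset.sum_div]
      show ∑ k, (sg (ω s(j, k)) : ℝ) * (u k / u k₁) = _
      exact Finset.sum_congr rfl fun k _ => (mul_div_assoc _ _ _).symm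
    rw [h4, hall j (Finset.mem_compl.2 hj), zero_div, abs_zero] at hlt
    exact absurd hlt (not_lt.2 (by positivity))
  have hlD : l ∈ (WS_gram S A).det.natAbs.primeFactorsList := by
    refine (Nat.mem_primeFactorsList (Int.natAbs_ne_zero.2 hD)).2 ⟨hl, ?_⟩
    rw [← Int.natCast_dvd, ← ZMod.intCast_zmod_eq_zero_iff_dvd, Int.cast_det]
    refine Matrix.exists_mulVec_eq_zero_iff.1 ⟨fun k => (w k : ZMod l),
      fun h => hwk (congrFun h k₀), funext fun k => ?_⟩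
    have h1 := WS_gram_mulVec S A (fun k => (w k : ZMod l)) k
    simp only [hA, WS_vis_sum, hw, ite_self, mul_zero, Finset.sum_const_zero, zero_add] at h1
    refine h1.trans ?_
    split_ifs with hk
    · rfl
    · exact hw0 k hk
  obtain ⟨a, ha, hal⟩ := List.mem_iff_getElem.1 hlD
  have hpr : WS_pr S A a = l := by
    rw [WS_pr, List.getD_eq_getElem _ _ ha, hal]
  refine ⟨J, a, (Finset.card_union_le _ _).trans (by omega), ha.le.trans (WS_len S J ω hD),
    fun j hj => ?_⟩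
  rw [← hA, hpr]
  refine ⟨hl, hl2, ⟨fun k => (w k : ZMod l), ⟨k₀, hk₀S, hwk⟩, fun i => ?_⟩, fun u hu => ?_⟩
  · rw [hA, WS_vis_sum', hw, ite_self]
  · refine hk₁ u (fun i hi => ?_) j ?_
    · have := hu i
      rwa [hA, WS_vis_sum', if_pos (Finset.mem_union_right _ hi)] at this
    · simp only [Finset.mem_compl, Finset.mem_union, not_or] at hj ⊢
      exact hj.1

theorem sm_WS {p : ℝ} (h0 : 0 < p) (h1 : p < 1) {ε : ℝ} (hε : 0 < ε) :
    ∃ κ : ℝ, 0 < κ ∧ κ ≤ 1 ∧ Sm p ε (fun n => {ω : Om n | ¬ WS κ (mat ω)}) := by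
  obtain ⟨δ, hδ, hSP⟩ := sm_SP h0 h1 (ε := 3 * ε / 4) (by positivity)
  obtain ⟨γ, hγ, hγ1, hU⟩ := WS_union h0 h1 (ε := ε / 2) (by positivity)
  have hm1 := min_le_left δ (γ / 2)
  have hm2 := min_le_right δ (γ / 2)
  refine ⟨min δ (γ / 2), by positivity, by linarith, ?_⟩
  refine (hSP.union h0.le h1.le (by linarith) (Sm.union h0.le h1.le (by linarith)
    (hU WS_H2 (WS_P2 h0 h1)) (hU WS_H (WS_P h0 h1)))).mono h0.le h1.le
    (Eventually.of_forall fun n ω hω => ?_)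
  by_cases hsp : SP δ (mat ω)
  swap
  · exact Or.inl hsp
  right
  simp only [WS, Set.mem_ofPred_eq, not_forall, not_le] at hω
  obtain ⟨l, w, hl, hw, ⟨k₀, hk₀⟩, hc⟩ := hω
  have hn : (0 : ℝ) ≤ n := Nat.cast_nonneg n
  have c1 := mul_le_mul_of_nonneg_right hm1 hn
  have c2 := mul_le_mul_of_nonneg_right hm2 hn
  have c3 : 0 ≤ γ * n := by positivity
  by_cases hl2 : l = 2
  · subst hl2
    obtain ⟨c, hc1, hc2⟩ := WS_two ω w (by simpa [qm] using hw)
    have hn1 : 0 < n := Fin.pos k₀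
    refine Or.inl ⟨_, ∅, c, ?_, by simpa using c3, by nlinarith,
      ⟨k₀, by simpa using hk₀⟩, fun j _ => hc2 j⟩
    simp only [Nat.cast_ofNat] at hc
    linarith
  · obtain ⟨J, a, b1, b2, b3⟩ := WS_odd ω hsp hl hl2 w (by simpa [qm, hl2] using hw)
      (Finset.univ.filter fun j => ¬ (l : ℤ) ∣ w j) (by simp) ⟨k₀, by simpa using hk₀⟩
      (by linarith)
    have b4 : (J.card : ℝ) ≤ 2 * (Finset.univ.filter fun j => ¬ (l : ℤ) ∣ w j).card := by
      exact_mod_cast b1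
    exact Or.inr ⟨_, J, a, by linarith, by linarith, b2, b3⟩

end Crest.Agent.R152
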