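import Crest.Agent.R152.PrSP
import Crest.Agent.R152.PrT1Q

/-! # Row 152: near-kernel vectors have few zeros -/

set_option autoImplicit false
open Matrix Filter MeasureTheory
open Crest.FinProb Crest.ProbabilityR.SignMatrix Crest.Agent.Lib.BiasedCube

noncomputable section
namespace Crest.Agent.R152

/-- Greedy choice of few functionals that cut out the same subspace. -/
private theorem zs_greedy {W α : Type} [AddCommGroup W] [Module ℚ W] [FiniteDimensional ℚ W]
    [DecidableEq α] (f : α → W →ₗ[ℚ] ℚ) (T : Finset α) :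
    ∀ (d : ℕ) (K : Submodule ℚ W), Module.finrank ℚ K ≤ d →
      ∃ J : Finset α, J ⊆ T ∧ J.card ≤ d ∧
        ∀ w ∈ K, (∀ j ∈ J, f j w = 0) → ∀ j ∈ T, f j w = 0 := by
  intro d
  induction d with
  | zero =>
    intro K hK
    refine ⟨∅, Finset.empty_subset _, le_rfl, fun w hw _ j _ => ?_⟩
    have : K = ⊥ := Submodule.finrank_eq_zero.mp (Nat.le_zero.mp hK)
    rw [this, Submodule.mem_bot] at hw
    rw [hw, map_zero]
  | succ d ih =>
    intro K hK
    by_cases h : ∀ w ∈ K, ∀ j ∈ T, f j w = 0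
    · exact ⟨∅, Finset.empty_subset _, Nat.zero_le _, fun w hw _ => h w hw⟩
    · push Not at h
      obtain ⟨w0, hw0, j0, hj0, hne⟩ := h
      have hlt : K ⊓ LinearMap.ker (f j0) < K := by
        refine lt_of_le_of_ne inf_le_left fun he => hne ?_
        have : w0 ∈ K ⊓ LinearMap.ker (f j0) := by rw [he]; exact hw0
        exact this.2
      have hr := Submodule.finrank_lt_finrank_of_lt hlt
      obtain ⟨J, hJT, hJc, hJ⟩ := ih (K ⊓ LinearMap.ker (f j0)) (by omega)
      refine ⟨insert j0 J, Finset.insert_subset hj0 hJT,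
        (Finset.card_insert_le _ _).trans (by omega), fun w hw hz => ?_⟩
      exact hJ w ⟨hw, hz j0 (Finset.mem_insert_self _ _)⟩
        fun j hj => hz j (Finset.mem_insert_of_mem hj)

private theorem zs_finrank_le {W : Type} [AddCommGroup W] [Module ℚ W] [FiniteDimensional ℚ W]
    (K : Submodule ℚ W) (f : W →ₗ[ℚ] ℚ) :
    Module.finrank ℚ K ≤ Module.finrank ℚ (K ⊓ LinearMap.ker f : Submodule ℚ W) + 1 := by
  have h1 := LinearMap.finrank_range_add_finrank_ker (f.domRestrict K)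
  have h2 : Module.finrank ℚ (LinearMap.range (f.domRestrict K)) ≤ 1 := by
    have := Submodule.finrank_le (LinearMap.range (f.domRestrict K))
    rwa [Module.finrank_self] at this
  have h3 : Module.finrank ℚ (LinearMap.ker (f.domRestrict K)) =
      Module.finrank ℚ (K ⊓ LinearMap.ker f : Submodule ℚ W) := by
    rw [LinearMap.ker_domRestrict, ← Submodule.finrank_map_subtype_eq, Submodule.map_comap_subtype]
  omega

/-- The `j`-th row restricted to the columns in `U`, as a rational functional. -/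
private def zsF {n : ℕ} (B : Matrix (Fin n) (Fin n) ℤ) (U : Finset (Fin n)) (j : Fin n) :
    (U → ℚ) →ₗ[ℚ] ℚ where
  toFun v := ∑ k : U, (B j k : ℚ) * v k
  map_add' v w := by simp [mul_add, Finset.sum_add_distrib]
  map_smul' c v := by simp [Finset.mul_sum, mul_left_comm]

private theorem zsF_apply {n : ℕ} (B : Matrix (Fin n) (Fin n) ℤ) (U : Finset (Fin n)) (j : Fin n)
    (v : U → ℚ) : zsF B U j v = ∑ k : U, (B j k : ℚ) * v k := rfl

/-- The rows in `R` have a common kernel vector of full support `U`, and row `j` kills their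
common kernel. -/
private def zsH {n : ℕ} (B : Matrix (Fin n) (Fin n) ℤ) (U R : Finset (Fin n)) (j : Fin n) : Prop :=
  (∃ v : U → ℚ, (∀ k, v k ≠ 0) ∧ ∀ r ∈ R, zsF B U r v = 0) ∧
    ∀ v : U → ℚ, (∀ r ∈ R, zsF B U r v = 0) → zsF B U j v = 0

private theorem zs_event {p : ℝ} (h0 : 0 < p) (h1 : p < 1) {n : ℕ} (U R G : Finset (Fin n))
    (hU : Disjoint G U) (hR : Disjoint G R) (hne : 0 < U.card) :
    bernoulliProb p {ω : Om n | ∀ j ∈ G, zsH (mat ω) U R j} ≤
      (2 / Real.sqrt (p * (1 - p) * U.card)) ^ G.card := by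
  refine expose h0.le h1.le U R G hU hR (fun j ω => zsH (mat ω) U R j) (by positivity) ?_
  intro j _ ω
  have key : ∀ ω' : Om n,
      (∀ i k, k ∈ U → (i ∈ U ∨ i ∈ R ∨ i < j) → ω' s(i, k) = ω s(i, k)) →
      ∀ r ∈ R, ∀ v : U → ℚ, zsF (mat ω') U r v = zsF (mat ω) U r v := by
    intro ω' h r hr v
    rw [zsF_apply, zsF_apply]
    refine Finset.sum_congr rfl fun k _ => ?_
    rw [mat_apply, mat_apply, h r k k.2 (Or.inr (Or.inl hr))]
  by_cases hv : ∃ v : U → ℚ, (∀ k, v k ≠ 0) ∧ ∀ r ∈ R, zsF (mat ω) U r v = 0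
  · obtain ⟨v, hv0, hvR⟩ := hv
    set u : Fin n → ℝ := fun k => if h : k ∈ U then ((v ⟨k, h⟩ : ℚ) : ℝ) else 0 with hu
    have hcard : U.card ≤ (Finset.univ.filter fun k => u k ≠ 0).card := by
      refine Finset.card_le_card fun k hk => ?_
      rw [Finset.mem_filter]
      refine ⟨Finset.mem_univ _, ?_⟩
      simp only [hu, dif_pos hk]
      exact_mod_cast hv0 ⟨k, hk⟩
    refine le_trans (P_mono h0.le h1.le ?_) (weak_LO h0 h1 u hne hcard)
    rintro x ⟨ω', hH, hvis, hx⟩
    have h2 := hH.2 v fun r hr => by rw [key ω' hvis r hr v]; exact hvR r hr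
    rw [zsF_apply] at h2
    have h3 : ∑ k : U, ((sg (x k) : ℤ) : ℝ) * ((v k : ℚ) : ℝ) = 0 := by
      have h4 : ((∑ k : U, ((mat ω' j k : ℤ) : ℚ) * v k : ℚ) : ℝ) = 0 := by
        rw [h2]; simp
      rw [← h4]
      push_cast
      refine Finset.sum_congr rfl fun k _ => ?_
      rw [mat_apply, hx k k.2]
    show ∑ k, ((sg (x k) : ℤ) : ℝ) * u k = 0
    rw [← h3, ← Finset.sum_subset (Finset.subset_univ U) (fun k _ hk => by simp [hu, hk]),
      ← Finset.sum_coe_sort U]
    refine Finset.sum_congr rfl fun k _ => ?_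
    simp [hu, k.2]
  · refine le_trans (P_mono h0.le h1.le (B := ∅) ?_) (by rw [P_empty]; positivity)
    rintro x ⟨ω', hH, hvis, -⟩
    obtain ⟨v, hv0, hvR⟩ := hH.1
    exact hv ⟨v, hv0, fun r hr => by rw [← key ω' hvis r hr v]; exact hvR r hr⟩

/-- The exceptional configurations. -/
private def zsN (δ γ : ℝ) {n : ℕ} (B : Matrix (Fin n) (Fin n) ℤ) : Prop :=
  ∃ U R G : Finset (Fin n), Disjoint G U ∧ Disjoint G R ∧ δ * n < U.card ∧ γ * n ≤ G.card ∧
    ∀ j ∈ G, zsH B U R j

private theorem zs_neg {p : ℝ} (h0 : 0 < p) (h1 : p < 1) {δ γ : ℝ} (hδ : 0 < δ) (hγ : 0 < γ) :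
    Neg p (fun n => {ω : Om n | zsN δ γ (mat ω)}) := by
  intro C
  classical
  set A : ℝ := (|C| + 3) / γ with hA
  have hA0 : 0 ≤ A := by positivity
  have hq : 0 < p * (1 - p) := mul_pos h0 (by linarith)
  have hev : ∀ᶠ n : ℕ in atTop, (2 * Real.exp A) ^ 2 / (p * (1 - p) * δ) ≤ (n : ℝ) :=
    tendsto_natCast_atTop_atTop.eventually_ge_atTop _
  filter_upwards [hev] with n hn
  have hn0 : (0 : ℝ) ≤ n := Nat.cast_nonneg n
  set s : Finset (Finset (Fin n) × Finset (Fin n) × Finset (Fin n)) :=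
    Finset.univ.filter fun t => Disjoint t.2.2 t.1 ∧ Disjoint t.2.2 t.2.1 ∧
      δ * n < t.1.card ∧ γ * n ≤ t.2.2.card with hs
  have hb := P_le_card_mul h0.le h1.le s
    (fun t => {ω : Om n | ∀ j ∈ t.2.2, zsH (mat ω) t.1 t.2.1 j})
    (B := {ω : Om n | zsN δ γ (mat ω)}) (c := Real.exp (-((|C| + 3) * n))) ?_ ?_
  · refine hb.trans ?_
    have hc : (s.card : ℝ) ≤ Real.exp (3 * n) := by
      have h2 : s.card ≤ 2 ^ n * (2 ^ n * 2 ^ n) := by
        refine (Finset.card_filter_le _ _).trans ?_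
        simp [Finset.card_univ, Fintype.card_prod, Fintype.card_finset]
      have h3 : (2 : ℝ) ^ n ≤ Real.exp n := by
        rw [← mul_one (n : ℝ), Real.exp_nat_mul]
        refine pow_le_pow_left₀ (by norm_num) ?_ n
        have := Real.add_one_le_exp (1 : ℝ)
        linarith
      have h4 : (s.card : ℝ) ≤ 2 ^ n * (2 ^ n * 2 ^ n) := by exact_mod_cast h2
      refine h4.trans ?_
      have h5 : Real.exp (3 * n) = Real.exp n * (Real.exp n * Real.exp n) := by
        rw [← Real.exp_add, ← Real.exp_add]; ring_nf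
      rw [h5]
      gcongr
    calc (s.card : ℝ) * Real.exp (-((|C| + 3) * n))
        ≤ Real.exp (3 * n) * Real.exp (-((|C| + 3) * n)) := by gcongr
      _ = Real.exp (-(|C| * n)) := by rw [← Real.exp_add]; ring_nf
      _ ≤ Real.exp (-(C * n)) := by
        refine Real.exp_le_exp.mpr ?_
        have := mul_le_mul_of_nonneg_right (le_abs_self C) hn0
        linarith
  · rintro ω ⟨U, R, G, a, b, c, d, e⟩
    exact ⟨(U, R, G), by simp only [hs, Finset.mem_filter]; exact ⟨Finset.mem_univ _, a, b, c, d⟩,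
      e⟩
  · rintro ⟨U, R, G⟩ ht
    simp only [hs, Finset.mem_filter] at ht
    obtain ⟨-, a, b, c, d⟩ := ht
    have hU0 : (0 : ℝ) < U.card := lt_of_le_of_lt (by positivity) c
    refine (zs_event h0 h1 U R G a b (by exact_mod_cast hU0)).trans ?_
    have hw : 2 / Real.sqrt (p * (1 - p) * U.card) ≤ Real.exp (-A) := by
      have h2 : (2 * Real.exp A) ^ 2 ≤ p * (1 - p) * U.card := by
        rw [div_le_iff₀ (by positivity)] at hn
        have := mul_le_mul_of_nonneg_left c.le hq.le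
        nlinarith
      have h3 : 2 * Real.exp A ≤ Real.sqrt (p * (1 - p) * U.card) :=
        Real.le_sqrt_of_sq_le h2
      rw [div_le_iff₀ (lt_of_lt_of_le (by positivity) h3), Real.exp_neg,
        ← div_eq_inv_mul, le_div_iff₀ (Real.exp_pos A)]
      exact h3
    calc (2 / Real.sqrt (p * (1 - p) * U.card)) ^ G.card ≤ Real.exp (-A) ^ G.card :=
          pow_le_pow_left₀ (by positivity) hw _
      _ = Real.exp (-(A * G.card)) := by rw [← Real.exp_nat_mul]; ring_nf
      _ ≤ Real.exp (-((|C| + 3) * n)) := by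
        refine Real.exp_le_exp.mpr (neg_le_neg ?_)
        have h2 : (|C| + 3) * n = A * (γ * n) := by rw [hA]; field_simp
        rw [h2]
        exact mul_le_mul_of_nonneg_left d hA0

private theorem zs_det {n : ℕ} {B : Matrix (Fin n) (Fin n) ℤ} {δ ρ β γ : ℝ} (hSP : SP δ B)
    (hQ : T1Q ρ B) (hZ : ¬ ZS β B) (hn : γ * n + ρ * n + 4 ≤ β * n) : zsN δ γ B := by
  classical
  unfold ZS at hZ
  push Not at hZ
  obtain ⟨u, i, i', hu, hk, hz⟩ := hZ
  set U : Finset (Fin n) := Finset.univ.filter fun k => u k ≠ 0 with hUdef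
  have hUm : ∀ k, k ∉ U → u k = 0 := fun k hk => by
    by_contra h
    exact hk (Finset.mem_filter.mpr ⟨Finset.mem_univ _, h⟩)
  have hrow : ∀ j, j ≠ i → j ≠ i' → ∑ k, (B j k : ℚ) * u k = 0 := fun j a b => hk j a b
  have hUδ : δ * n < U.card := by
    by_contra hle
    push Not at hle
    obtain ⟨k0, hk0⟩ := Function.ne_iff.mp hu
    have hk0' : ((u k0 : ℚ) : ℝ) ≠ 0 := by exact_mod_cast hk0
    obtain ⟨j, -, hj1, hj2, hj⟩ := hSP U (fun k => ((u k : ℚ) : ℝ) / ((u k0 : ℚ) : ℝ)) i i' hle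
      (fun k hk => by simp [hUm k hk]) ⟨k0, by simp [div_self hk0']⟩
    have h2 : ((B.map (Int.cast : ℤ → ℝ)) *ᵥ fun k => ((u k : ℚ) : ℝ) / ((u k0 : ℚ) : ℝ)) j = 0 := by
      have h3 : ((∑ k, (B j k : ℚ) * u k : ℚ) : ℝ) = 0 := by rw [hrow j hj1 hj2]; simp
      push_cast at h3
      show ∑ k, ((B j k : ℤ) : ℝ) * (((u k : ℚ) : ℝ) / ((u k0 : ℚ) : ℝ)) = 0
      simp only [← mul_div_assoc]
      rw [← Finset.sum_div, h3, zero_div]
    rw [h2, abs_zero] at hj
    exact absurd hj (not_lt.mpr (by positivity))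
  set v : U → ℚ := fun k => u k with hv
  have hvF : ∀ j, j ≠ i → j ≠ i' → zsF B U j v = 0 := by
    intro j a b
    rw [zsF_apply, ← hrow j a b,
      ← Finset.sum_subset (Finset.subset_univ U) (fun k _ hk => by simp [hUm k hk]),
      ← Finset.sum_coe_sort U]
  set R0 : Finset (Fin n) := (U.erase i).erase i' with hR0
  set K0 : Submodule ℚ (U → ℚ) := ⨅ r ∈ R0, LinearMap.ker (zsF B U r) with hK0
  have hK0m : ∀ w, w ∈ K0 ↔ ∀ r ∈ R0, zsF B U r w = 0 := by
    intro w
    simp only [hK0, Submodule.mem_iInf, LinearMap.mem_ker]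
  set M : Matrix U U ℚ :=
    (B.map (Int.cast : ℤ → ℚ)).submatrix (fun i : U => i.1) (fun i : U => i.1) with hM
  have hdim : (Module.finrank ℚ K0 : ℝ) ≤ ρ * n + 2 := by
    have h1 := zs_finrank_le K0 (zsF B U i)
    have h2 := zs_finrank_le (K0 ⊓ LinearMap.ker (zsF B U i)) (zsF B U i')
    have h3 : K0 ⊓ LinearMap.ker (zsF B U i) ⊓ LinearMap.ker (zsF B U i') ≤
        LinearMap.ker M.mulVecLin := by
      rintro w ⟨⟨a, b⟩, c⟩
      rw [LinearMap.mem_ker]
      funext r
      show zsF B U r w = 0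
      by_cases e1 : (r : Fin n) = i
      · rw [e1]; exact b
      · by_cases e2 : (r : Fin n) = i'
        · rw [e2]; exact c
        · exact (hK0m w).mp a r (by simp [hR0, e1, e2, r.2])
    have h4 := Submodule.finrank_mono h3
    have h5 := LinearMap.finrank_range_add_finrank_ker M.mulVecLin
    have h6 : Module.finrank ℚ (U → ℚ) = U.card := by simp
    have h7 := hQ U
    have h8 : M.rank = Module.finrank ℚ (LinearMap.range M.mulVecLin) := rfl
    rw [← hM, h8] at h7
    have h9 : Module.finrank ℚ K0 + Module.finrank ℚ (LinearMap.range M.mulVecLin) ≤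
        U.card + 2 := by omega
    have h10 : (Module.finrank ℚ K0 : ℝ) + Module.finrank ℚ (LinearMap.range M.mulVecLin) ≤
        U.card + 2 := by exact_mod_cast h9
    linarith
  set Z : Finset (Fin n) := Finset.univ.filter fun k => u k = 0 with hZdef
  set T : Finset (Fin n) := (Z.erase i).erase i' with hT
  obtain ⟨J, hJT, hJc, hJ⟩ := zs_greedy (zsF B U) T _ K0 le_rfl
  have hTm : ∀ j ∈ T, j ≠ i ∧ j ≠ i' ∧ u j = 0 := by
    intro j hj
    simp only [hT, hZdef, Finset.mem_erase, Finset.mem_filter] at hj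
    exact ⟨hj.2.1, hj.1, hj.2.2.2⟩
  have hTU : ∀ j ∈ T, j ∉ U := fun j hj h => (Finset.mem_filter.mp h).2 (hTm j hj).2.2
  refine ⟨U, R0 ∪ J, T \ J, ?_, ?_, hUδ, ?_, ?_⟩
  · exact Finset.disjoint_left.mpr fun j hj => hTU j (Finset.mem_sdiff.mp hj).1
  · refine Finset.disjoint_left.mpr fun j hj h => ?_
    rcases Finset.mem_union.mp h with h | h
    · exact hTU j (Finset.mem_sdiff.mp hj).1
        (Finset.mem_of_mem_erase (Finset.mem_of_mem_erase h))
    · exact (Finset.mem_sdiff.mp hj).2 h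
  · have h1 : T.card ≤ (T \ J).card + J.card := Finset.card_le_card_sdiff_add_card
    have h2 : Z.card ≤ T.card + 2 := by
      have a := Finset.pred_card_le_card_erase (s := Z) (a := i)
      have b := Finset.pred_card_le_card_erase (s := Z.erase i) (a := i')
      rw [hT]
      omega
    have h3 : Z.card ≤ (T \ J).card + Module.finrank ℚ K0 + 2 := by omega
    have h4 : (Z.card : ℝ) ≤ (T \ J).card + Module.finrank ℚ K0 + 2 := by exact_mod_cast h3
    linarith
  · intro j hj
    refine ⟨⟨v, fun k => (Finset.mem_filter.mp k.2).2, fun r hr => ?_⟩, fun w hw => ?_⟩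
    · rcases Finset.mem_union.mp hr with h | h
      · simp only [hR0, Finset.mem_erase] at h
        exact hvF r h.2.1 h.1
      · exact hvF r (hTm r (hJT h)).1 (hTm r (hJT h)).2.1
    · exact hJ w ((hK0m w).mpr fun r hr => hw r (Finset.mem_union_left _ hr))
        (fun r hr => hw r (Finset.mem_union_right _ hr)) j (Finset.mem_sdiff.mp hj).1

theorem sm_ZS {p : ℝ} (h0 : 0 < p) (h1 : p < 1) {ε β : ℝ} (hε : 0 < ε) (hβ : 0 < β) :
    Sm p ε (fun n => {ω : Om n | ¬ ZS β (mat ω)}) := by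
  obtain ⟨δ, hδ, hS⟩ := sm_SP h0 h1 (half_pos hε)
  have hN := (neg_T1Q h0 h1 (ρ := β / 4) (by positivity)).union h0.le h1.le
    (zs_neg h0 h1 hδ (γ := β / 2) (by positivity))
  have hU := hS.union h0.le h1.le (half_lt_self hε) (hN.sm (half_pos hε).le)
  refine hU.mono h0.le h1.le ?_
  have hev : ∀ᶠ n : ℕ in atTop, 16 / β ≤ (n : ℝ) :=
    tendsto_natCast_atTop_atTop.eventually_ge_atTop _
  filter_upwards [hev] with n hn ω hω
  by_cases a : SP δ (mat ω)
  · by_cases b : T1Q (β / 4) (mat ω)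
    · refine Or.inr (Or.inr (zs_det a b hω ?_))
      rw [div_le_iff₀ hβ] at hn
      linarith
    · exact Or.inr (Or.inl b)
  · exact Or.inl a

end Crest.Agent.R152
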