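import Crest.Agent.R152.RMGm

/-! # Row 152, reverse Minkowski: first order behaviour of the Gaussian mass -/

set_option autoImplicit false
open Filter MeasureTheory Topology Set

noncomputable section
namespace Crest.Agent.R152

variable {r : ℕ} {t : ℝ}

theorem RMAsym_inj {M : V (Fin r) →ₗ[ℝ] V (Fin r)} (hM : LinearMap.det M = 1) :
    Function.Bijective M := by
  have hu : IsUnit M := (LinearMap.isUnit_iff_isUnit_det M).2 (by rw [hM]; exact isUnit_one)
  exact (Module.End.isUnit_iff M).1 hu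

theorem RMAsym_le (M : V (Fin r) →ₗ[ℝ] V (Fin r)) (Λ : Submodule ℤ (V (Fin r))) (x : V (Fin r)) :
    Metric.infDist (M x) (img M Λ : Set (V (Fin r))) ≤ ‖M x‖ := by
  have := Metric.infDist_le_dist_of_mem (x := M x) (s := (img M Λ : Set (V (Fin r))))
    (img M Λ).zero_mem
  simpa using this

theorem RMAsym_ge (M : V (Fin r) →ₗ[ℝ] V (Fin r)) (Λ : Submodule ℤ (V (Fin r))) (x : V (Fin r))
    {a : ℝ} (h : ∀ v ∈ Λ, a ≤ ‖M (x - v)‖) :
    a ≤ Metric.infDist (M x) (img M Λ : Set (V (Fin r))) := by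
  rw [Metric.le_infDist ⟨0, (img M Λ).zero_mem⟩]
  rintro y ⟨v, hv, rfl⟩
  have := h v hv
  rwa [map_sub, ← dist_eq_norm] at this

theorem RMAsym_exp {u w : ℝ} (hu : 0 ≤ u) (huw : u ≤ w) :
    0 ≤ Real.exp (-u) - Real.exp (-w) ∧ Real.exp (-u) - Real.exp (-w) ≤ w - u := by
  refine ⟨sub_nonneg.2 (Real.exp_le_exp.2 (by linarith)), ?_⟩
  have h1 : Real.exp (-w) = Real.exp (-u) * Real.exp (-(w - u)) := by
    rw [← Real.exp_add]; congr 1; ring
  have h2 : Real.exp (-u) ≤ 1 := Real.exp_le_one_iff.2 (by linarith)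
  have h3 := Real.add_one_le_exp (-(w - u))
  have h4 := Real.exp_pos (-u)
  rw [h1]
  nlinarith

/-- `pc_integral` with the packing set `voro (img M Λ)`, the covering set `M '' vor Λ` and
`ψ y = exp (-(t²/2) infDist y (img M Λ) ^ 2)`; `setIntegral_image_lin`. -/
theorem gm_img_le (ht : 0 < t) {Λ : Submodule ℤ (V (Fin r))} (h : IsLat Λ) (hf : rsp Λ = ⊤)
    {M : V (Fin r) →ₗ[ℝ] V (Fin r)} (hM : LinearMap.det M = 1) :
    gm t (vor (img M Λ)) ≤ (t / Real.sqrt (2 * Real.pi)) ^ r * ∫ x in vor Λ,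
      Real.exp (-(t ^ 2 / 2) * Metric.infDist (M x) (img M Λ : Set (V (Fin r))) ^ 2) := by
  have hb := RMAsym_inj hM
  have h' : IsLat (img M Λ) := (h.img M fun x _ hx => hb.1 (by simpa using hx)).1
  have hc := h.isCompact_vor hf
  have hM0 : LinearMap.det M ≠ 0 := by rw [hM]; exact one_ne_zero
  obtain ⟨hmeas, hint⟩ := setIntegral_image_lin hM0 hc.measurableSet
    (fun y => Real.exp (-(t ^ 2 / 2) * Metric.infDist y (img M Λ : Set (V (Fin r))) ^ 2))
  rw [hM, abs_one, one_mul] at hint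
  rw [← h'.gm_voro, ← hint, gm]
  refine mul_le_mul_of_nonneg_left ?_ (by positivity)
  have hcont : Continuous fun y : V (Fin r) =>
      Real.exp (-(t ^ 2 / 2) * Metric.infDist y (img M Λ : Set (V (Fin r))) ^ 2) := by
    have := Metric.continuous_infDist_pt (img M Λ : Set (V (Fin r)))
    fun_prop
  refine pc_integral h'.countable h'.measurableSet_voro hmeas (pack_voro _)
    (h.cover_vor.map hb.2) (by fun_prop) (fun _ => (Real.exp_pos _).le)
    (fun _ => (Real.exp_pos _).le)
    (hcont.continuousOn.integrableOn_compact (hc.image M.continuous_of_finiteDimensional)) ?_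
  intro x _ v hv _
  refine Real.exp_le_exp.2 ?_
  have h1 : Metric.infDist (x - v) (img M Λ : Set (V (Fin r))) ≤ ‖x‖ := by
    have := Metric.infDist_le_dist_of_mem (x := x - v) (s := (img M Λ : Set (V (Fin r))))
      ((img M Λ).neg_mem hv)
    rwa [dist_eq_norm, sub_neg_eq_add, sub_add_cancel] at this
  have h2 := pow_le_pow_left₀ Metric.infDist_nonneg h1 2
  have h3 : 0 < t ^ 2 / 2 := by positivity
  nlinarith

/-- For `x ∈ vor Λ`: `e^{-sL} ‖x‖ ≤ infDist (M s x) (img (M s) Λ) ≤ ‖M s x‖ ≤ e^{sL} ‖x‖`, so the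
difference of the two integrands divided by `s` is bounded on the compact cell for `0 < s ≤ 1`
(`e^{-u} - e^{-w} ≤ w - u` for `0 ≤ u ≤ w`); for `x ∈ voro Λ` it vanishes for small `s`
(`IsLat.exists_gap`).  `tendsto_integral_filter_of_dominated_convergence`, `IsLat.voro_ae_eq`. -/
theorem gm_img_asym (ht : 0 < t) {Λ : Submodule ℤ (V (Fin r))} (h : IsLat Λ) (hf : rsp Λ = ⊤)
    (M : ℝ → V (Fin r) →ₗ[ℝ] V (Fin r)) (hM : ∀ s, LinearMap.det (M s) = 1) {L : ℝ} (hL : 0 ≤ L)
    (hb : ∀ s, 0 ≤ s → ∀ x, ‖x‖ ≤ Real.exp (s * L) * ‖M s x‖ ∧ ‖M s x‖ ≤ Real.exp (s * L) * ‖x‖)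
    {ε : ℝ} (hε : 0 < ε) :
    ∀ᶠ s in 𝓝[>] (0 : ℝ), gm t (vor (img (M s) Λ)) ≤ hm t (vor Λ) (M s) + ε * s := by
  have hc := h.isCompact_vor hf
  set c : ℝ := (t / Real.sqrt (2 * Real.pi)) ^ r with hc_def
  have hc0 : 0 < c := by positivity
  set A : ℝ → V (Fin r) → ℝ := fun s x => Real.exp (-(t ^ 2 / 2) *
    Metric.infDist (M s x) (img (M s) Λ : Set (V (Fin r))) ^ 2) with hA
  set B : ℝ → V (Fin r) → ℝ := fun s x => Real.exp (-(t ^ 2 / 2) * ‖M s x‖ ^ 2) with hB
  have hAc : ∀ s, Continuous (A s) := fun s => by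
    have h1 := Metric.continuous_infDist_pt (img (M s) Λ : Set (V (Fin r)))
    have h2 := (M s).continuous_of_finiteDimensional
    have h3 := h1.comp h2
    exact Real.continuous_exp.comp (continuous_const.mul (h3.pow 2))
  have hBc : ∀ s, Continuous (B s) := fun s => by
    have h2 := (M s).continuous_of_finiteDimensional
    exact Real.continuous_exp.comp (continuous_const.mul (h2.norm.pow 2))
  have ht2 : 0 < t ^ 2 / 2 := by positivity
  have hlim : Tendsto (fun s => ∫ x in vor Λ, (A s x - B s x) / s) (𝓝[>] (0 : ℝ))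
      (𝓝 (∫ _ in vor Λ, (0 : ℝ))) := by
    refine tendsto_integral_filter_of_dominated_convergence
      (fun x => t ^ 2 / 2 * (4 * L * Real.exp (2 * L) * ‖x‖ ^ 2)) ?_ ?_ ?_ ?_
    · exact Eventually.of_forall fun s =>
        (((hAc s).sub (hBc s)).div_const s).aestronglyMeasurable
    · filter_upwards [Ioc_mem_nhdsGT (zero_lt_one' ℝ)] with s hs
      filter_upwards [ae_restrict_mem hc.measurableSet] with x hx
      set d := Metric.infDist (M s x) (img (M s) Λ : Set (V (Fin r))) with hd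
      have hd0 : 0 ≤ d := Metric.infDist_nonneg
      have hd1 : d ≤ ‖M s x‖ := RMAsym_le _ _ _
      have he := Real.exp_pos (s * L)
      have hd2 : Real.exp (-(s * L)) * ‖x‖ ≤ d := RMAsym_ge _ _ _ fun v hv => by
        rw [Real.exp_neg, inv_mul_le_iff₀ he]
        exact (hx v hv).trans (hb s hs.1.le _).1
      have hd3 := (hb s hs.1.le x).2
      have hsq := pow_le_pow_left₀ hd0 hd1 2
      obtain ⟨h1, h2⟩ := RMAsym_exp (u := t ^ 2 / 2 * d ^ 2) (w := t ^ 2 / 2 * ‖M s x‖ ^ 2)
        (by positivity) (by gcongr)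
      have e1 : A s x - B s x =
          Real.exp (-(t ^ 2 / 2 * d ^ 2)) - Real.exp (-(t ^ 2 / 2 * ‖M s x‖ ^ 2)) := by
        simp only [hA, hB, neg_mul, hd]
      rw [e1, Real.norm_eq_abs, abs_of_nonneg (div_nonneg h1 hs.1.le), div_le_iff₀ hs.1]
      refine h2.trans ?_
      have h3 : ‖M s x‖ ^ 2 ≤ Real.exp (2 * (s * L)) * ‖x‖ ^ 2 := by
        refine (pow_le_pow_left₀ (norm_nonneg _) hd3 2).trans (le_of_eq ?_)
        rw [mul_pow, ← Real.exp_nat_mul]; norm_num
      have h4 : Real.exp (-(2 * (s * L))) * ‖x‖ ^ 2 ≤ d ^ 2 := by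
        refine le_trans (le_of_eq ?_) (pow_le_pow_left₀ (by positivity) hd2 2)
        rw [mul_pow, ← Real.exp_nat_mul]; norm_num
      have hsL : 0 ≤ s * L := mul_nonneg hs.1.le hL
      have h5 : Real.exp (2 * (s * L)) - Real.exp (-(2 * (s * L))) ≤
          4 * L * Real.exp (2 * L) * s := by
        have h6 : Real.exp (-(2 * (s * L))) = Real.exp (2 * (s * L)) * Real.exp (-(4 * (s * L))) := by
          rw [← Real.exp_add]; congr 1; ring
        have h7 := Real.add_one_le_exp (-(4 * (s * L)))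
        have h8 : Real.exp (2 * (s * L)) ≤ Real.exp (2 * L) :=
          Real.exp_le_exp.2 (by nlinarith [hs.2])
        have h9 := Real.exp_pos (2 * (s * L))
        rw [h6]
        nlinarith
      have h10 := mul_le_mul_of_nonneg_right h5 (sq_nonneg ‖x‖)
      nlinarith
    · exact Continuous.continuousOn (by fun_prop) |>.integrableOn_compact hc
    · have hae : ∀ᵐ x ∂(volume.restrict (vor Λ)), x ∈ voro Λ := by
        rw [← Measure.restrict_congr_set h.voro_ae_eq]
        exact ae_restrict_mem h.measurableSet_voro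
      filter_upwards [hae] with x hx
      obtain ⟨κ, hκ, hgap⟩ := h.exists_gap hx
      have hev : ∀ᶠ s in 𝓝 (0 : ℝ), Real.exp (s * L) * Real.exp (s * L) < κ := by
        have hcont : Continuous fun s : ℝ => Real.exp (s * L) * Real.exp (s * L) := by fun_prop
        exact hcont.continuousAt.eventually (gt_mem_nhds (by simpa using hκ))
      refine tendsto_const_nhds.congr' ?_
      filter_upwards [self_mem_nhdsWithin, mem_nhdsWithin_of_mem_nhds hev] with s hs hκs
      have hs0 : 0 ≤ s := le_of_lt hs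
      have he := Real.exp_pos (s * L)
      have hd : Metric.infDist (M s x) (img (M s) Λ : Set (V (Fin r))) = ‖M s x‖ := by
        refine le_antisymm (RMAsym_le _ _ _) (RMAsym_ge _ _ _ fun v hv => ?_)
        by_cases hv0 : v = 0
        · simp [hv0]
        · have h1 := hgap v hv hv0
          have h2 := (hb s hs0 (x - v)).1
          have h3 := (hb s hs0 x).2
          have h4 : Real.exp (s * L) * Real.exp (s * L) * ‖x‖ ≤ κ * ‖x‖ :=
            mul_le_mul_of_nonneg_right (le_of_lt hκs) (norm_nonneg _)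
          refine le_of_mul_le_mul_left ?_ he
          nlinarith
      simp only [hA, hB, hd, sub_self, zero_div]
  rw [integral_zero] at hlim
  have hev := hlim.eventually (gt_mem_nhds (div_pos hε hc0))
  filter_upwards [hev, self_mem_nhdsWithin] with s hs hs0
  have hs0' : 0 < s := hs0
  refine (gm_img_le ht h hf (hM s)).trans ?_
  rw [integral_div, integral_sub ((hAc s).continuousOn.integrableOn_compact hc)
    ((hBc s).continuousOn.integrableOn_compact hc), div_lt_div_iff₀ hs0' hc0] at hs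
  show c * ∫ x in vor Λ, A s x ≤ c * (∫ x in vor Λ, B s x) + ε * s
  nlinarith

end Crest.Agent.R152
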