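import Crest.Agent.R152.RMDefs

/-! # Row 152, reverse Minkowski: Mahler compactness -/

set_option autoImplicit false
open Filter MeasureTheory Topology Set

noncomputable section
namespace Crest.Agent.R152

variable {E F : Type} [NormedAddCommGroup E] [InnerProductSpace ℝ E] [FiniteDimensional ℝ E]
  [NormedAddCommGroup F] [InnerProductSpace ℝ F] [FiniteDimensional ℝ F] {r : ℕ}

theorem continuous_gvol {ι : Type} [Fintype ι] [DecidableEq ι] :
    Continuous (gvol : (ι → E) → ℝ) := by
  unfold gvol
  refine Real.continuous_sqrt.comp (Continuous.matrix_det ?_)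
  refine continuous_matrix fun i j => ?_
  simp only [Matrix.gram_apply]
  fun_prop

/-- closed (`continuous_gvol`) and bounded -/
theorem isCompact_KD (r : ℕ) (R D : ℝ) : IsCompact (KD r R D) := by
  refine Metric.isCompact_of_isClosed_isBounded ?_ ?_
  · have e : KD r R D = (⋂ i, {b : Fin r → V (Fin r) | ‖b i‖ ≤ R}) ∩
        ({b : Fin r → V (Fin r) | gvol b ≤ D} ∩ ⋂ (k : ℕ), ⋂ (U : Fin k → Fin r → ℤ),
          ⋂ (_ : LinearIndependent ℝ (fun j i => (U j i : ℝ))),
            {b : Fin r → V (Fin r) | 1 ≤ gvol fun j => ∑ i, (U j i : ℝ) • b i}) := by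
      ext b
      simp [KD]
    rw [e]
    refine (isClosed_iInter fun i => isClosed_le (by fun_prop) continuous_const).inter
      ((isClosed_le continuous_gvol continuous_const).inter (isClosed_iInter fun k =>
        isClosed_iInter fun U => isClosed_iInter fun _ =>
          isClosed_le continuous_const (continuous_gvol.comp ?_)))
    fun_prop
  · refine (Metric.isBounded_closedBall (x := (0 : Fin r → V (Fin r))) (r := max R 0)).subset ?_
    intro b hb
    rw [mem_closedBall_zero_iff, pi_norm_le_iff_of_nonneg (le_max_right _ _)]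
    exact fun i => (hb.1 i).trans (le_max_left _ _)

/-- `U = 1` gives `gvol b ≥ 1`, so `b` is independent (`gvol_eq_zero`).  A sublattice has a basis
`w j = ∑ i, U j i • b i` (`IsLat.sub`, `IsLat.exists_basis`, `Submodule.mem_span_range_iff_exists_fun`),
the rows of `U` are independent because `w` is, and `cov N = gvol w` (`cov_span`). -/
theorem KD.stab {R D : ℝ} {b : Fin r → V (Fin r)} (hb : b ∈ KD r R D) :
    LinearIndependent ℝ b ∧ Stab (Submodule.span ℤ (range b)) ∧
      rsp (Submodule.span ℤ (range b)) = ⊤ ∧ cov (Submodule.span ℤ (range b)) ≤ D := by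
  have h1 : 1 ≤ gvol b := by
    have := hb.2.2 r (fun j i => if j = i then 1 else 0) (by
      have := (Pi.basisFun ℝ (Fin r)).linearIndependent
      convert this using 1
      ext j i
      simp [Pi.single_apply, eq_comm])
    simpa using this
  have hli : LinearIndependent ℝ b := by
    by_contra h
    rw [gvol_eq_zero h] at h1
    norm_num at h1
  refine ⟨hli, ⟨isLat_span hli, fun N hN => ?_⟩, ?_, by rw [cov_span hli]; exact hb.2.1⟩
  · obtain ⟨w, hw, hwN⟩ := ((isLat_span hli).sub hN).exists_basis
    have hm : ∀ j, ∃ c : Fin r → ℤ, ∑ i, c i • b i = w j := fun j =>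
      (Submodule.mem_span_range_iff_exists_fun ℤ).1
        (hN (hwN.le (Submodule.subset_span ⟨j, rfl⟩)))
    choose U hU using hm
    have e : w = fun j => ∑ i, (U j i : ℝ) • b i := by
      funext j
      rw [← hU j]
      exact Finset.sum_congr rfl fun i _ => (Int.cast_smul_eq_zsmul ℝ _ _).symm
    have hU' : LinearIndependent ℝ fun j i => (U j i : ℝ) := by
      refine LinearIndependent.of_comp (Fintype.linearCombination ℝ b) ?_
      have e2 : (Fintype.linearCombination ℝ b ∘ fun j i => (U j i : ℝ)) = w := by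
        rw [e]
        funext j
        simp [Fintype.linearCombination_apply]
      rw [e2]
      exact hw
    have := hb.2.2 _ U hU'
    rw [← e, ← cov_span hw, hwN] at this
    exact this
  · rw [rsp_span]
    exact hli.span_eq_top_of_card_eq_finrank' (by simp)

/-- `exists_reduced`; nonzero vectors of `Λ` have norm at least one (`gvol_single`, `cov_span`), so
each factor of `∏ ‖b i‖` is at most the product. -/
theorem Stab.exists_KD {Λ : Submodule ℤ (V (Fin r))} (h : Stab Λ) (hf : rsp Λ = ⊤) {D : ℝ}
    (hD : cov Λ ≤ D) : ∃ b ∈ KD r (2 ^ (r ^ 2) * D) D, Submodule.span ℤ (range b) = Λ := by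
  have hr : rk Λ = r := by rw [rk, hf]; simp
  obtain ⟨b, hb, hbs, hbp⟩ : ∃ v : Fin r → V (Fin r), LinearIndependent ℝ v ∧
      Submodule.span ℤ (Set.range v) = Λ ∧ ∏ i, ‖v i‖ ≤ 2 ^ (r ^ 2) * cov Λ := by
    have key : ∀ k, rk Λ = k → ∃ v : Fin k → V (Fin r), LinearIndependent ℝ v ∧
        Submodule.span ℤ (Set.range v) = Λ ∧ ∏ i, ‖v i‖ ≤ 2 ^ (k ^ 2) * cov Λ := by
      rintro k rfl
      exact exists_reduced h.1
    exact key r hr
  have hmem : ∀ i, b i ∈ Λ := fun i => hbs.le (Submodule.subset_span ⟨i, rfl⟩)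
  have hone : ∀ (k : ℕ) (w : Fin k → V (Fin r)), LinearIndependent ℝ w → (∀ j, w j ∈ Λ) →
      1 ≤ gvol w := fun k w hw hm => by
    rw [← cov_span hw]
    exact h.2 _ (Submodule.span_le.2 (by rintro _ ⟨j, rfl⟩; exact hm j))
  have h1 : ∀ i, 1 ≤ ‖b i‖ := fun i => by
    rw [← gvol_single]
    exact hone 1 _ (linearIndependent_unique_iff.2 (hb.ne_zero i)) fun _ => hmem i
  refine ⟨b, ⟨fun i => ?_, ?_, fun k U hU => hone k _ ?_ fun j => ?_⟩, hbs⟩
  · have a1 : ‖b i‖ ≤ ∏ j, ‖b j‖ := by
      rw [← Finset.mul_prod_erase _ _ (Finset.mem_univ i)]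
      exact le_mul_of_one_le_right (norm_nonneg _) (Finset.one_le_prod fun j _ => h1 j)
    exact a1.trans (hbp.trans (mul_le_mul_of_nonneg_left hD (by positivity)))
  · rw [← cov_span hb, hbs]; exact hD
  · have := hU.map' (Fintype.linearCombination ℝ b)
      (LinearMap.ker_eq_bot'.2 fun c hc => funext
        (Fintype.linearIndependent_iff.1 hb c (by simpa [Fintype.linearCombination_apply] using hc)))
    have e2 : (Fintype.linearCombination ℝ b ∘ fun j i => (U j i : ℝ)) =
        fun j => ∑ i, (U j i : ℝ) • b i := by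
      funext j
      simp [Fintype.linearCombination_apply]
    rwa [e2] at this
  · exact Submodule.sum_mem _ fun i _ => by
      rw [Int.cast_smul_eq_zsmul]
      exact Submodule.smul_mem _ _ (hmem i)

end Crest.Agent.R152
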