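import Crest.Agent.R152.Lat3

/-! # Row 152, reverse Minkowski: definitions (do not edit)

Plan (replaces RM1-RM5 of DESIGN.md).  `G(Λ) = gm t (vor Λ)` is the Gaussian mass of the Voronoi cell.
Everything follows from one packing-versus-covering lemma (`RMPC`): theta bound (`RMTheta`), product
bound (`RMProd`, `RMSplit`), lower semicontinuity and existence of a minimiser (`RMCpt`, `RMMin`),
interior case (`RMOpen`, `RMSpec`, `RMAsym`, `RMInt`), induction (`RMMain`). -/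

set_option autoImplicit false
open Filter MeasureTheory Topology Set

noncomputable section
namespace Crest.Agent.R152

section
variable {E : Type} [NormedAddCommGroup E] [InnerProductSpace ℝ E]

/-- The closed Voronoi cell. -/
def vor (Λ : Submodule ℤ E) : Set E := {x | ∀ v ∈ Λ, ‖x‖ ≤ ‖x - v‖}

/-- The strict Voronoi cell. -/
def voro (Λ : Submodule ℤ E) : Set E := {x | ∀ v ∈ Λ, v ≠ 0 → ‖x‖ < ‖x - v‖}

/-- The translates of `K` by `Λ` are disjoint. -/
def Pack (Λ : Submodule ℤ E) (K : Set E) : Prop := ∀ x ∈ K, ∀ y ∈ K, x - y ∈ Λ → x = y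

/-- The translates of `K` by `Λ` cover the space. -/
def Cover (Λ : Submodule ℤ E) (K : Set E) : Prop := ∀ x, ∃ v ∈ Λ, x - v ∈ K

/-- Lattices all of whose sublattices have covolume at least one. -/
def Stab (Λ : Submodule ℤ E) : Prop := IsLat Λ ∧ ∀ N, N ≤ Λ → 1 ≤ cov N

end

/-- Gaussian mass (variance `1 / t²`) of a set. -/
def gm {r : ℕ} (t : ℝ) (K : Set (V (Fin r))) : ℝ :=
  (t / Real.sqrt (2 * Real.pi)) ^ r * ∫ x in K, Real.exp (-(t ^ 2 / 2) * ‖x‖ ^ 2)

/-- Gaussian mass of the image of `K` under a unimodular map `M`. -/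
def hm {r : ℕ} (t : ℝ) (K : Set (V (Fin r))) (M : V (Fin r) →ₗ[ℝ] V (Fin r)) : ℝ :=
  (t / Real.sqrt (2 * Real.pi)) ^ r * ∫ x in K, Real.exp (-(t ^ 2 / 2) * ‖M x‖ ^ 2)

/-- Bounded bases of stable lattices of covolume at most `D`. -/
def KD (r : ℕ) (R D : ℝ) : Set (Fin r → V (Fin r)) :=
  {b | (∀ i, ‖b i‖ ≤ R) ∧ gvol b ≤ D ∧ ∀ (k : ℕ) (U : Fin k → Fin r → ℤ),
    LinearIndependent ℝ (fun j i => (U j i : ℝ)) → 1 ≤ gvol fun j => ∑ i, (U j i : ℝ) • b i}

end Crest.Agent.R152
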