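import Crest.Agent.R152.RMVor

/-! # Row 152, reverse Minkowski: packing versus covering -/

set_option autoImplicit false
open Filter MeasureTheory Topology Set

noncomputable section
namespace Crest.Agent.R152

variable {r : ℕ}

/-- `K ⊆ ⋃ v, K ∩ (F + v)`; translate each piece by `-v`; the sets `(K - v) ∩ F` are pairwise
disjoint subsets of `F` (`lintegral_iUnion_le`, `lintegral_iUnion`, `lintegral_add_right_eq_self`). -/
theorem pc_lintegral {Λ : Submodule ℤ (V (Fin r))} (hΛ : (Λ : Set (V (Fin r))).Countable)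
    {K F : Set (V (Fin r))} (hK : MeasurableSet K) (hF : MeasurableSet F) (hp : Pack Λ K)
    (hc : Cover Λ F) {φ ψ : V (Fin r) → ENNReal}
    (h : ∀ x ∈ K, ∀ v ∈ Λ, x - v ∈ F → φ x ≤ ψ (x - v)) :
    ∫⁻ x in K, φ x ≤ ∫⁻ x in F, ψ x := by
  have : Countable Λ := hΛ.to_subtype
  set A : Λ → Set (V (Fin r)) := fun v => K ∩ {x | x - v ∈ F} with hA
  set B : Λ → Set (V (Fin r)) := fun v => {y | y + v ∈ K} ∩ F with hB
  have hAm : ∀ v, MeasurableSet (A v) := fun v =>
    hK.inter (hF.preimage (measurable_id.sub measurable_const))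
  have hBm : ∀ v, MeasurableSet (B v) := fun v =>
    (hK.preimage (measurable_id.add measurable_const)).inter hF
  have h1 : K ⊆ ⋃ v, A v := fun x hx => by
    obtain ⟨v, hv, hv'⟩ := hc x
    exact mem_iUnion.2 ⟨⟨v, hv⟩, hx, hv'⟩
  have h2 : ∀ v, ∫⁻ x in A v, φ x ≤ ∫⁻ y in B v, ψ y := fun v => by
    refine (setLIntegral_mono' (hAm v) (g := fun x => ψ (x - v))
      fun x hx => h x hx.1 v v.2 hx.2).trans (le_of_eq ?_)
    rw [← lintegral_indicator (hAm v), ← lintegral_indicator (hBm v),
      ← lintegral_add_right_eq_self _ (v : V (Fin r))]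
    refine lintegral_congr fun y => ?_
    by_cases hy : y ∈ B v
    · rw [indicator_of_mem hy, indicator_of_mem, add_sub_cancel_right]
      exact ⟨hy.1, by simpa using hy.2⟩
    · rw [indicator_of_notMem hy, indicator_of_notMem]
      exact fun hy' => hy ⟨hy'.1, by simpa using hy'.2⟩
  have h3 : Pairwise (Function.onFun Disjoint B) := fun v w hvw => by
    refine Set.disjoint_left.2 fun y hy hy' => hvw ?_
    have := hp _ hy.1 _ hy'.1 (by
      rw [add_sub_add_left_eq_sub]
      exact Λ.sub_mem v.2 w.2)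
    exact Subtype.ext (add_left_cancel this)
  calc ∫⁻ x in K, φ x ≤ ∫⁻ x in ⋃ v, A v, φ x := lintegral_mono_set h1
    _ ≤ ∑' v, ∫⁻ x in A v, φ x := lintegral_iUnion_le _ _
    _ ≤ ∑' v, ∫⁻ y in B v, ψ y := ENNReal.tsum_le_tsum h2
    _ = ∫⁻ y in ⋃ v, B v, ψ y := (lintegral_iUnion hBm h3 _).symm
    _ ≤ _ := lintegral_mono_set (iUnion_subset fun v => inter_subset_right)

theorem pc_integral {Λ : Submodule ℤ (V (Fin r))} (hΛ : (Λ : Set (V (Fin r))).Countable)
    {K F : Set (V (Fin r))} (hK : MeasurableSet K) (hF : MeasurableSet F) (hp : Pack Λ K)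
    (hc : Cover Λ F) {φ ψ : V (Fin r) → ℝ} (hφ : Continuous φ) (hφ0 : ∀ x, 0 ≤ φ x)
    (hψ0 : ∀ x, 0 ≤ ψ x) (hψ : IntegrableOn ψ F)
    (h : ∀ x ∈ K, ∀ v ∈ Λ, x - v ∈ F → φ x ≤ ψ (x - v)) :
    ∫ x in K, φ x ≤ ∫ x in F, ψ x := by
  have h1 := pc_lintegral hΛ hK hF hp hc (φ := fun x => ENNReal.ofReal (φ x))
    (ψ := fun x => ENNReal.ofReal (ψ x)) fun x hx v hv hv' =>
      ENNReal.ofReal_le_ofReal (h x hx v hv hv')
  rw [← ofReal_integral_eq_lintegral_ofReal hψ (Eventually.of_forall hψ0)] at h1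
  rw [integral_eq_lintegral_of_nonneg_ae (Eventually.of_forall hφ0) hφ.aestronglyMeasurable]
  exact ENNReal.toReal_le_of_le_ofReal (integral_nonneg hψ0) h1

/-- The half-open parallelepiped of a basis `b` (the image of `[0,1)^r`, or
`ZSpan.fundamentalDomain`) is a packing set of volume `|det| = gvol b` (`gvol_mul`,
`gvol_orthonormal`, `cov_span`); `pc_lintegral` with `φ = ψ = 1`. -/
theorem IsLat.cov_le_volume {Λ : Submodule ℤ (V (Fin r))} (h : IsLat Λ) (hf : rsp Λ = ⊤) :
    ENNReal.ofReal (cov Λ) ≤ volume (vor Λ) := by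
  have hcount := h.countable
  have hcov := h.cover_vor
  obtain ⟨k, v, hv, rfl⟩ := h
  have hsp : ⊤ ≤ Submodule.span ℝ (Set.range v) := by
    rw [← hf, rsp, Submodule.span_span_of_tower]
  obtain rfl : k = r := by
    have := Module.finrank_eq_card_basis (Module.Basis.mk hv hsp)
    simpa using this.symm
  set b := Module.Basis.mk hv hsp with hb
  have hbv : (b : Fin k → V (Fin k)) = v := Module.Basis.coe_mk hv hsp
  set e := EuclideanSpace.basisFun (Fin k) ℝ with he
  have h1 : cov (Submodule.span ℤ (Set.range v)) = |e.toBasis.det b| := by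
    have h2 := gvol_mul e (e.toBasis.toMatrix v)
    rw [gvol_orthonormal e.orthonormal, mul_one] at h2
    rw [cov_span hv, Module.Basis.det_apply, hbv, ← h2]
    congr 1
    funext j
    exact (e.toBasis.sum_toMatrix_smul_self v j).symm
  have h2 : volume (ZSpan.fundamentalDomain b) = ENNReal.ofReal |e.toBasis.det b| := by
    rw [ZSpan.measure_fundamentalDomain b volume e.toBasis,
      measure_congr (ZSpan.fundamentalDomain_ae_parallelepiped e.toBasis volume)]
    have := e.volume_parallelepiped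
    simp only [OrthonormalBasis.coe_toBasis]
    rw [this, mul_one]
  have h3 : Pack (Submodule.span ℤ (Set.range v)) (ZSpan.fundamentalDomain b) := by
    intro x hx y hy hxy
    rw [← hbv] at hxy
    have := (ZSpan.exist_unique_vadd_mem_fundamentalDomain b y).unique
      (y₁ := ⟨x - y, hxy⟩) (y₂ := 0) (by simpa [Submodule.vadd_def] using hx) (by simpa using hy)
    exact sub_eq_zero.1 (congrArg Subtype.val this)
  have h4 := pc_lintegral hcount (ZSpan.fundamentalDomain_measurableSet b)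
    (isClosed_vor _).measurableSet h3 hcov (φ := fun _ => 1) (ψ := fun _ => 1)
    fun _ _ _ _ _ => le_rfl
  rwa [setLIntegral_one, setLIntegral_one, h2, ← h1] at h4

end Crest.Agent.R152
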