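import Crest.Agent.R152.RMGm

/-! # Row 152, reverse Minkowski: products -/

set_option autoImplicit false
open Filter MeasureTheory Topology Set

noncomputable section
namespace Crest.Agent.R152

variable {E F : Type} [NormedAddCommGroup E] [InnerProductSpace ℝ E] [FiniteDimensional ℝ E]
  [NormedAddCommGroup F] [InnerProductSpace ℝ F] [FiniteDimensional ℝ F] {r : ℕ}

/-- `x ↦ toLp 2 (f₁ x, f₂ x)` is a linear isometry onto `WithLp 2 (V k × V l)` (equal dimensions),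
hence measure preserving (`LinearIsometry.toLinearIsometryEquiv`,
`LinearIsometryEquiv.measurePreserving`, `WithLp.volume_preserving_ofLp`); `setIntegral_prod_mul`. -/
theorem gm_prod {t : ℝ} (ht : 0 < t) {k l : ℕ} (hkl : k + l = r) (f₁ : V (Fin r) →ₗ[ℝ] V (Fin k))
    (f₂ : V (Fin r) →ₗ[ℝ] V (Fin l)) (hn : ∀ x, ‖x‖ ^ 2 = ‖f₁ x‖ ^ 2 + ‖f₂ x‖ ^ 2)
    {A : Set (V (Fin k))} {B : Set (V (Fin l))} (hA : MeasurableSet A) (hB : MeasurableSet B) :
    gm t (f₁ ⁻¹' A ∩ f₂ ⁻¹' B) = gm t A * gm t B := by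
  let g : V (Fin r) →ₗ[ℝ] WithLp 2 (V (Fin k) × V (Fin l)) :=
    (WithLp.linearEquiv 2 ℝ (V (Fin k) × V (Fin l))).symm.toLinearMap ∘ₗ (f₁.prod f₂)
  have hg : ∀ x, g x = WithLp.toLp 2 (f₁ x, f₂ x) := fun x => rfl
  have hgn : ∀ x, ‖g x‖ = ‖x‖ := by
    intro x
    have h1 : ‖g x‖ ^ 2 = ‖x‖ ^ 2 := by
      rw [hg, WithLp.prod_norm_sq_eq_of_L2, hn x]
      rfl
    exact (pow_left_inj₀ (norm_nonneg _) (norm_nonneg _) two_ne_zero).mp h1
  let li : V (Fin r) →ₗᵢ[ℝ] WithLp 2 (V (Fin k) × V (Fin l)) := ⟨g, hgn⟩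
  have hd : Module.finrank ℝ (V (Fin r)) =
      Module.finrank ℝ (WithLp 2 (V (Fin k) × V (Fin l))) := by
    rw [(WithLp.linearEquiv 2 ℝ (V (Fin k) × V (Fin l))).finrank_eq, Module.finrank_prod]
    simp [hkl]
  have hmp : MeasurePreserving (fun x : V (Fin r) => (f₁ x, f₂ x)) :=
    (WithLp.volume_preserving_ofLp (V (Fin k)) (V (Fin l))).comp
      (li.toLinearIsometryEquiv hd).measurePreserving
  have hc : Continuous fun z : V (Fin k) × V (Fin l) =>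
      Real.exp (-(t ^ 2 / 2) * ‖z.1‖ ^ 2) * Real.exp (-(t ^ 2 / 2) * ‖z.2‖ ^ 2) := by
    fun_prop
  have h2 := setIntegral_map (μ := (volume : Measure (V (Fin r))))
    (g := fun x : V (Fin r) => (f₁ x, f₂ x)) (hA.prod hB) hc.aestronglyMeasurable
    hmp.measurable.aemeasurable
  rw [hmp.map_eq, Measure.volume_eq_prod,
    setIntegral_prod_mul (fun x : V (Fin k) => Real.exp (-(t ^ 2 / 2) * ‖x‖ ^ 2))
      (fun x : V (Fin l) => Real.exp (-(t ^ 2 / 2) * ‖x‖ ^ 2))] at h2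
  have h3 : ∫ x in f₁ ⁻¹' A ∩ f₂ ⁻¹' B, Real.exp (-(t ^ 2 / 2) * ‖x‖ ^ 2) =
      ∫ x in (fun x : V (Fin r) => (f₁ x, f₂ x)) ⁻¹' (A ×ˢ B),
        Real.exp (-(t ^ 2 / 2) * ‖f₁ x‖ ^ 2) * Real.exp (-(t ^ 2 / 2) * ‖f₂ x‖ ^ 2) := by
    have : (fun x : V (Fin r) => (f₁ x, f₂ x)) ⁻¹' (A ×ˢ B) = f₁ ⁻¹' A ∩ f₂ ⁻¹' B := rfl
    rw [this]
    congr 1
    funext x
    rw [← Real.exp_add, hn x]
    congr 1
    ring
  unfold gm
  rw [h3, ← h2, ← hkl, pow_add]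
  ring

/-- Orthogonal projection onto `W` followed by the coordinates in an orthonormal basis of `W`
(`stdOrthonormalBasis`, reindexed by `finCongr`). -/
theorem exists_coord (W : Submodule ℝ E) {k : ℕ} (hk : Module.finrank ℝ W = k) :
    ∃ f : E →ₗ[ℝ] V (Fin k), (∀ x, ‖f x‖ = ‖W.starProjection x‖) ∧ W.map f = ⊤ := by
  let b : OrthonormalBasis (Fin k) ℝ W := (stdOrthonormalBasis ℝ W).reindex (finCongr hk)
  refine ⟨b.repr.toLinearEquiv.toLinearMap ∘ₗ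
    (W.orthogonalProjectionOnto : E →L[ℝ] W).toLinearMap, ?_, ?_⟩
  · intro x
    change ‖b.repr (W.orthogonalProjectionOnto x)‖ = _
    rw [b.repr.norm_map]
    rfl
  · rw [eq_top_iff]
    intro y _
    refine ⟨(b.repr.symm y : W), (b.repr.symm y).2, ?_⟩
    change b.repr (W.orthogonalProjectionOnto ((b.repr.symm y : W) : E)) = y
    rw [Submodule.orthogonalProjectionOnto_mem_subspace_eq_self]
    simp

/-- A sublattice `N'` of the image is the image of `Λ ⊓ comap f N'` (`cov_img_of_norm`, `c = 1`). -/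
theorem Stab.map_iso {Λ : Submodule ℤ E} (h : Stab Λ) (f : E →ₗ[ℝ] F)
    (hf : ∀ x ∈ rsp Λ, ‖f x‖ = ‖x‖) : Stab (img f Λ) := by
  have hinj : ∀ x ∈ rsp Λ, f x = 0 → x = 0 := by
    intro x hx h0
    have := hf x hx
    rw [h0, norm_zero] at this
    exact norm_eq_zero.mp this.symm
  refine ⟨(h.1.img f hinj).1, fun N' hN' => ?_⟩
  have hle : Λ ⊓ N'.comap (f.restrictScalars ℤ) ≤ Λ := inf_le_left
  have he : img f (Λ ⊓ N'.comap (f.restrictScalars ℤ)) = N' := by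
    apply le_antisymm
    · intro y hy
      obtain ⟨x, hx, rfl⟩ := mem_img.mp hy
      exact hx.2
    · intro y hy
      obtain ⟨x, hx, rfl⟩ := mem_img.mp (hN' hy)
      exact mem_img.mpr ⟨x, ⟨hx, hy⟩, rfl⟩
  have hc := cov_img_of_norm (h.1.sub hle) f one_pos
    (fun x hx => by rw [one_mul]; exact hf x (rsp_mono hle hx))
  rw [he, one_pow, one_mul] at hc
  rw [hc]
  exact h.2 _ hle

/-- `IsMin.quot` with `lam = 0`, `N₀ = ⊥`. -/
theorem Stab.quot {Λ N : Submodule ℤ E} (h : Stab Λ) (hN : N ≤ Λ) (h1 : cov N ≤ 1) :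
    Stab (img (prj (rsp N)) Λ) := by
  refine ⟨(cov_prj h.1 hN).1, fun M hM => ?_⟩
  have hm : IsMin 0 ⊥ Λ N := by
    refine ⟨bot_le, hN, fun N' _ hN' => ?_⟩
    unfold hn
    simp only [zero_mul, sub_zero]
    exact Real.log_le_log (cov_pos N) (h1.trans (h.2 N' hN'))
  simpa using hm.quot h.1 hM

end Crest.Agent.R152
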