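import Crest.Agent.R152.RMDefs

/-! # Row 152, reverse Minkowski: geometry of Voronoi cells -/

set_option autoImplicit false
open Filter MeasureTheory Topology Set

noncomputable section
namespace Crest.Agent.R152

variable {E F : Type} [NormedAddCommGroup E] [InnerProductSpace ℝ E] [FiniteDimensional ℝ E]
  [NormedAddCommGroup F] [InnerProductSpace ℝ F] [FiniteDimensional ℝ F] {r : ℕ}

theorem IsLat.countable {Λ : Submodule ℤ E} (h : IsLat Λ) : (Λ : Set E).Countable := by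
  refine (Set.countable_iUnion fun n : ℕ => (h.finite_ball n).countable).mono fun x hx => ?_
  obtain ⟨n, hn⟩ := exists_nat_ge ‖x‖
  exact mem_iUnion.2 ⟨n, hx, hn⟩

theorem voro_subset (Λ : Submodule ℤ E) : voro Λ ⊆ vor Λ := by
  intro x hx v hv
  by_cases h0 : v = 0
  · rw [h0, sub_zero]
  · exact (hx v hv h0).le

theorem pack_voro (Λ : Submodule ℤ E) : Pack Λ (voro Λ) := by
  intro x hx y hy hv
  by_contra hne
  have h1 := hx _ hv (sub_ne_zero.2 hne)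
  have h2 := hy _ (Λ.neg_mem hv) (neg_ne_zero.2 (sub_ne_zero.2 hne))
  rw [sub_sub_cancel] at h1
  rw [neg_sub, sub_sub_cancel] at h2
  exact lt_asymm h1 h2

/-- A closest lattice point exists (`IsLat.finite_ball`). -/
theorem IsLat.cover_vor {Λ : Submodule ℤ E} (h : IsLat Λ) : Cover Λ (vor Λ) := by
  intro x
  have h0 : (0 : E) ∈ {v : E | v ∈ Λ ∧ ‖v‖ ≤ 2 * ‖x‖} := ⟨Λ.zero_mem, by simp⟩
  obtain ⟨v, hv, hmin⟩ := Set.exists_min_image _ (fun v => ‖x - v‖) (h.finite_ball (2 * ‖x‖)) ⟨0, h0⟩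
  refine ⟨v, hv.1, fun w hw => ?_⟩
  rw [sub_sub]
  by_cases hle : ‖v + w‖ ≤ 2 * ‖x‖
  · exact hmin _ ⟨Λ.add_mem hv.1 hw, hle⟩
  · have h1 := hmin 0 h0
    have h2 := norm_sub_norm_le (v + w) x
    rw [norm_sub_rev] at h2
    simp only [sub_zero] at h1
    linarith [not_le.1 hle]

theorem neg_mem_vor {Λ : Submodule ℤ E} {x : E} (hx : x ∈ vor Λ) : -x ∈ vor Λ := by
  intro v hv
  have := hx _ (Λ.neg_mem hv)
  rwa [← norm_neg x, ← norm_neg (x - -v), neg_sub', neg_neg] at this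

theorem neg_mem_voro {Λ : Submodule ℤ E} {x : E} (hx : x ∈ voro Λ) : -x ∈ voro Λ := by
  intro v hv h0
  have := hx _ (Λ.neg_mem hv) (neg_ne_zero.2 h0)
  rwa [← norm_neg x, ← norm_neg (x - -v), neg_sub', neg_neg] at this

theorem RMVor_iff (x v : E) : ‖x‖ ≤ ‖x - v‖ ↔ inner ℝ v x ≤ ‖v‖ ^ 2 / 2 := by
  rw [← pow_le_pow_iff_left₀ (norm_nonneg _) (norm_nonneg _) two_ne_zero, norm_sub_sq_real,
    real_inner_comm]
  constructor <;> intro h <;> linarith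

/-- `‖x‖ ≤ ‖x - v‖ ↔ 2 ⟪v, x⟫ ≤ ‖v‖²` (`norm_sub_sq_real`), use `v` and `-v`. -/
theorem vor_eq_slabs (Λ : Submodule ℤ E) : vor Λ =
    {x | ∀ i : {v : E // v ∈ Λ ∧ v ≠ 0}, |inner ℝ i.1 x| ≤ ‖i.1‖ ^ 2 / 2} := by
  ext x
  constructor
  · rintro hx ⟨v, hv, -⟩
    have h1 := (RMVor_iff x v).1 (hx v hv)
    have h2 := (RMVor_iff x (-v)).1 (hx _ (Λ.neg_mem hv))
    rw [inner_neg_left, norm_neg] at h2
    exact abs_le.2 ⟨by linarith, h1⟩
  · intro hx v hv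
    by_cases h0 : v = 0
    · rw [h0, sub_zero]
    · exact (RMVor_iff x v).2 ((le_abs_self _).trans (hx ⟨v, hv, h0⟩))

theorem isClosed_vor (Λ : Submodule ℤ E) : IsClosed (vor Λ) := by
  have : vor Λ = ⋂ v ∈ Λ, {x : E | ‖x‖ ≤ ‖x - v‖} := by
    ext x
    simp [vor]
  rw [this]
  exact isClosed_biInter fun v _ => isClosed_le (by fun_prop) (by fun_prop)

theorem convex_vor (Λ : Submodule ℤ E) : Convex ℝ (vor Λ) := by
  intro x hx y hy a b ha hb hab v hv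
  have h1 := (RMVor_iff x v).1 (hx v hv)
  have h2 := (RMVor_iff y v).1 (hy v hv)
  rw [RMVor_iff, inner_add_right, inner_smul_right, inner_smul_right]
  calc a * inner ℝ v x + b * inner ℝ v y ≤ a * (‖v‖ ^ 2 / 2) + b * (‖v‖ ^ 2 / 2) := by gcongr
    _ = _ := by rw [← add_mul, hab, one_mul]

/-- With a basis `b` of `Λ`, `x = ∑ c i • b i` is within `∑ ‖b i‖` of `∑ ⌊c i⌋ • b i`. -/
theorem IsLat.isCompact_vor {Λ : Submodule ℤ E} (h : IsLat Λ) (hf : rsp Λ = ⊤) :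
    IsCompact (vor Λ) := by
  obtain ⟨b, -, hb⟩ := h.exists_basis
  refine (isCompact_closedBall (0 : E) (∑ i, ‖b i‖)).of_isClosed_subset (isClosed_vor Λ)
    fun x hx => ?_
  have h1 : x ∈ Submodule.span ℝ (Set.range b) := by
    rw [← rsp_span, hb, hf]
    trivial
  obtain ⟨c, hc⟩ := (Submodule.mem_span_range_iff_exists_fun ℝ).1 h1
  have h2 : ∑ i, ⌊c i⌋ • b i ∈ Λ := by
    refine Λ.sum_mem fun i _ => Λ.smul_mem _ ?_
    have : b i ∈ Submodule.span ℤ (Set.range b) := Submodule.subset_span ⟨i, rfl⟩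
    rwa [hb] at this
  rw [mem_closedBall_zero_iff]
  refine (hx _ h2).trans ?_
  rw [← hc, ← Finset.sum_sub_distrib]
  refine (norm_sum_le _ _).trans (Finset.sum_le_sum fun i _ => ?_)
  rw [← Int.cast_smul_eq_zsmul ℝ, ← sub_smul, norm_smul, Int.self_sub_floor,
    Real.norm_of_nonneg (Int.fract_nonneg _)]
  exact mul_le_of_le_one_left (norm_nonneg _) (Int.fract_lt_one _).le

/-- Nonzero lattice vectors have norm at least some `ρ > 0`; the ball of radius `ρ / 2` lies in the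
cell. -/
theorem IsLat.vor_mem_nhds {Λ : Submodule ℤ E} (h : IsLat Λ) : vor Λ ∈ 𝓝 (0 : E) := by
  have h1 : ∀ᶠ x in 𝓝 (0 : E), ∀ v ∈ {v : E | v ∈ Λ ∧ ‖v‖ ≤ 2}, ‖x‖ ≤ ‖x - v‖ := by
    rw [eventually_all_finite (h.finite_ball 2)]
    intro v _
    by_cases h0 : v = 0
    · simp [h0]
    · have : ∀ᶠ x in 𝓝 (0 : E), ‖x‖ < ‖x - v‖ :=
        ContinuousAt.eventually_lt (by fun_prop) (by fun_prop) (by simpa using h0)
      exact this.mono fun _ => le_of_lt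
  filter_upwards [h1, Metric.closedBall_mem_nhds (0 : E) one_pos] with x hx hx1 v hv
  by_cases hle : ‖v‖ ≤ 2
  · exact hx v ⟨hv, hle⟩
  · have h2 := norm_sub_norm_le v x
    rw [norm_sub_rev] at h2
    rw [mem_closedBall_zero_iff] at hx1
    linarith [not_le.1 hle]

/-- Only the finitely many `v` with `‖v‖ ≤ 3 ‖x‖` matter. -/
theorem IsLat.exists_gap {Λ : Submodule ℤ E} (h : IsLat Λ) {x : E} (hx : x ∈ voro Λ) :
    ∃ c : ℝ, 1 < c ∧ ∀ v ∈ Λ, v ≠ 0 → c * ‖x‖ ≤ ‖x - v‖ := by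
  have h1 : ∀ᶠ c in 𝓝 (1 : ℝ), ∀ v ∈ {v : E | v ∈ Λ ∧ ‖v‖ ≤ 3 * ‖x‖}, v ≠ 0 →
      c * ‖x‖ ≤ ‖x - v‖ := by
    rw [eventually_all_finite (h.finite_ball _)]
    intro v hv
    by_cases h0 : v = 0
    · simp [h0]
    · have : ∀ᶠ c in 𝓝 (1 : ℝ), c * ‖x‖ < ‖x - v‖ :=
        ContinuousAt.eventually_lt (by fun_prop) (by fun_prop) (by simpa using hx v hv.1 h0)
      exact this.mono fun _ h _ => h.le
  have h2 : ∀ᶠ c in 𝓝 (1 : ℝ), c < 2 := eventually_lt_nhds one_lt_two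
  obtain ⟨c, ⟨hc1, hc2⟩, hc⟩ :=
    (((h1.and h2).filter_mono (nhdsWithin_le_nhds (s := Ioi 1))).and self_mem_nhdsWithin).exists
  refine ⟨c, hc, fun v hv h0 => ?_⟩
  by_cases hle : ‖v‖ ≤ 3 * ‖x‖
  · exact hc1 v ⟨hv, hle⟩ h0
  · have h3 := norm_sub_norm_le v x
    rw [norm_sub_rev] at h3
    nlinarith [not_le.1 hle, norm_nonneg x]

theorem Pack.map {Λ : Submodule ℤ E} {K : Set E} (h : Pack Λ K) {f : E →ₗ[ℝ] F}
    (hf : Function.Injective f) : Pack (img f Λ) (f '' K) := by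
  rintro _ ⟨x, hx, rfl⟩ _ ⟨y, hy, rfl⟩ hv
  obtain ⟨v, hv, hv'⟩ := mem_img.1 hv
  rw [← map_sub] at hv'
  rw [h x hx y hy (hf hv' ▸ hv)]

theorem Cover.map {Λ : Submodule ℤ E} {K : Set E} (h : Cover Λ K) {f : E →ₗ[ℝ] F}
    (hf : Function.Surjective f) : Cover (img f Λ) (f '' K) := by
  intro y
  obtain ⟨x, rfl⟩ := hf y
  obtain ⟨v, hv, hx⟩ := h x
  exact ⟨f v, mem_img.2 ⟨v, hv, rfl⟩, x - v, hx, map_sub f x v⟩

theorem IsLat.measurableSet_voro {Λ : Submodule ℤ (V (Fin r))} (h : IsLat Λ) :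
    MeasurableSet (voro Λ) := by
  have : voro Λ = ⋂ v ∈ (Λ : Set (V (Fin r))) \ {0}, {x : V (Fin r) | ‖x‖ < ‖x - v‖} := by
    ext x
    simp [voro]
  rw [this]
  exact MeasurableSet.biInter (h.countable.mono sdiff_subset) fun v _ =>
    (isOpen_lt (by fun_prop) (by fun_prop)).measurableSet

/-- `vor \ voro` lies in the countably many hyperplanes `2 ⟪v, x⟫ = ‖v‖²`, which are null
(`Measure.addHaar_affineSubspace`, or translate `Measure.addHaar_submodule`). -/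
theorem IsLat.voro_ae_eq {Λ : Submodule ℤ (V (Fin r))} (h : IsLat Λ) :
    voro Λ =ᵐ[volume] vor Λ := by
  have h1 : ∀ᵐ x : V (Fin r), ∀ v ∈ (Λ : Set (V (Fin r))), v ≠ 0 → ‖x‖ ≠ ‖x - v‖ := by
    rw [ae_ball_iff h.countable]
    intro v _
    by_cases h0 : v = 0
    · simp [h0]
    · have h2 := Measure.addHaar_affineSubspace (volume : Measure (V (Fin r)))
        (AffineSubspace.perpBisector 0 v)
        (fun h => h0 (AffineSubspace.perpBisector_eq_top.1 h).symm)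
      filter_upwards [measure_eq_zero_iff_ae_notMem.1 h2] with x hx _ h3
      refine hx (AffineSubspace.mem_perpBisector_iff_dist_eq.2 ?_)
      rwa [dist_zero_right, dist_eq_norm]
  filter_upwards [h1] with x hx
  exact propext ⟨fun h2 => voro_subset Λ h2, fun h2 v hv h0 => (h2 v hv).lt_of_ne (hx v hv h0)⟩

end Crest.Agent.R152
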