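import Crest.Agent.R152.TopY2
import Crest.Agent.R152.PrTyp

/-! # Row 152: probability of hitting the targets -/

set_option autoImplicit false
open Matrix Filter
open Crest.FinProb Crest.ProbabilityR.SignMatrix

noncomputable section
namespace Crest.Agent.R152

theorem TopP_del {p : ℝ} (h0 : 0 < p) (h1 : p < 1) {n : ℕ} (x : Fin (n + 1) → Bool)
    (i : Fin (n + 1)) {w : ℝ} (h : bernoulliWeight p x ≤ w) :
    bernoulliWeight p (fun k => x (i.succAbove k)) ≤ w / min p (1 - p) := by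
  have hm : 0 < min p (1 - p) := lt_min h0 (by linarith)
  rw [le_div_iff₀ hm]
  refine le_trans ?_ h
  rw [Lib.BiasedCube.bw_eq p x, Fin.prod_univ_succAbove _ i, mul_comm]
  refine mul_le_mul_of_nonneg_right ?_ (Lib.BiasedCube.bw_nonneg h0.le h1.le _)
  cases x i
  · simp
  · simp

theorem TopP_lat {p θ δ : ℝ} (h0 : 0 ≤ p) (h1 : p ≤ 1) {n : ℕ} {B : Matrix (Fin n) (Fin n) ℤ}
    (hS : Sparse θ δ B) (L : Submodule ℤ (Fin n → ℤ)) (hL : ∀ z, B *ᵥ z ∈ L) {w : ℝ}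
    (hw : 0 ≤ w) :
    bernoulliProb p {x : Fin n → Bool | (n : ℝ) ^ (θ * n) ≤ (L.toAddSubgroup.index : ℝ) ∧
      sz x ∈ L ∧ bernoulliWeight p x ≤ w} ≤ Real.exp (δ * n) * w := by
  classical
  by_cases hi : (n : ℝ) ^ (θ * n) ≤ (L.toAddSubgroup.index : ℝ)
  · refine (P_le_card_weight h0 h1 _ hw fun x hx => ⟨?_, hx.2.2⟩).trans
      (mul_le_mul_of_nonneg_right (hS.1 L hL hi) hw)
    simpa using hx.2.1
  · refine (P_mono h0 h1 (B := ∅) fun x hx => hi hx.1).trans ?_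
    rw [P_empty]
    positivity

theorem P_tgtX {p ε : ℝ} (h0 : 0 < p) (h1 : p < 1) {m : ℕ} (i : Fin (m + 2)) :
    bernoulliProb p {ω : Om (m + 2) | i ∉ atyp p ε ω ∧ Sparse (1 / 16) ε (del (mat ω) i) ∧
        TgtX (del (mat ω) i) (fun k => ω s(i, i.succAbove k))} ≤
      2 * Real.exp (ε * (m + 1 : ℕ)) * ((rr p * Real.exp ε) ^ (m + 2) / min p (1 - p)) := by
  classical
  set w := (rr p * Real.exp ε) ^ (m + 2) / min p (1 - p) with hw
  have hm : 0 < min p (1 - p) := lt_min h0 (by linarith)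
  have hw0 : 0 ≤ w := by
    have := rr_pos p
    positivity
  refine le_trans (P_mono h0.le h1.le ?_) (expose_del h0.le h1.le i
    (fun B x => IsSS B ∧ Sparse (1 / 16) ε B ∧ TgtX B x ∧ bernoulliWeight p x ≤ w) fun B => ?_)
  · rintro ω ⟨hi, hS, hT⟩
    refine ⟨(mat_isSS ω).del i, hS, hT, TopP_del h0 h1 (row ω i) i ?_⟩
    simpa [atyp] using hi
  by_cases hB : IsSS B ∧ Sparse (1 / 16) ε B
  swap
  · refine (P_mono h0.le h1.le (B := ∅) fun x hx => hB ⟨hx.1, hx.2.1⟩).trans ?_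
    rw [P_empty]
    positivity
  obtain ⟨hB, hS⟩ := hB
  have e1 : bernoulliProb p {x : Fin (m + 1) → Bool |
      (|(B.det : ℝ)| ≤ ((m + 1 : ℕ) : ℝ) ^ (((m + 1 : ℕ) : ℝ) / 4) ∧ ∃ u : Fin (m + 1) → ℝ,
        (B.map (Int.cast : ℤ → ℝ)) *ᵥ u = (fun i => (sz x i : ℝ)) ∧
          ∀ k, |u k| ≤ (((m + 1 : ℕ) : ℝ) + 1) ^ 4) ∧ bernoulliWeight p x ≤ w} ≤
      Real.exp (ε * (m + 1 : ℕ)) * w := by
    by_cases hd : |(B.det : ℝ)| ≤ ((m + 1 : ℕ) : ℝ) ^ (((m + 1 : ℕ) : ℝ) / 4)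
    · refine (P_le_card_weight h0.le h1.le _ hw0 fun x hx => ⟨?_, hx.2⟩).trans
        (mul_le_mul_of_nonneg_right (hS.2 hd) hw0)
      exact Finset.mem_filter.2 ⟨Finset.mem_univ _, hx.1.2⟩
    · refine (P_mono h0.le h1.le (B := ∅) fun x hx => hd hx.1.1).trans ?_
      rw [P_empty]
      positivity
  have e2 := TopP_lat h0.le h1.le hS (Lplus B) (mulVec_mem_Lplus hB.1) hw0
  refine le_trans (P_mono h0.le h1.le ?_)
    ((P_union_le h0.le h1.le _ _).trans ((add_le_add e1 e2).trans (le_of_eq (by ring))))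
  rintro x ⟨-, -, ⟨-, h | h⟩, hx⟩
  · exact Or.inl ⟨h, hx⟩
  · exact Or.inr ⟨h.1, h.2, hx⟩

theorem P_tgtY {p ε θ γ : ℝ} (h0 : 0 < p) (h1 : p < 1) {m : ℕ}
    (hQ : ∀ d : ℤ, d ≠ 0 → d.natAbs ^ 2 ≤ m ^ m → ((Qset γ m d).card : ℝ) ≤ Real.exp (ε * m))
    (i : Fin (m + 2)) (j : Fin (m + 1)) :
    bernoulliProb p {ω : Om (m + 2) | i.succAbove j ∉ atyp p ε ω ∧
        Sparse θ ε (del (del (mat ω) i) j) ∧ TgtY θ γ (del (del (mat ω) i) j)
          (fun k => ω s(i.succAbove j, i.succAbove (j.succAbove k)))} ≤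
      Real.exp (ε * m) * Real.exp (ε * m) *
        ((rr p * Real.exp ε) ^ (m + 2) / min p (1 - p) ^ 2) := by
  classical
  set w := (rr p * Real.exp ε) ^ (m + 2) / min p (1 - p) ^ 2 with hw
  have hm : 0 < min p (1 - p) := lt_min h0 (by linarith)
  have hw0 : 0 ≤ w := by
    have := rr_pos p
    positivity
  have key := expose_del h0.le h1.le j (w := Real.exp (ε * m) * Real.exp (ε * m) * w)
    (fun B x => IsSS B ∧ Sparse θ ε B ∧ TgtY θ γ B x ∧ bernoulliWeight p x ≤ w) ?_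
  · rw [← P_comp_inj (Sym2.map i.succAbove) (Sym2.map.injective Fin.succAbove_right_injective)]
      at key
    refine le_trans (P_mono h0.le h1.le ?_) key
    rintro ω ⟨hi, hS, hT⟩
    refine ⟨(mat_isSS _).del j, hS, hT, ?_⟩
    have h2 := TopP_del h0 h1 _ j (TopP_del h0 h1 (row ω (i.succAbove j)) i
      (w := (rr p * Real.exp ε) ^ (m + 2)) (by simpa [atyp] using hi))
    rw [div_div, ← sq] at h2
    exact h2
  intro B
  by_cases hB : IsSS B ∧ Sparse θ ε B ∧ B.det ≠ 0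
  swap
  · refine (P_mono h0.le h1.le (B := ∅) fun x hx => hB ⟨hx.1, hx.2.1, hx.2.2.1.1⟩).trans ?_
    rw [P_empty]
    positivity
  obtain ⟨hB, hS, hd⟩ := hB
  refine (P_le_card_mul h0.le h1.le (Qset γ m B.det) _ ?_ fun q _ =>
    TopP_lat h0.le h1.le hS (Lq B q) (mulVec_mem_Lq B q) hw0).trans ?_
  · rintro x ⟨-, -, ⟨-, q, hq, h2, h3⟩, hx⟩
    exact ⟨q, hq, h2, h3, hx⟩
  · rw [mul_assoc]
    exact mul_le_mul_of_nonneg_right (hQ _ hd (det_sign_le hB.2)) (by positivity)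

end Crest.Agent.R152
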