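import Crest.Agent.R152.TopDet
import Crest.Agent.R152.TopP
import Crest.Agent.R152.Core
import Crest.Agent.R152.PrWS
import Crest.Agent.R152.PrZS

/-! # Row 152: corank one is unlikely -/

set_option autoImplicit false
open Matrix Filter
open Crest.FinProb Crest.ProbabilityR.SignMatrix

noncomputable section
namespace Crest.Agent.R152

private theorem top_fam {p : ℝ} (h0 : 0 ≤ p) (h1 : p ≤ 1) {n : ℕ} {α : Type} [Fintype α]
    (A : α → Om n → Prop) {c : ℝ} (hc : ∀ a, bernoulliProb p {ω | A a ω} ≤ c) :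
    bernoulliProb p {ω | ∃ a, A a ω} ≤ Fintype.card α * c :=
  P_le_card_mul h0 h1 Finset.univ (fun a => {ω | A a ω})
    (fun _ h => h.elim fun a ha => ⟨a, Finset.mem_univ _, ha⟩) fun a _ => hc a

private theorem top_del {p : ℝ} {m : ℕ} (i : Fin (m + 1))
    (Q : Matrix (Fin m) (Fin m) ℤ → Prop) :
    bernoulliProb p {ω : Om (m + 1) | Q (del (mat ω) i)} =
      bernoulliProb p {ω : Om m | Q (mat ω)} :=
  P_sub _ Fin.succAbove_right_injective Q

private theorem top_del2 {p : ℝ} {m : ℕ} (i : Fin (m + 2)) (j : Fin (m + 1))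
    (Q : Matrix (Fin m) (Fin m) ℤ → Prop) :
    bernoulliProb p {ω : Om (m + 2) | Q (del (del (mat ω) i) j)} =
      bernoulliProb p {ω : Om m | Q (mat ω)} :=
  (top_del i fun B => Q (del B j)).trans (top_del j Q)

private theorem top_abs {c C : ℝ} (hc : 0 < c) :
    ∀ᶠ n : ℕ in atTop, C * (n : ℝ) ^ 2 ≤ Real.exp (c * n) := by
  obtain ⟨N, hN⟩ := exists_nat_ge (6 * C / c ^ 3)
  filter_upwards [eventually_ge_atTop N] with n hn
  have h1 : 6 * C / c ^ 3 ≤ n := hN.trans (by exact_mod_cast hn)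
  rw [div_le_iff₀ (by positivity)] at h1
  have h2 := Real.pow_div_factorial_le_exp (c * n) (by positivity) 3
  refine le_trans ?_ h2
  rw [le_div_iff₀ (by positivity)]
  have h3 : ((Nat.factorial 3 : ℕ) : ℝ) = 6 := by norm_num [Nat.factorial]
  rw [h3]
  calc C * (n : ℝ) ^ 2 * 6 = 6 * C * (n : ℝ) ^ 2 := by ring
    _ ≤ n * c ^ 3 * (n : ℝ) ^ 2 := mul_le_mul_of_nonneg_right h1 (by positivity)
    _ = _ := by ring

private theorem top_step {a : ℝ} (ha : 1 / 2 ≤ a) (m : ℕ) : a ^ m ≤ 2 * a ^ (m + 1) := by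
  have h : 0 ≤ a ^ m := pow_nonneg (by linarith) m
  rw [pow_succ a m]
  nlinarith

private theorem top_num {n n' N M M' X E E' A0 A1 A2 : ℝ} (n1 : n ≤ N) (n2 : n' ≤ N) (n3 : 1 ≤ N)
    (m1 : M' ≤ M) (m2 : 1 ≤ M) (m0 : 0 ≤ M') (x1 : E ≤ X) (x2 : E' ≤ X) (x3 : 1 ≤ X)
    (x4 : 0 ≤ E) (x5 : 0 ≤ E') (p1 : A1 ≤ 2 * A2) (p2 : A0 ≤ 2 * A1) (p3 : 0 ≤ A0) (p4 : 0 ≤ A1)
    (p0 : 0 ≤ A2) :
    A2 + n * A1 + (A2 + A2) + (n * A1 + n' * A0 + (n * (2 * E * (A2 * M')) + n' * (E' * (A2 * M))))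
      ≤ 14 * M * N * X * A2 := by
  have hN : 0 ≤ N := by linarith
  have hX : 0 ≤ X := by linarith
  have hM : 0 ≤ M := by linarith
  have hMX : 1 ≤ M * X := one_le_mul_of_one_le_of_one_le m2 x3
  have q0 : N * A2 ≤ M * X * (N * A2) := le_mul_of_one_le_left (mul_nonneg hN p0) hMX
  have q1 : A2 ≤ N * A2 := le_mul_of_one_le_left p0 n3
  have q2 : n * A1 ≤ N * (2 * A2) := mul_le_mul n1 p1 p4 hN
  have q3 : n' * A0 ≤ N * (4 * A2) := mul_le_mul n2 (by linarith) p3 hN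
  have q4 : n * (2 * E * (A2 * M')) ≤ N * (2 * X * (A2 * M)) := by gcongr
  have q5 : n' * (E' * (A2 * M)) ≤ N * (X * (A2 * M)) := by gcongr
  linarith

private theorem top_main {p e : ℝ} (h0 : 0 < p) (h1 : p < 1) (he : 0 < e) :
    ∀ᶠ m : ℕ in atTop, bernoulliProb p {ω : Om (m + 2) | Cor1 (mat ω)} ≤
      14 / min p (1 - p) ^ 2 * ((m + 2 : ℕ) : ℝ) ^ 2 * Real.exp (2 * e * (m + 2 : ℕ)) *
        (rr p * Real.exp e) ^ (m + 2) := by
  obtain ⟨δ, hδ, a1⟩ := sm_SP h0 h1 he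
  obtain ⟨κ, hκ, hκ1, a2⟩ := sm_WS h0 h1 he
  obtain ⟨γ, hγ, hγ1, a3⟩ := card_Qset he
  obtain ⟨K, a4⟩ := sm_atyp h0 h1 he
  obtain ⟨β, hβ, a5⟩ := top_det hδ hκ hκ1 hγ hγ1 K
  have a6 := sm_ZS h0 h1 he hβ
  have a7 := (core_sparse (θ := 1 / 16) h0 h1 (by norm_num) he).sm he.le
  have a8 := (core_sparse (θ := κ * γ / 200) h0 h1 (by positivity) he).sm he.le
  filter_upwards [(tendsto_add_atTop_nat 2).eventually a1, (tendsto_add_atTop_nat 1).eventually a2,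
    a3, (tendsto_add_atTop_nat 2).eventually a4, a5, (tendsto_add_atTop_nat 2).eventually a6,
    (tendsto_add_atTop_nat 1).eventually a7, a8] with m b1 b2 b3 b4 b5 b6 b7 b8
  have c2 := top_fam h0.le h1.le (fun (i : Fin (m + 2)) (ω : Om (m + 2)) =>
    ¬ WS κ (del (mat ω) i)) fun i => (top_del i fun B => ¬ WS κ B).trans_le b2
  have c7 := top_fam h0.le h1.le (fun (i : Fin (m + 2)) (ω : Om (m + 2)) =>
    (del (mat ω) i).det ≠ 0 ∧ ¬ Sparse (1 / 16) e (del (mat ω) i)) fun i =>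
      (top_del i fun B => B.det ≠ 0 ∧ ¬ Sparse (1 / 16) e B).trans_le b7
  have c8 := top_fam h0.le h1.le (fun (x : Fin (m + 2) × Fin (m + 1)) (ω : Om (m + 2)) =>
    (del (del (mat ω) x.1) x.2).det ≠ 0 ∧ ¬ Sparse (κ * γ / 200) e (del (del (mat ω) x.1) x.2))
      fun x => (top_del2 x.1 x.2 fun B => B.det ≠ 0 ∧ ¬ Sparse (κ * γ / 200) e B).trans_le b8
  have c9 := top_fam h0.le h1.le _ fun i : Fin (m + 2) => P_tgtX (ε := e) h0 h1 i
  have c10 := top_fam h0.le h1.le _ fun x : Fin (m + 2) × Fin (m + 1) =>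
    P_tgtY (θ := κ * γ / 200) h0 h1 b3 x.1 x.2
  have U := fun A B : Set (Om (m + 2)) => P_union_le h0.le h1.le A B
  have key := (U _ _).trans (add_le_add ((U _ _).trans (add_le_add ((U _ _).trans
    (add_le_add b1 c2)) ((U _ _).trans (add_le_add b4 b6)))) ((U _ _).trans (add_le_add
      ((U _ _).trans (add_le_add c7 c8)) ((U _ _).trans (add_le_add c9 c10)))))
  refine le_trans (P_mono h0.le h1.le fun ω hω => ?_) (key.trans ?_)
  · by_contra hn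
    simp only [Set.mem_union, Set.mem_ofPred_eq, not_or, not_exists, not_not, not_and,
      not_lt] at hn
    obtain ⟨⟨⟨d1, d2⟩, d4, d6⟩, ⟨d7, d8⟩, d9, d10⟩ := hn
    rcases b5 ω _ d4 hω d1 d6 d2 with ⟨i, e1, e2⟩ | ⟨i, j, e1, e2⟩
    · exact d9 i e1 (d7 i e2.1) e2
    · exact d10 (i, j) e1 (d8 (i, j) e2.1) e2
  · simp only [Fintype.card_prod, Fintype.card_fin]
    have ha : 1 / 2 ≤ rr p * Real.exp e :=
      (half_le_rr p).trans (le_mul_of_one_le_right (rr_pos p).le (Real.one_le_exp he.le))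
    have hμ : 0 < min p (1 - p) := lt_min h0 (by linarith)
    have hμ1 : min p (1 - p) ≤ 1 := (min_le_left _ _).trans h1.le
    have x1 : Real.exp (e * (m + 1 : ℕ)) ≤ Real.exp (2 * e * (m + 2 : ℕ)) := by
      refine Real.exp_le_exp.mpr ?_
      push_cast
      nlinarith [Nat.cast_nonneg (α := ℝ) m]
    have x2 : Real.exp (e * m) * Real.exp (e * m) ≤ Real.exp (2 * e * (m + 2 : ℕ)) := by
      rw [← Real.exp_add]
      refine Real.exp_le_exp.mpr ?_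
      push_cast
      nlinarith
    have x3 : 1 ≤ Real.exp (2 * e * (m + 2 : ℕ)) := Real.one_le_exp (by positivity)
    have n1 : ((m + 2 : ℕ) : ℝ) ≤ ((m + 2 : ℕ) : ℝ) ^ 2 := by exact_mod_cast Nat.le_self_pow two_ne_zero _
    have n2 : (((m + 2) * (m + 1) : ℕ) : ℝ) ≤ ((m + 2 : ℕ) : ℝ) ^ 2 := by
      rw [sq]
      exact_mod_cast Nat.mul_le_mul_left _ (Nat.le_succ _)
    have n3 : (1 : ℝ) ≤ ((m + 2 : ℕ) : ℝ) ^ 2 := one_le_pow₀ (by exact_mod_cast Nat.succ_pos _)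
    have m1 : (min p (1 - p))⁻¹ ≤ (min p (1 - p) ^ 2)⁻¹ :=
      inv_anti₀ (by positivity) (by nlinarith)
    have m2 : 1 ≤ (min p (1 - p) ^ 2)⁻¹ := (one_le_inv₀ (by positivity)).mpr (by nlinarith)
    have ha0 : 0 ≤ rr p * Real.exp e := by linarith
    simp only [div_eq_mul_inv]
    exact top_num n1 n2 n3 m1 m2 (inv_pos.mpr hμ).le x1 x2 x3 (Real.exp_pos _).le
      (mul_pos (Real.exp_pos _) (Real.exp_pos _)).le (top_step ha (m + 1)) (top_step ha m)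
      (pow_nonneg ha0 _) (pow_nonneg ha0 _) (pow_nonneg ha0 _)

theorem P_cor1 {p ε : ℝ} (h0 : 0 < p) (h1 : p < 1) (hε : 0 < ε) :
    ∀ᶠ m : ℕ in atTop, bernoulliProb p {ω : Om (m + 1) | Cor1 (mat ω)} ≤
      (rr p * Real.exp ε) ^ (m + 1) := by
  have h := (top_main h0 h1 (e := ε / 10) (by positivity)).and
    ((tendsto_add_atTop_nat 2).eventually
      (top_abs (C := 14 / min p (1 - p) ^ 2) (c := 7 * (ε / 10)) (by positivity)))
  obtain ⟨N, hN⟩ := eventually_atTop.mp h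
  refine eventually_atTop.mpr ⟨N + 1, fun m hm => ?_⟩
  obtain ⟨m, rfl⟩ : ∃ k, m = k + 1 := ⟨m - 1, by omega⟩
  obtain ⟨a1, a2⟩ := hN m (by omega)
  refine a1.trans ?_
  have h5 : 0 < (rr p * Real.exp (ε / 10)) ^ (m + 2) :=
    pow_pos (mul_pos (rr_pos p) (Real.exp_pos _)) _
  calc _ ≤ Real.exp (7 * (ε / 10) * (m + 2 : ℕ)) * Real.exp (2 * (ε / 10) * (m + 2 : ℕ)) *
        (rr p * Real.exp (ε / 10)) ^ (m + 2) := by gcongr
    _ = _ := by
      rw [mul_pow, mul_pow, ← Real.exp_nat_mul, ← Real.exp_nat_mul, ← Real.exp_add, mul_left_comm,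
        ← Real.exp_add]
      congr 2
      push_cast
      ring

end Crest.Agent.R152
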