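import Crest.Agent.R152.TopDefs
import Crest.Agent.R152.Gvol

/-! # Row 152: the canonical overlattice -/

set_option autoImplicit false
open Matrix Filter
open Crest.FinProb Crest.ProbabilityR.SignMatrix

noncomputable section
namespace Crest.Agent.R152

theorem det_border {n : ℕ} {M : Matrix (Fin (n + 1)) (Fin (n + 1)) ℤ} (hM : M.IsSymm)
    (i : Fin (n + 1)) (hi : (del M i).det ≠ 0) :
    M.det = M i i * (del M i).det - drow M i ⬝ᵥ ((del M i).adjugate *ᵥ drow M i) := by
  classical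
  set B := del M i with hB
  set x := drow M i with hx
  set w : Fin (n + 1) → ℤ :=
    i.insertNth (α := fun _ => ℤ) B.det (fun k => -(B.adjugate *ᵥ x) k) with hw
  set D := M i i * B.det - x ⬝ᵥ (B.adjugate *ᵥ x) with hD
  have hMw : M *ᵥ w = Pi.single i D := by
    ext r
    simp only [Matrix.mulVec, dotProduct]
    rw [Fin.sum_univ_succAbove _ i]
    simp only [hw, Fin.insertNth_apply_same, Fin.insertNth_apply_succAbove]
    rcases Fin.eq_self_or_eq_succAbove i r with rfl | ⟨k, rfl⟩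
    · simp only [Pi.single_eq_same, hD, dotProduct, hx, drow, mul_neg, Finset.sum_neg_distrib]
      ring
    · have h1 : (B *ᵥ (B.adjugate *ᵥ x)) k = B.det * x k := by
        rw [Matrix.mulVec_mulVec, Matrix.mul_adjugate, Matrix.smul_mulVec, Matrix.one_mulVec]; rfl
      have h2 : M (i.succAbove k) i = x k := hM.apply i (i.succAbove k)
      rw [Pi.single_eq_of_ne (Fin.succAbove_ne i k), h2]
      simp only [mul_neg, Finset.sum_neg_distrib]
      have h3 : ∑ l, M (i.succAbove k) (i.succAbove l) * (B.adjugate *ᵥ x) l = B.det * x k := h1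
      rw [h3]; ring
  have h1 : M.adjugate *ᵥ (M *ᵥ w) = M.det • w := by
    rw [Matrix.mulVec_mulVec, Matrix.adjugate_mul, Matrix.smul_mulVec, Matrix.one_mulVec]
  have h2 := congrFun h1 i
  rw [hMw, Matrix.mulVec_single] at h2
  simp only [Pi.smul_apply, smul_eq_mul, hw, Fin.insertNth_apply_same, Matrix.col_apply,
    MulOpposite.smul_eq_mul_unop, MulOpposite.unop_op] at h2
  have h3 : M.adjugate i i = B.det := by
    rw [Matrix.adjugate_fin_succ_eq_det_submatrix, ← two_mul, pow_mul]; simp [hB]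
  rw [h3] at h2
  exact (mul_right_cancel₀ hi (by rw [← h2]; ring)).symm

theorem mulVec_mem_Lplus {n : ℕ} {B : Matrix (Fin n) (Fin n) ℤ} (hB : B.IsSymm)
    (z : Fin n → ℤ) : B *ᵥ z ∈ Lplus B := by
  intro y
  have : (B *ᵥ z) ⬝ᵥ (B.adjugate *ᵥ y) = B.det * (z ⬝ᵥ y) := by
    rw [dotProduct_comm, Matrix.dotProduct_mulVec, ← Matrix.mulVec_transpose, hB.eq,
      Matrix.mulVec_mulVec, Matrix.mul_adjugate, Matrix.smul_mulVec, Matrix.one_mulVec,
      smul_dotProduct, dotProduct_comm]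
    rfl
  rw [this, mul_pow]
  exact Dvd.dvd.mul_right (dvd_pow_self _ two_ne_zero) _

/-- Jacobi's identity for `2 × 2` minors of the adjugate. -/
theorem mem_Lplus {n : ℕ} {B : Matrix (Fin n) (Fin n) ℤ} (hB : B.IsSymm) (hd : B.det ≠ 0)
    {x : Fin n → ℤ} (hx : B.det ∣ x ⬝ᵥ (B.adjugate *ᵥ x)) : x ∈ Lplus B := by
  classical
  intro z
  set C : Matrix (Fin n) (Fin 2) ℤ := Matrix.of fun k a => ![x, z] a k with hC
  set G : Matrix (Fin 2) (Fin 2) ℤ := Cᵀ * B.adjugate * C with hG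
  have key : (Matrix.fromBlocks B C Cᵀ 0).det * (B.det * B.det) = B.det * G.det := by
    have e : Matrix.fromBlocks B C Cᵀ 0 *
        Matrix.fromBlocks 1 (-(B.adjugate * C)) 0 (B.det • (1 : Matrix (Fin 2) (Fin 2) ℤ)) =
        Matrix.fromBlocks B 0 Cᵀ (-G) := by
      rw [Matrix.fromBlocks_multiply]
      congr 1
      · simp
      · rw [Matrix.mul_neg, ← Matrix.mul_assoc, Matrix.mul_adjugate, Matrix.smul_mul,
          Matrix.mul_smul, Matrix.one_mul, Matrix.mul_one, neg_add_cancel]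
      · simp
      · rw [hG, Matrix.mul_neg, Matrix.mul_assoc]; simp
    have e2 := congrArg Matrix.det e
    rw [Matrix.det_mul, Matrix.det_fromBlocks_zero₂₁, Matrix.det_fromBlocks_zero₁₂, Matrix.det_neg,
      Matrix.det_smul] at e2
    simpa [sq] using e2
  have h1 : B.det ∣ G.det := by
    refine ⟨(Matrix.fromBlocks B C Cᵀ 0).det, mul_left_cancel₀ hd ?_⟩
    rw [← key]; ring
  have g : ∀ a b, G a b = (![x, z] a) ⬝ᵥ (B.adjugate *ᵥ (![x, z] b)) := by
    intro a b
    rw [hG, Matrix.mul_assoc]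
    rfl
  have hs : z ⬝ᵥ (B.adjugate *ᵥ x) = x ⬝ᵥ (B.adjugate *ᵥ z) := by
    rw [Matrix.dotProduct_mulVec, ← Matrix.mulVec_transpose, hB.adjugate.eq, dotProduct_comm]
  rw [Matrix.det_fin_two, g, g, g, g] at h1
  simp only [Matrix.cons_val_zero, Matrix.cons_val_one] at h1
  rw [hs] at h1
  have h2 := dvd_sub (Dvd.dvd.mul_right hx (z ⬝ᵥ (B.adjugate *ᵥ z))) h1
  rw [sub_sub_cancel, ← sq] at h2
  exact h2

theorem cont_dvd {n : ℕ} (B : Matrix (Fin n) (Fin n) ℤ) (i j : Fin n) :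
    (cont B : ℤ) ∣ B.adjugate i j := by
  unfold cont
  rw [Int.natAbs_dvd]
  exact Finset.gcd_dvd (f := fun ij : Fin n × Fin n => B.adjugate ij.1 ij.2) (Finset.mem_univ (i, j))

theorem cont_dvd_det {n : ℕ} (hn : 1 ≤ n) (B : Matrix (Fin n) (Fin n) ℤ) :
    cont B ∣ B.det.natAbs := by
  have h := Matrix.det_eq_sum_mul_adjugate_row B ⟨0, hn⟩
  have : (cont B : ℤ) ∣ B.det := by
    rw [h]
    exact Finset.dvd_sum fun j _ => dvd_mul_of_dvd_right (cont_dvd B _ _) _
  exact Int.natCast_dvd.1 this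

theorem Lplus_index {n : ℕ} {B : Matrix (Fin n) (Fin n) ℤ} (hn : 1 ≤ n) (hd : B.det ≠ 0) :
    B.det.natAbs ≤ ((Lplus B).toAddSubgroup.index * cont B) ^ 2 := by
  classical
  set h := (Lplus B).toAddSubgroup.index with hh
  have hne : h ≠ 0 := by
    have hle : (LinearMap.range ((B.det : ℤ) • (LinearMap.id : (Fin n → ℤ) →ₗ[ℤ] (Fin n → ℤ)))).toAddSubgroup
        ≤ (Lplus B).toAddSubgroup := by
      rintro _ ⟨y, rfl⟩ z
      simp only [LinearMap.smul_apply, LinearMap.id_apply, smul_dotProduct, smul_eq_mul, mul_pow]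
      exact Dvd.dvd.mul_right (dvd_pow_self _ two_ne_zero) _
    refine ne_zero_of_dvd_ne_zero ?_ (AddSubgroup.index_dvd_of_le hle)
    have e : (LinearMap.range ((B.det : ℤ) • (LinearMap.id : (Fin n → ℤ) →ₗ[ℤ] (Fin n → ℤ)))).toAddSubgroup
        = AddSubgroup.pi Set.univ (fun _ : Fin n => AddSubgroup.zmultiples B.det) := by
      ext y
      simp only [Submodule.mem_toAddSubgroup, LinearMap.mem_range, LinearMap.smul_apply,
        LinearMap.id_apply, AddSubgroup.mem_pi, Set.mem_univ, forall_true_left,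
        Int.mem_zmultiples_iff]
      constructor
      · rintro ⟨u, rfl⟩ k; exact ⟨u k, rfl⟩
      · intro hy
        choose u hu using hy
        exact ⟨u, funext fun k => (hu k).symm⟩
    rw [e, AddSubgroup.index_pi]
    simp [hd]
  let J : Ideal ℤ :=
    { carrier := {k | B.det ∣ k ^ 2}
      add_mem' := by
        intro a b ha hb
        have h3 : B.det ∣ a * b := by
          rw [← Int.pow_dvd_pow_iff (two_ne_zero), mul_pow, sq B.det]
          exact mul_dvd_mul ha hb
        show B.det ∣ (a + b) ^ 2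
        rw [add_sq, mul_assoc]
        exact dvd_add (dvd_add ha (dvd_mul_of_dvd_right h3 2)) hb
      zero_mem' := by simp
      smul_mem' := by
        intro c a ha
        show B.det ∣ (c * a) ^ 2
        rw [mul_pow]; exact dvd_mul_of_dvd_right ha _ }
  have hJ : ∀ i j, (h : ℤ) * B.adjugate i j ∈ J := by
    intro i j
    have m : h • (Pi.single i 1 : Fin n → ℤ) ∈ (Lplus B).toAddSubgroup :=
      AddSubgroup.nsmul_index_mem _ _
    have := m (Pi.single j 1)
    rw [smul_dotProduct, single_dotProduct, Matrix.mulVec_single_one, one_mul, nsmul_eq_mul] at this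
    exact this
  obtain ⟨f, hf⟩ := (IsPrincipalIdealRing.principal J).principal
  have hf1 : f ∣ (h : ℤ) * (Finset.univ.gcd fun ij : Fin n × Fin n => B.adjugate ij.1 ij.2) := by
    refine Dvd.dvd.trans ?_ (Finset.gcd_mul_left' _ _ (h : ℤ)).dvd
    refine Finset.dvd_gcd fun ij _ => ?_
    have := hJ ij.1 ij.2
    rw [hf] at this
    exact Ideal.mem_span_singleton.1 this
  have hf2 : (h : ℤ) * (Finset.univ.gcd fun ij : Fin n × Fin n => B.adjugate ij.1 ij.2) ∈ J := by
    rw [hf]; exact Ideal.mem_span_singleton.2 hf1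
  have hf3 : B.det.natAbs ∣ (h * cont B) ^ 2 := by
    have := Int.natAbs_dvd_natAbs.2 (show B.det ∣ _ ^ 2 from hf2)
    simpa [Int.natAbs_pow, Int.natAbs_mul, cont] using this
  refine Nat.le_of_dvd (pow_pos (Nat.mul_pos (Nat.pos_of_ne_zero hne) ?_) 2) hf3
  refine Nat.pos_of_ne_zero fun h0 => hd ?_
  have := cont_dvd_det hn B
  rw [h0, zero_dvd_iff, Int.natAbs_eq_zero] at this
  exact this

/-- Hadamard's bound for sign matrices. -/
theorem det_sign_le {n : ℕ} {B : Matrix (Fin n) (Fin n) ℤ} (hB : ∀ i j, B i j = 1 ∨ B i j = -1) :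
    B.det.natAbs ^ 2 ≤ n ^ n := by
  classical
  set v : Fin n → V (Fin n) := fun j => zv (fun i => B i j) with hv
  have h1 : Matrix.gram ℝ v = (B.map (Int.cast : ℤ → ℝ))ᵀ * B.map (Int.cast : ℤ → ℝ) := by
    ext a b
    simp [Matrix.gram_apply, hv, zv, PiLp.inner_apply, Matrix.mul_apply, mul_comm]
  have h2 : gvol v ^ 2 = (B.det : ℝ) ^ 2 := by
    have := (Int.castRingHom ℝ).map_det B
    simp only [eq_intCast] at this
    rw [gvol_sq, h1, Matrix.det_mul, Matrix.det_transpose, this, sq]; rfl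
  have h3 : ∀ j, ‖v j‖ ^ 2 = n := by
    intro j
    rw [EuclideanSpace.real_norm_sq_eq]
    have : ∀ i, (v j i) ^ 2 = 1 := by
      intro i
      rcases hB i j with h | h <;> simp [hv, zv, h]
    simp [this]
  have h4 : gvol v ^ 2 ≤ (n : ℝ) ^ n := by
    calc gvol v ^ 2 ≤ (∏ i, ‖v i‖) ^ 2 := pow_le_pow_left₀ (gvol_nonneg v) (gvol_le_prod v) 2
      _ = (n : ℝ) ^ n := by rw [← Finset.prod_pow]; simp [h3]
  rw [h2] at h4
  have h5 : ((B.det.natAbs ^ 2 : ℕ) : ℝ) ≤ ((n ^ n : ℕ) : ℝ) := by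
    push_cast
    rw [Nat.cast_natAbs, Int.cast_abs, sq_abs]; exact h4
  exact_mod_cast h5

theorem IsSS.del {n : ℕ} {M : Matrix (Fin (n + 1)) (Fin (n + 1)) ℤ} (hM : IsSS M)
    (i : Fin (n + 1)) : IsSS (del M i) := by
  exact ⟨hM.1.submatrix _, fun a b => hM.2 _ _⟩

end Crest.Agent.R152
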