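import Crest.Agent.R152.TopA

/-! # Row 152: candidates from the kernel vector -/

set_option autoImplicit false
open Matrix Filter
open Crest.FinProb Crest.ProbabilityR.SignMatrix

noncomputable section
namespace Crest.Agent.R152

private theorem mulVec_insertR {m : ℕ} (Q : Matrix (Fin (m + 1)) (Fin (m + 1)) ℝ) (i : Fin (m + 1))
    (w : Fin (m + 1) → ℝ) (k : Fin m) :
    (Q *ᵥ w) (i.succAbove k) = Q (i.succAbove k) i * w i +
      ((Q.submatrix i.succAbove i.succAbove) *ᵥ fun l => w (i.succAbove l)) k := by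
  simp only [Matrix.mulVec, dotProduct]
  rw [Fin.sum_univ_succAbove _ i]
  simp

private theorem det_castR {m : ℕ} (B : Matrix (Fin m) (Fin m) ℤ) :
    (B.map (Int.cast : ℤ → ℝ)).det = (B.det : ℝ) := by
  have := (Int.castRingHom ℝ).map_det B
  simp only [eq_intCast] at this
  rw [this]; rfl

private theorem ker_zero {m : ℕ} {Q : Matrix (Fin (m + 1)) (Fin (m + 1)) ℝ} {i : Fin (m + 1)}
    (hi : (Q.submatrix i.succAbove i.succAbove).det ≠ 0) {w : Fin (m + 1) → ℝ}
    (hw : Q *ᵥ w = 0) (h0 : w i = 0) : w = 0 := by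
  have h1 : (Q.submatrix i.succAbove i.succAbove) *ᵥ (fun l => w (i.succAbove l)) = 0 := by
    ext k
    have := mulVec_insertR Q i w k
    rw [hw, h0] at this
    simpa using this.symm
  have h2 := Matrix.eq_zero_of_mulVec_eq_zero hi h1
  ext j
  rcases Fin.eq_self_or_eq_succAbove i j with rfl | ⟨k, rfl⟩
  · exact h0
  · exact congrFun h2 k

/-- The indices where the kernel vector is polynomially close to its maximum. -/
theorem exists_big {n : ℕ} {M : Matrix (Fin (n + 1)) (Fin (n + 1)) ℤ} (hM : IsSS M) (hc : Cor1 M)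
    {δ : ℝ} (hSP : SP δ M) : ∃ Big : Finset (Fin (n + 1)), δ * (n + 1 : ℕ) < Big.card ∧
      ∀ i ∈ Big, (del M i).det ≠ 0 ∧ ∃ u : Fin n → ℝ,
        ((del M i).map (Int.cast : ℤ → ℝ)) *ᵥ u = (fun k => (drow M i k : ℝ)) ∧
          ∀ k, |u k| ≤ ((n : ℝ) + 1) ^ 4 := by
  classical
  set Q := M.map (Int.cast : ℤ → ℝ) with hQdef
  have hQ : Q.IsSymm := hM.1.map _
  obtain ⟨hd, i0, hi0⟩ := hc
  have hsub : ∀ i, Q.submatrix i.succAbove i.succAbove = (del M i).map (Int.cast : ℤ → ℝ) :=
    fun i => rfl
  have hi0' : (Q.submatrix i0.succAbove i0.succAbove).det ≠ 0 := by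
    rw [hsub, det_castR]; exact_mod_cast hi0
  obtain ⟨v, hv, hQv⟩ := Matrix.exists_mulVec_eq_zero_iff.2
    (show Q.det = 0 by rw [hQdef, det_castR, hd]; simp)
  have hv0 : v i0 ≠ 0 := fun h => hv (ker_zero hi0' hQv h)
  obtain ⟨t, -, ht⟩ := Finset.exists_max_image Finset.univ (fun i => |v i|) Finset.univ_nonempty
  set H := |v t| with hH
  have hH0 : 0 < H := lt_of_lt_of_le (abs_pos.2 hv0) (ht i0 (Finset.mem_univ _))
  set N : ℝ := (n : ℝ) + 1 with hN
  have hN1 : 1 ≤ N := by rw [hN]; linarith [Nat.cast_nonneg (α := ℝ) n]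
  have hN4 : 0 < N ^ 4 := by positivity
  refine ⟨Finset.univ.filter fun i => H / N ^ 4 ≤ |v i|, ?_, ?_⟩
  · by_contra hcon
    push Not at hcon
    set Big := Finset.univ.filter fun i => H / N ^ 4 ≤ |v i| with hBig
    have htB : t ∈ Big := by
      simp only [hBig, Finset.mem_filter, Finset.mem_univ, true_and]
      exact div_le_self hH0.le (one_le_pow₀ hN1)
    obtain ⟨j, -, -, -, hj⟩ := hSP Big (fun k => if k ∈ Big then v k / H else 0) t t hcon
      (fun k hk => by simp [hk]) ⟨t, by simp [htB, abs_div, ← hH, abs_of_pos hH0, hH0.ne']⟩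
    have e : ((M.map (Int.cast : ℤ → ℝ)) *ᵥ fun k => if k ∈ Big then v k / H else 0) j =
        -∑ k, Q j k * (if k ∈ Big then 0 else v k / H) := by
      have h0 : ∑ k, Q j k * v k = 0 := congrFun hQv j
      have h1 : ∑ k, Q j k * (if k ∈ Big then v k / H else 0) +
          ∑ k, Q j k * (if k ∈ Big then 0 else v k / H) = (∑ k, Q j k * v k) / H := by
        rw [← Finset.sum_add_distrib, Finset.sum_div]
        refine Finset.sum_congr rfl fun k _ => ?_
        split_ifs <;> ring
      rw [h0, zero_div] at h1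
      exact eq_neg_of_add_eq_zero_left h1
    rw [e, abs_neg] at hj
    have h2 : |∑ k, Q j k * (if k ∈ Big then 0 else v k / H)| ≤ ∑ _k : Fin (n + 1), 1 / N ^ 4 := by
      refine (Finset.abs_sum_le_sum_abs _ _).trans (Finset.sum_le_sum fun k _ => ?_)
      have hq : |Q j k| = 1 := by
        rcases hM.2 j k with h | h <;> simp [hQdef, h]
      rw [abs_mul, hq, one_mul]
      split_ifs with hk
      · simp only [abs_zero]; positivity
      · simp only [hBig, Finset.mem_filter, Finset.mem_univ, true_and, not_le] at hk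
        rw [abs_div, abs_of_pos hH0, div_le_div_iff₀ hH0 hN4, one_mul]
        rw [lt_div_iff₀ hN4] at hk
        exact hk.le
    simp only [Finset.sum_const, Finset.card_univ, Fintype.card_fin, nsmul_eq_mul] at h2
    push_cast at hj h2
    rw [← hN] at hj h2
    have : N * (1 / N ^ 4) = 1 / N ^ 3 := by field_simp
    linarith
  · intro i hi
    simp only [Finset.mem_filter, Finset.mem_univ, true_and] at hi
    have hvi : 0 < |v i| := lt_of_lt_of_le (by positivity) hi
    have hvi' : v i ≠ 0 := abs_pos.1 hvi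
    refine ⟨?_, fun k => -v (i.succAbove k) / v i, ?_, fun k => ?_⟩
    · intro h0
      obtain ⟨w, hw, hBw⟩ := Matrix.exists_mulVec_eq_zero_iff.2
        (show (Q.submatrix i.succAbove i.succAbove).det = 0 by rw [hsub, det_castR, h0]; simp)
      set w' : Fin (n + 1) → ℝ := i.insertNth (α := fun _ => ℝ) 0 w with hw'
      have a1 : ∀ k, (Q *ᵥ w') (i.succAbove k) = 0 := by
        intro k
        rw [mulVec_insertR]
        simp only [hw', Fin.insertNth_apply_same, Fin.insertNth_apply_succAbove, mul_zero, zero_add]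
        exact congrFun hBw k
      have a2 : v ⬝ᵥ (Q *ᵥ w') = 0 := by
        rw [Matrix.dotProduct_mulVec, ← Matrix.mulVec_transpose, hQ.eq, hQv, zero_dotProduct]
      have a3 : (Q *ᵥ w') i = 0 := by
        unfold dotProduct at a2
        rw [Fin.sum_univ_succAbove _ i] at a2
        simp only [a1, mul_zero, Finset.sum_const_zero, add_zero] at a2
        exact (mul_eq_zero.1 a2).resolve_left hvi'
      have a4 : Q *ᵥ w' = 0 := by
        ext j
        rcases Fin.eq_self_or_eq_succAbove i j with rfl | ⟨k, rfl⟩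
        · exact a3
        · exact a1 k
      have a5 : w' - (w' i0 / v i0) • v = 0 := by
        refine ker_zero hi0' ?_ ?_
        · rw [Matrix.mulVec_sub, Matrix.mulVec_smul, a4, hQv]; simp
        · simp [hv0]
      have a6 := congrFun a5 i
      simp only [hw', Pi.sub_apply, Fin.insertNth_apply_same, Pi.smul_apply, smul_eq_mul,
        Pi.zero_apply, zero_sub, neg_eq_zero, mul_eq_zero, hvi', or_false] at a6
      rw [← hw'] at a6
      rw [a6, zero_smul, sub_zero] at a5
      apply hw
      ext k
      have := congrFun a5 (i.succAbove k)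
      simpa [hw'] using this
    · ext k
      have h1 := mulVec_insertR Q i v k
      rw [hQv, hsub] at h1
      have h2 : Q (i.succAbove k) i = (drow M i k : ℝ) := hQ.apply i (i.succAbove k)
      have h3 : (fun k => -v (i.succAbove k) / v i) = (-1 / v i) • fun l => v (i.succAbove l) := by
        ext l; simp only [Pi.smul_apply, smul_eq_mul]; ring
      rw [h3, Matrix.mulVec_smul, Pi.smul_apply, smul_eq_mul]
      rw [h2] at h1
      simp only [Pi.zero_apply] at h1
      field_simp
      linarith
    · rw [abs_div, abs_neg, div_le_iff₀ hvi]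
      rw [div_le_iff₀ hN4] at hi
      have := ht (i.succAbove k) (Finset.mem_univ _)
      linarith

end Crest.Agent.R152
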