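import Crest.Agent.R152.TopA

/-! # Row 152: most double deletions are nonsingular -/

set_option autoImplicit false
open Matrix Filter
open Crest.FinProb Crest.ProbabilityR.SignMatrix

noncomputable section
namespace Crest.Agent.R152

private theorem symm_dot {m : ℕ} {Q : Matrix (Fin m) (Fin m) ℚ} (hQ : Q.IsSymm) (a b : Fin m → ℚ) :
    (Q *ᵥ a) ⬝ᵥ b = a ⬝ᵥ (Q *ᵥ b) := by
  rw [Matrix.dotProduct_mulVec, ← Matrix.mulVec_transpose, hQ.eq]

private theorem mulVec_insert {m : ℕ} (Q : Matrix (Fin (m + 1)) (Fin (m + 1)) ℚ) (i : Fin (m + 1))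
    (w : Fin m → ℚ) (k : Fin m) :
    (Q *ᵥ (i.insertNth (α := fun _ => ℚ) 0 w)) (i.succAbove k) =
      ((Q.submatrix i.succAbove i.succAbove) *ᵥ w) k := by
  simp only [Matrix.mulVec, dotProduct]
  rw [Fin.sum_univ_succAbove _ i]
  simp

private theorem ker_ne {m : ℕ} {Q : Matrix (Fin (m + 1)) (Fin (m + 1)) ℚ} {i : Fin (m + 1)}
    (hi : (Q.submatrix i.succAbove i.succAbove).det ≠ 0) {v : Fin (m + 1) → ℚ} (hv : v ≠ 0)
    (hQv : Q *ᵥ v = 0) : v i ≠ 0 := by
  intro h0
  apply hi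
  rw [← Matrix.exists_mulVec_eq_zero_iff]
  have e : v = i.insertNth (α := fun _ => ℚ) 0 (fun k => v (i.succAbove k)) := by
    rw [← h0]; exact (Fin.insertNth_self_removeNth i v).symm
  refine ⟨fun k => v (i.succAbove k), fun h => hv ?_, ?_⟩
  · rw [e, h]; ext j
    rcases Fin.eq_self_or_eq_succAbove i j with rfl | ⟨k, rfl⟩ <;> simp
  · ext k
    rw [← mulVec_insert, ← e, hQv]; rfl

private theorem solve {m : ℕ} {Q : Matrix (Fin (m + 1)) (Fin (m + 1)) ℚ} (hQ : Q.IsSymm)
    {i : Fin (m + 1)} (hi : (Q.submatrix i.succAbove i.succAbove).det ≠ 0)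
    {v : Fin (m + 1) → ℚ} (hvi : v i ≠ 0) (hQv : Q *ᵥ v = 0) {f : Fin (m + 1) → ℚ}
    (hf : v ⬝ᵥ f = 0) :
    Q *ᵥ (i.insertNth (α := fun _ => ℚ) 0
      ((Q.submatrix i.succAbove i.succAbove)⁻¹ *ᵥ fun k => f (i.succAbove k))) = f := by
  set z := i.insertNth (α := fun _ => ℚ) 0
      ((Q.submatrix i.succAbove i.succAbove)⁻¹ *ᵥ fun k => f (i.succAbove k)) with hz
  have h1 : ∀ k, (Q *ᵥ z) (i.succAbove k) = f (i.succAbove k) := by
    intro k
    rw [hz, mulVec_insert, Matrix.mulVec_mulVec,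
      Matrix.mul_nonsing_inv _ (isUnit_iff_ne_zero.2 hi), Matrix.one_mulVec]
  have h2 : v ⬝ᵥ (Q *ᵥ z) = 0 := by rw [← symm_dot hQ, hQv, zero_dotProduct]
  have h3 : (Q *ᵥ z) i = f i := by
    unfold dotProduct at h2 hf
    rw [Fin.sum_univ_succAbove _ i] at h2 hf
    simp only [h1] at h2
    have : v i * ((Q *ᵥ z) i - f i) = 0 := by linarith
    rcases mul_eq_zero.1 this with h | h
    · exact absurd h hvi
    · linarith
  ext j
  rcases Fin.eq_self_or_eq_succAbove i j with rfl | ⟨k, rfl⟩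
  · exact h3
  · exact h1 k

private theorem det_cast_sub {m : ℕ} (M : Matrix (Fin (m + 1)) (Fin (m + 1)) ℤ) (i : Fin (m + 1)) :
    ((M.map (Int.cast : ℤ → ℚ)).submatrix i.succAbove i.succAbove).det = ((del M i).det : ℚ) := by
  have := (Int.castRingHom ℚ).map_det (del M i)
  simp only [eq_intCast] at this
  rw [this]; rfl

private theorem solve_D {n : ℕ} {M : Matrix (Fin (n + 2)) (Fin (n + 2)) ℤ} (hM : M.IsSymm)
    {i : Fin (n + 2)} (hi : (del M i).det ≠ 0) {v : Fin (n + 2) → ℚ} (hvi : v i ≠ 0)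
    (hQv : M.map (Int.cast : ℤ → ℚ) *ᵥ v = 0) {j : Fin (n + 2)} (hj : j ∈ Dset M i) :
    j ≠ i ∧ ∃ z : Fin (n + 2) → ℚ,
      M.map (Int.cast : ℤ → ℚ) *ᵥ z = Pi.single j 1 - (v j / v i) • Pi.single i 1 ∧
        z i = 0 ∧ z j = 0 := by
  obtain ⟨j1, hj1, rfl⟩ := Finset.mem_map.1 hj
  have hj2 : (del (del M i) j1).det = 0 := (Finset.mem_filter.1 hj1).2
  have hne : i.succAbove j1 ≠ i := Fin.succAbove_ne i j1
  simp only [Fin.succAboveEmb_apply]
  refine ⟨hne, ?_⟩
  set Q := M.map (Int.cast : ℤ → ℚ) with hQdef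
  have hQ : Q.IsSymm := hM.map _
  have hi' : (Q.submatrix i.succAbove i.succAbove).det ≠ 0 := by
    rw [hQdef, det_cast_sub]; exact_mod_cast hi
  have hf : v ⬝ᵥ (Pi.single (i.succAbove j1) 1 - (v (i.succAbove j1) / v i) • Pi.single i 1 :
      Fin (n + 2) → ℚ) = 0 := by
    rw [dotProduct_sub, dotProduct_smul, dotProduct_single, dotProduct_single]
    simp only [mul_one, smul_eq_mul]
    field_simp
    ring
  refine ⟨_, solve hQ hi' hvi hQv hf, by simp, ?_⟩
  rw [Fin.insertNth_apply_succAbove]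
  have e : (fun k => (Pi.single (i.succAbove j1) 1 - (v (i.succAbove j1) / v i) • Pi.single i 1 :
      Fin (n + 2) → ℚ) (i.succAbove k)) = Pi.single j1 1 := by
    ext k
    by_cases hk : k = j1
    · subst hk; simp
    · have : i.succAbove k ≠ i.succAbove j1 := fun h => hk (Fin.succAbove_right_injective h)
      simp [Pi.single_apply, hk, this]
  rw [e, Matrix.mulVec_single_one, Matrix.inv_def]
  have e2 : (Q.submatrix i.succAbove i.succAbove).adjugate j1 j1 = 0 := by
    rw [Matrix.adjugate_fin_succ_eq_det_submatrix]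
    have : ((Q.submatrix i.succAbove i.succAbove).submatrix j1.succAbove j1.succAbove).det =
        ((del (del M i) j1).det : ℚ) := det_cast_sub (del M i) j1
    rw [this, hj2]; simp
  simp [e2]

theorem Dset_inter {n : ℕ} {M : Matrix (Fin (n + 2)) (Fin (n + 2)) ℤ} (hM : M.IsSymm)
    (hd : M.det = 0) {β : ℝ} (hZ : ZS β M) {i i' : Fin (n + 2)} (hii : i ≠ i')
    (hi : (del M i).det ≠ 0) (hi' : (del M i').det ≠ 0) :
    ((Dset M i ∩ Dset M i').card : ℝ) ≤ 2 * β * (n + 2 : ℕ) := by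
  classical
  set Q := M.map (Int.cast : ℤ → ℚ) with hQdef
  have hQ : Q.IsSymm := hM.map _
  have hdQ : Q.det = 0 := by
    have := (Int.castRingHom ℚ).map_det M
    simp only [eq_intCast, hd, Int.cast_zero] at this
    exact this.symm
  obtain ⟨v, hv, hQv⟩ := Matrix.exists_mulVec_eq_zero_iff.2 hdQ
  have hiq : (Q.submatrix i.succAbove i.succAbove).det ≠ 0 := by
    rw [hQdef, det_cast_sub]; exact_mod_cast hi
  have hiq' : (Q.submatrix i'.succAbove i'.succAbove).det ≠ 0 := by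
    rw [hQdef, det_cast_sub]; exact_mod_cast hi'
  have hvi := ker_ne hiq hv hQv
  have hvi' := ker_ne hiq' hv hQv
  set g : Fin (n + 2) → ℚ := (1 / v i) • Pi.single i 1 - (1 / v i') • Pi.single i' 1 with hg
  have hvg : v ⬝ᵥ g = 0 := by
    rw [hg, dotProduct_sub, dotProduct_smul, dotProduct_smul, dotProduct_single, dotProduct_single]
    simp only [mul_one, smul_eq_mul]
    field_simp
    ring
  obtain ⟨u, hu⟩ : ∃ u, Q *ᵥ u = g := ⟨_, solve hQ hiq hvi hQv hvg⟩
  set κ : ℚ := u i / v i - (g ⬝ᵥ u) / 2 with hκ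
  have hw : Q *ᵥ (u - κ • v) = g := by
    rw [Matrix.mulVec_sub, Matrix.mulVec_smul, hu, hQv]; simp
  have hgi : g i ≠ 0 := by
    simp [hg, Pi.single_apply, hii, hvi]
  have hw0 : u - κ • v ≠ 0 := by
    intro h
    rw [h, Matrix.mulVec_zero] at hw
    exact hgi (by rw [← hw]; rfl)
  have z1 := hZ v i i' hv (fun j _ _ => by rw [← hQdef, hQv]; rfl)
  have z2 := hZ (u - κ • v) i i' hw0 (fun j h1 h2 => by
    rw [← hQdef, hw]; simp [hg, Pi.single_apply, h1, h2])
  have hsub : Dset M i ∩ Dset M i' ⊆ (Finset.univ.filter fun k => v k = 0) ∪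
      (Finset.univ.filter fun k => (u - κ • v) k = 0) := by
    intro j hj
    obtain ⟨hj1, hj2⟩ := Finset.mem_inter.1 hj
    obtain ⟨hji, z, hz, hzi, hzj⟩ := solve_D hM hi hvi hQv hj1
    obtain ⟨hji', z', hz', hzi', hzj'⟩ := solve_D hM hi' hvi' hQv hj2
    rw [← hQdef] at hz hz'
    by_cases hvj : v j = 0
    · exact Finset.mem_union_left _ (by simp [hvj])
    refine Finset.mem_union_right _ ?_
    simp only [Finset.mem_filter, Finset.mem_univ, true_and, Pi.sub_apply, Pi.smul_apply,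
      smul_eq_mul]
    set f : Fin (n + 2) → ℚ := Pi.single j 1 - (v j / v i) • Pi.single i 1 with hf
    set f' : Fin (n + 2) → ℚ := Pi.single j 1 - (v j / v i') • Pi.single i' 1 with hf'
    have hff : f' = f + v j • g := by
      rw [hf, hf', hg, smul_sub, smul_smul, smul_smul, mul_one_div, mul_one_div]; abel
    have a1 : f ⬝ᵥ z = 0 := by
      rw [hf, sub_dotProduct, smul_dotProduct, single_dotProduct, single_dotProduct, hzi, hzj]; simp
    have a2 : f' ⬝ᵥ z' = 0 := by
      rw [hf', sub_dotProduct, smul_dotProduct, single_dotProduct, single_dotProduct, hzi', hzj']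
      simp
    have a3 : Q *ᵥ (z + v j • u) = f' := by
      rw [Matrix.mulVec_add, Matrix.mulVec_smul, hz, hu, hff]
    have a4 : f' ⬝ᵥ (z + v j • u) = 0 := by
      rw [← hz', symm_dot hQ, a3, dotProduct_comm, a2]
    have a5 : g ⬝ᵥ z = f ⬝ᵥ u := by
      rw [← hu, symm_dot hQ, hz, dotProduct_comm]
    have a6 : f ⬝ᵥ u = u j - v j / v i * u i := by
      rw [hf, sub_dotProduct, smul_dotProduct, single_dotProduct, single_dotProduct]; simp
    rw [hff, add_dotProduct, dotProduct_add, dotProduct_add, smul_dotProduct, smul_dotProduct,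
      dotProduct_smul, dotProduct_smul, a1, a5, a6] at a4
    simp only [smul_eq_mul] at a4
    have a7 : v j * (2 * (u j - v j / v i * u i) + v j * (g ⬝ᵥ u)) = 0 := by linarith
    have a8 := (mul_eq_zero.1 a7).resolve_left hvj
    rw [hκ]
    have : v j / v i * u i = u i / v i * v j := by ring
    rw [this] at a8
    linarith
  have c1 := Finset.card_le_card hsub
  have c2 := Finset.card_union_le (Finset.univ.filter fun k => v k = 0)
    (Finset.univ.filter fun k => (u - κ • v) k = 0)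
  have c3 : ((Dset M i ∩ Dset M i').card : ℝ) ≤ ((Finset.univ.filter fun k => v k = 0).card : ℝ) +
      ((Finset.univ.filter fun k => (u - κ • v) k = 0).card : ℝ) := by exact_mod_cast c1.trans c2
  linarith

private theorem bonf {α β : Type} [DecidableEq α] [DecidableEq β] (D : α → Finset β) {a b : ℝ}
    (hb : 0 ≤ b) (C : Finset α) (h1 : ∀ i ∈ C, a ≤ (D i).card)
    (h2 : ∀ i ∈ C, ∀ i' ∈ C, i ≠ i' → ((D i ∩ D i').card : ℝ) ≤ 2 * b) :
    a * C.card - b * (C.card : ℝ) ^ 2 ≤ ((C.biUnion D).card : ℝ) := by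
  induction C using Finset.induction_on with
  | empty => simp
  | insert x C hx ih =>
    have ih' := ih (fun i hi => h1 i (Finset.mem_insert_of_mem hi))
      (fun i hi i' hi' => h2 i (Finset.mem_insert_of_mem hi) i' (Finset.mem_insert_of_mem hi'))
    rw [Finset.biUnion_insert, Finset.card_insert_of_notMem hx]
    have e := Finset.card_union_add_card_inter (D x) (C.biUnion D)
    have e' : ((D x ∪ C.biUnion D).card : ℝ) + (D x ∩ C.biUnion D).card =
        (D x).card + (C.biUnion D).card := by exact_mod_cast e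
    have e2 : ((D x ∩ C.biUnion D).card : ℝ) ≤ C.card * (2 * b) := by
      rw [Finset.inter_biUnion]
      calc ((C.biUnion fun y => D x ∩ D y).card : ℝ) ≤ ∑ y ∈ C, ((D x ∩ D y).card : ℝ) := by
            exact_mod_cast Finset.card_biUnion_le
        _ ≤ ∑ _y ∈ C, 2 * b := Finset.sum_le_sum fun y hy =>
            h2 x (Finset.mem_insert_self _ _) y (Finset.mem_insert_of_mem hy)
              (fun h => hx (h ▸ hy))
        _ = C.card * (2 * b) := by simp
    have e3 := h1 x (Finset.mem_insert_self _ _)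
    push_cast
    nlinarith

theorem exists_small_Dset {n : ℕ} {M : Matrix (Fin (n + 2)) (Fin (n + 2)) ℤ} (hM : M.IsSymm)
    (hd : M.det = 0) {β β₁ : ℝ} (hZ : ZS β M) {K : ℕ} (hK : 2 ≤ β₁ * K)
    (hβ0 : 0 ≤ β) (hβ : β * (K : ℝ) ^ 2 < 1) (C : Finset (Fin (n + 2))) (hC : K ≤ C.card)
    (hdet : ∀ i ∈ C, (del M i).det ≠ 0) :
    ∃ i ∈ C, ((Dset M i).card : ℝ) < β₁ * (n + 2 : ℕ) := by
  classical
  by_contra hcon
  push Not at hcon
  obtain ⟨C', hC', hcard⟩ := Finset.exists_subset_card_eq hC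
  have hN : (0 : ℝ) < (n + 2 : ℕ) := by positivity
  have := bonf (Dset M) (a := β₁ * (n + 2 : ℕ)) (b := β * (n + 2 : ℕ)) (by positivity) C'
    (fun i hi => hcon i (hC' hi))
    (fun i hi i' hi' hne => by
      have := Dset_inter hM hd hZ hne (hdet i (hC' hi)) (hdet i' (hC' hi'))
      linarith)
  rw [hcard] at this
  have h2 : ((C'.biUnion (Dset M)).card : ℝ) ≤ (n + 2 : ℕ) := by
    have := Finset.card_le_univ (C'.biUnion (Dset M))
    rw [Fintype.card_fin] at this
    exact_mod_cast this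
  nlinarith

end Crest.Agent.R152
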