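import Crest.Agent.R152.Defs

/-! # Row 152: definitions for the top level -/

set_option autoImplicit false
open Matrix Filter
open Crest.FinProb Crest.ProbabilityR.SignMatrix

noncomputable section
namespace Crest.Agent.R152

variable {n : ℕ}

/-- Content of the adjugate. -/
def cont (B : Matrix (Fin n) (Fin n) ℤ) : ℕ :=
  (Finset.univ.gcd fun ij : Fin n × Fin n => B.adjugate ij.1 ij.2).natAbs

/-- The canonical overlattice containing every `x` with `det B ∣ xᵀ adj(B) x`. -/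
def Lplus (B : Matrix (Fin n) (Fin n) ℤ) : Submodule ℤ (Fin n → ℤ) where
  carrier := {x | ∀ z, B.det ∣ (x ⬝ᵥ (B.adjugate *ᵥ z)) ^ 2}
  add_mem' := by
    intro a b ha hb z
    have h1 := ha z
    have h2 := hb z
    have h3 : B.det ∣ (a ⬝ᵥ (B.adjugate *ᵥ z)) * (b ⬝ᵥ (B.adjugate *ᵥ z)) := by
      rw [← Int.pow_dvd_pow_iff (two_ne_zero), mul_pow, sq B.det]
      exact mul_dvd_mul h1 h2
    rw [add_dotProduct, add_sq, mul_assoc]
    exact dvd_add (dvd_add h1 (dvd_mul_of_dvd_right h3 2)) h2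
  zero_mem' := fun z => by simp
  smul_mem' := by
    intro c a ha z
    rw [smul_dotProduct, smul_eq_mul, mul_pow]
    exact dvd_mul_of_dvd_right (ha z) _

/-- The lattice `A ℤⁿ + q ℤⁿ`. -/
def Lq (A : Matrix (Fin n) (Fin n) ℤ) (q : ℕ) : Submodule ℤ (Fin n → ℤ) :=
  LinearMap.range A.mulVecLin ⊔ LinearMap.range ((q : ℤ) • LinearMap.id)

/-- Divisors of `d` with few large prime factors. -/
def Qset (γ : ℝ) (n : ℕ) (d : ℤ) : Finset ℕ :=
  d.natAbs.divisors.filter fun q => ((q.primeFactors.filter fun l => n < l ^ 2).card : ℝ) ≤ γ * n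

/-- Targets for the row deleted from the singular matrix. -/
def TgtX (B : Matrix (Fin n) (Fin n) ℤ) (x : Fin n → Bool) : Prop :=
  B.det ≠ 0 ∧
    ((|(B.det : ℝ)| ≤ (n : ℝ) ^ ((n : ℝ) / 4) ∧ ∃ u : Fin n → ℝ,
        (B.map (Int.cast : ℤ → ℝ)) *ᵥ u = (fun i => (sz x i : ℝ)) ∧
          ∀ k, |u k| ≤ ((n : ℝ) + 1) ^ 4) ∨
      ((n : ℝ) ^ ((1 / 16 : ℝ) * n) ≤ ((Lplus B).toAddSubgroup.index : ℝ) ∧ sz x ∈ Lplus B))

/-- Targets for the second deleted row. -/
def TgtY (θ γ : ℝ) (A : Matrix (Fin n) (Fin n) ℤ) (y : Fin n → Bool) : Prop :=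
  A.det ≠ 0 ∧ ∃ q ∈ Qset γ n A.det,
    (n : ℝ) ^ (θ * n) ≤ ((Lq A q).toAddSubgroup.index : ℝ) ∧ sz y ∈ Lq A q

/-- Row `i` without its diagonal entry. -/
def drow (B : Matrix (Fin (n + 1)) (Fin (n + 1)) ℤ) (i : Fin (n + 1)) : Fin n → ℤ :=
  fun k => B i (i.succAbove k)

/-- The indices `j` for which deleting `i` and `j` leaves a singular matrix. -/
def Dset (M : Matrix (Fin (n + 2)) (Fin (n + 2)) ℤ) (i : Fin (n + 2)) : Finset (Fin (n + 2)) :=
  (Finset.univ.filter fun j : Fin (n + 1) => (del (del M i) j).det = 0).map i.succAboveEmb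

end Crest.Agent.R152
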