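import Crest.Agent.R152.TopY2

/-! # Row 152: case of a large content -/

set_option autoImplicit false
open Matrix Filter
open Crest.FinProb Crest.ProbabilityR.SignMatrix

noncomputable section
namespace Crest.Agent.R152

private theorem topY_log (P : Finset ℕ) (hP : ∀ l ∈ P, l.Prime) (f : ℕ → ℕ) :
    ((∏ l ∈ P, l ^ f l : ℕ) : ℝ) = Real.exp (∑ l ∈ P, (f l : ℝ) * Real.log l) := by
  rw [Real.exp_sum, Nat.cast_prod]
  refine Finset.prod_congr rfl fun l hl => ?_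
  have : (0 : ℝ) < l := by exact_mod_cast (hP l hl).pos
  rw [Real.exp_nat_mul, Real.exp_log this, Nat.cast_pow]

/-- An index outside `Bad` which is seen by many primes. -/
private theorem topY_avg {ι : Type} [Fintype ι] [DecidableEq ι] (P : Finset ℕ) (a : ℕ → ℝ)
    (ha : ∀ l ∈ P, 0 ≤ a l) (J : ℕ → Finset ι) {κ : ℝ} (hκ : 0 < κ) (hκ1 : κ ≤ 1)
    (hι : 0 < Fintype.card ι) (hJ : ∀ l ∈ P, κ * Fintype.card ι ≤ (J l).card) (Bad : Finset ι)
    (hB : (Bad.card : ℝ) ≤ κ / 2 * Fintype.card ι) :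
    ∃ j, j ∉ Bad ∧ κ / 2 * ∑ l ∈ P, a l ≤ ∑ l ∈ P.filter (fun l => j ∈ J l), a l := by
  have hN : (0 : ℝ) < Fintype.card ι := by exact_mod_cast hι
  have hne : Badᶜ.Nonempty := by
    rw [← Finset.card_pos, Finset.card_compl]
    have : (Bad.card : ℝ) < Fintype.card ι := by nlinarith
    have : Bad.card < Fintype.card ι := by exact_mod_cast this
    omega
  have hS : 0 ≤ ∑ l ∈ P, a l := Finset.sum_nonneg ha
  have key : ∑ _j ∈ Badᶜ, κ / 2 * ∑ l ∈ P, a l ≤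
      ∑ j ∈ Badᶜ, ∑ l ∈ P.filter (fun l => j ∈ J l), a l := by
    have h1 : ∑ j ∈ Badᶜ, ∑ l ∈ P.filter (fun l => j ∈ J l), a l =
        ∑ l ∈ P, ((J l \ Bad).card : ℝ) * a l := by
      simp only [Finset.sum_filter]
      rw [Finset.sum_comm]
      refine Finset.sum_congr rfl fun l _ => ?_
      rw [← Finset.sum_filter, Finset.sum_const, nsmul_eq_mul]
      congr 3
      ext j
      simp [and_comm]
    have h2 : ((Badᶜ).card : ℝ) ≤ Fintype.card ι := by exact_mod_cast Finset.card_le_univ _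
    rw [h1, Finset.sum_const, nsmul_eq_mul]
    calc ((Badᶜ).card : ℝ) * (κ / 2 * ∑ l ∈ P, a l)
        ≤ Fintype.card ι * (κ / 2 * ∑ l ∈ P, a l) := by gcongr
      _ = ∑ l ∈ P, (κ / 2 * Fintype.card ι) * a l := by rw [← Finset.mul_sum]; ring
      _ ≤ _ := by
        refine Finset.sum_le_sum fun l hl => mul_le_mul_of_nonneg_right ?_ (ha l hl)
        have h3 : ((J l).card : ℝ) ≤ (J l \ Bad).card + Bad.card := by
          exact_mod_cast Finset.card_le_card_sdiff_add_card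
        linarith [hJ l hl]
  obtain ⟨j, hj, h⟩ := Finset.exists_le_of_sum_le hne key
  exact ⟨j, Finset.mem_compl.1 hj, h⟩

private theorem topY_J {n : ℕ} {B : Matrix (Fin n) (Fin n) ℤ} (hd : B.det ≠ 0) {κ : ℝ}
    (hW : WS κ B) : ∃ J : ℕ → Finset (Fin n), (∀ l ∈ PP B, κ * (n : ℝ) ≤ (J l).card) ∧
      ∀ l j, j ∈ J l → ∃ k, ¬ ((l * cont B : ℕ) : ℤ) ∣ B.adjugate j k :=
  ⟨_, fun _ hl => PP_support hd hW hl, fun _ _ hj => ((@Finset.mem_filter _ _ (_) _ _).1 hj).2⟩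

private theorem topY_card {n c : ℕ} (hn : 2 ≤ n) (hc : c ≠ 0) (hle : c ^ 2 ≤ (n + 1) ^ (n + 1))
    (T : Finset ℕ) (hT : T ⊆ c.primeFactors) (hl : ∀ l ∈ T, n < l ^ 2) : T.card ≤ 2 * n + 2 := by
  have h1 : n ^ T.card ≤ ∏ l ∈ T, l ^ 2 := Finset.pow_card_le_prod _ _ _ fun l h => (hl l h).le
  have h2 : ∏ l ∈ T, l ≤ c :=
    Nat.le_of_dvd (Nat.pos_of_ne_zero hc)
      ((Finset.prod_dvd_prod_of_subset _ _ _ hT).trans (Nat.prod_primeFactors_dvd c))
  have h3 : (n + 1) ^ (n + 1) ≤ n ^ (2 * n + 2) := by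
    rw [show 2 * n + 2 = 2 * (n + 1) by ring, pow_mul]
    exact Nat.pow_le_pow_left (by nlinarith) _
  rw [Finset.prod_pow] at h1
  have h4 := h1.trans (((Nat.pow_le_pow_left h2 2).trans hle).trans h3)
  exact (Nat.pow_le_pow_iff_right (by omega)).1 h4

theorem caseY {κ γ : ℝ} (hκ : 0 < κ) (hκ1 : κ ≤ 1) (hγ : 0 < γ) (hγ1 : γ ≤ 1) :
    ∀ᶠ n : ℕ in atTop, ∀ B : Matrix (Fin (n + 1)) (Fin (n + 1)) ℤ, IsSS B → B.det ≠ 0 → WS κ B →
      ((n + 1 : ℕ) : ℝ) ^ ((1 / 16 : ℝ) * (n + 1 : ℕ)) < cont B →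
      ∀ Bad : Finset (Fin (n + 1)), (Bad.card : ℝ) ≤ κ / 2 * (n + 1 : ℕ) →
        (∀ j, j ∉ Bad → (del B j).det ≠ 0) →
        ∃ j, j ∉ Bad ∧ ∀ y : Fin n → Bool, sz y = drow B j → TgtY (κ * γ / 200) γ (del B j) y := by
  have e1 : ∀ᶠ n : ℕ in atTop, 1 ≤ γ * n :=
    (tendsto_natCast_atTop_atTop.const_mul_atTop hγ).eventually_ge_atTop 1
  have e2 : ∀ᶠ n : ℕ in atTop, 45 ≤ Real.log n :=
    (Real.tendsto_log_atTop.comp tendsto_natCast_atTop_atTop).eventually_ge_atTop 45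
  filter_upwards [e1, e2, eventually_ge_atTop 2] with n h1 h2 hn B hB hd hW hc Bad hBad hdet
  have hn1 : 1 ≤ n + 1 := Nat.succ_le_succ (Nat.zero_le n)
  have hn0 : (0 : ℝ) < n := by exact_mod_cast (by omega : 0 < n)
  have hN0 : (0 : ℝ) < ((n + 1 : ℕ) : ℝ) := by positivity
  have hNe : ((n + 1 : ℕ) : ℝ) = n + 1 := by push_cast; rfl
  have hlog : Real.log n ≤ Real.log ((n + 1 : ℕ) : ℝ) :=
    Real.log_le_log hn0 (by rw [hNe]; linarith)
  set a : ℕ → ℝ := fun l => ((cont B).factorization l : ℝ) * Real.log l with ha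
  have ha0 : ∀ l, 0 ≤ a l := fun l => mul_nonneg (Nat.cast_nonneg _) (Real.log_natCast_nonneg l)
  have hsub : PP B ⊆ (cont B).primeFactors := Finset.filter_subset _ _
  have hpr : ∀ l ∈ PP B, l.Prime := fun l hl => Nat.prime_of_mem_primeFactors (hsub hl)
  -- total weight
  have hS : ((n + 1 : ℕ) : ℝ) * Real.log n / 25 ≤ ∑ l ∈ PP B, a l := by
    have h3 : (cont B : ℝ) ≤ 2 ^ (n + 1) * Real.exp (∑ l ∈ PP B, a l) := by
      rw [← topY_log _ hpr]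
      exact_mod_cast cont_le_PP hn1 hd
    have h4 : (2 : ℝ) ^ (n + 1) ≤ Real.exp ((n + 1 : ℕ) : ℝ) := by
      rw [← mul_one ((n + 1 : ℕ) : ℝ), Real.exp_nat_mul]
      exact pow_le_pow_left₀ (by norm_num) (by linarith [Real.add_one_le_exp (1 : ℝ)]) _
    have h5 := hc.le.trans (h3.trans (mul_le_mul_of_nonneg_right h4 (Real.exp_pos _).le))
    rw [Real.rpow_def_of_pos hN0, ← Real.exp_add, Real.exp_le_exp] at h5
    have h6 : ((n + 1 : ℕ) : ℝ) * Real.log n ≤ ((n + 1 : ℕ) : ℝ) * Real.log ((n + 1 : ℕ) : ℝ) :=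
      mul_le_mul_of_nonneg_left hlog hN0.le
    have h7 : ((n + 1 : ℕ) : ℝ) * 45 ≤ ((n + 1 : ℕ) : ℝ) * Real.log n :=
      mul_le_mul_of_nonneg_left h2 hN0.le
    linarith
  obtain ⟨J, hJ1, hJ2⟩ := topY_J hd hW
  obtain ⟨j, hj, hWj⟩ := topY_avg (PP B) a (fun l _ => ha0 l) J hκ hκ1 (by simp)
    (fun l hl => by rw [Fintype.card_fin]; exact hJ1 l hl) Bad
    (by rw [Fintype.card_fin]; exact hBad)
  set Pj := (PP B).filter fun l => j ∈ J l with hPj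
  set T := Pj.filter fun l => n < l ^ 2 with hT
  set Sm := Pj.filter fun l => ¬ n < l ^ 2 with hSm
  have hTc : T.card ≤ 2 * n + 2 := by
    refine topY_card hn (cont_pos hn1 hd).ne' ?_ T
      ((Finset.filter_subset _ _).trans ((Finset.filter_subset _ _).trans hsub))
      fun l hl => (Finset.mem_filter.1 hl).2
    exact (Nat.pow_le_pow_left (Nat.le_of_dvd (Int.natAbs_pos.2 hd) (cont_dvd_det hn1 B)) 2).trans
      (det_sign_le hB.2)
  have hk1 : (⌊γ * n⌋₊ : ℝ) ≤ γ * n := Nat.floor_le (by positivity)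
  have hk2 : γ * n / 2 ≤ (⌊γ * n⌋₊ : ℝ) := by
    have a1 := Nat.lt_floor_add_one (γ * n)
    have a2 : (1 : ℝ) ≤ ⌊γ * n⌋₊ := by exact_mod_cast (Nat.one_le_floor_iff _).2 h1
    linarith
  have hk3 : (⌊γ * n⌋₊ : ℝ) ≤ ((2 * n + 2 : ℕ) : ℝ) := by
    push_cast
    nlinarith
  obtain ⟨T', hT', hc', hw'⟩ := exists_heavy_subset T a (fun l _ => ha0 l) hTc
    (k := ⌊γ * n⌋₊) (by exact_mod_cast hk3)
  have hPsub : Sm ∪ T' ⊆ Pj :=
    Finset.union_subset (Finset.filter_subset _ _) (hT'.trans (Finset.filter_subset _ _))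
  have hPpr : ∀ l ∈ Sm ∪ T', l.Prime := fun l hl => hpr l (Finset.mem_filter.1 (hPsub hl)).1
  have hdis : Disjoint Sm T' := by
    rw [Finset.disjoint_left]
    intro l b1 b2
    exact (Finset.mem_filter.1 b1).2 (Finset.mem_filter.1 (hT' b2)).2
  have hwt : κ * γ / 200 * n * Real.log n ≤ ∑ l ∈ Sm ∪ T', a l := by
    have b1 : ∑ l ∈ T, a l + ∑ l ∈ Sm, a l = ∑ l ∈ Pj, a l :=
      Finset.sum_filter_add_sum_filter_not _ _ _
    have b2 : 0 ≤ ∑ l ∈ Sm, a l := Finset.sum_nonneg fun l _ => ha0 l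
    have b3 : (⌊γ * n⌋₊ : ℝ) * ∑ l ∈ Pj, a l ≤
        ((2 * n + 2 : ℕ) : ℝ) * ∑ l ∈ Sm ∪ T', a l := by
      rw [Finset.sum_union hdis, ← b1, mul_add, mul_add]
      have := mul_le_mul_of_nonneg_right hk3 b2
      linarith
    have b4 : κ / 2 * (((n + 1 : ℕ) : ℝ) * Real.log n / 25) ≤ ∑ l ∈ Pj, a l :=
      (mul_le_mul_of_nonneg_left hS (by positivity)).trans hWj
    have b5 : γ * n / 2 * (κ / 2 * (((n + 1 : ℕ) : ℝ) * Real.log n / 25)) ≤
        (⌊γ * n⌋₊ : ℝ) * ∑ l ∈ Pj, a l :=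
      mul_le_mul hk2 b4 (by have : (0 : ℝ) ≤ Real.log n := by linarith
                            positivity) (Nat.cast_nonneg _)
    have b6 := b5.trans b3
    refine le_of_mul_le_mul_left (le_trans (le_of_eq ?_) b6) (by positivity)
    push_cast
    ring
  obtain ⟨q, q1, q2, q3, q4⟩ := caseY_arith hB.1 hd j (hdet j hj) (Sm ∪ T') hPpr fun l hl =>
    hJ2 l j (Finset.mem_filter.1 (hPsub hl)).2
  refine ⟨j, hj, fun y hy => ⟨hdet j hj, q, ?_, ?_, hy ▸ q3⟩⟩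
  · rw [Qset, Finset.mem_filter, Nat.mem_divisors]
    refine ⟨⟨q1, Int.natAbs_ne_zero.2 (hdet j hj)⟩, le_trans ?_ hk1⟩
    refine Nat.cast_le.2 (le_trans (Finset.card_le_card fun l hl => ?_) hc')
    rw [Finset.mem_filter] at hl
    rcases Finset.mem_union.1 (q2 hl.1) with h | h
    · exact absurd hl.2 (Finset.mem_filter.1 h).2
    · exact h
  · refine le_trans ?_ (Nat.cast_le.2 q4)
    rw [topY_log _ hPpr, Real.rpow_def_of_pos hn0, Real.exp_le_exp, mul_comm]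
    exact hwt

end Crest.Agent.R152
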