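import Crest.Agent.R152.TopB
import Crest.Agent.R152.TopD
import Crest.Agent.R152.TopY

/-! # Row 152: deterministic top level -/

set_option autoImplicit false
open Matrix Filter
open Crest.FinProb Crest.ProbabilityR.SignMatrix

noncomputable section
namespace Crest.Agent.R152

private theorem td_isSS {n : ℕ} (ω : Om n) : IsSS (mat ω) := by
  refine ⟨?_, fun i j => ?_⟩
  · ext i j
    simp [symSignMatrix, Sym2.eq_swap]
  · simp only [symSignMatrix, Matrix.of_apply]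
    split_ifs <;> simp

private theorem td_index {n : ℕ} (hn : 1 ≤ n) {B : Matrix (Fin n) (Fin n) ℤ} (hd : B.det ≠ 0)
    (h1 : (n : ℝ) ^ ((n : ℝ) / 4) < |(B.det : ℝ)|)
    (h2 : (cont B : ℝ) ≤ (n : ℝ) ^ ((1 / 16 : ℝ) * n)) :
    (n : ℝ) ^ ((1 / 16 : ℝ) * n) ≤ ((Lplus B).toAddSubgroup.index : ℝ) := by
  have hn0 : (0 : ℝ) < n := by exact_mod_cast hn
  set a : ℝ := (n : ℝ) ^ ((1 / 16 : ℝ) * n) with ha
  have ha0 : 0 < a := Real.rpow_pos_of_pos hn0 _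
  have h4 : (n : ℝ) ^ ((n : ℝ) / 4) = (a * a) ^ 2 := by
    rw [ha, ← Real.rpow_add hn0, ← Real.rpow_natCast, ← Real.rpow_mul hn0.le]
    congr 1
    push_cast
    ring
  have h3 : |(B.det : ℝ)| ≤ (((Lplus B).toAddSubgroup.index : ℝ) * cont B) ^ 2 := by
    have := Lplus_index hn hd
    have h5 : ((B.det.natAbs : ℕ) : ℝ) = |(B.det : ℝ)| := by
      rw [Nat.cast_natAbs, Int.cast_abs]
    rw [← h5]
    exact_mod_cast this
  by_contra hlt
  rw [not_le] at hlt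
  have h6 : ((Lplus B).toAddSubgroup.index : ℝ) * cont B ≤ a * a := by
    gcongr
  have h7 : (((Lplus B).toAddSubgroup.index : ℝ) * cont B) ^ 2 ≤ (a * a) ^ 2 := by
    gcongr
  linarith

theorem top_det {δ κ γ : ℝ} (hδ : 0 < δ) (hκ : 0 < κ) (hκ1 : κ ≤ 1) (hγ : 0 < γ) (hγ1 : γ ≤ 1)
    (K : ℕ) : ∃ β : ℝ, 0 < β ∧ ∀ᶠ m : ℕ in atTop, ∀ (ω : Om (m + 2)) (At : Finset (Fin (m + 2))),
      At.card ≤ K → Cor1 (mat ω) → SP δ (mat ω) → ZS β (mat ω) → (∀ i, WS κ (del (mat ω) i)) →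
      (∃ i, i ∉ At ∧ TgtX (del (mat ω) i) (fun k => ω s(i, i.succAbove k))) ∨
      (∃ (i : Fin (m + 2)) (j : Fin (m + 1)), i.succAbove j ∉ At ∧
        TgtY (κ * γ / 200) γ (del (del (mat ω) i) j)
          (fun k => ω s(i.succAbove j, i.succAbove (j.succAbove k)))) := by
  set K₁ : ℕ := ⌈8 / κ⌉₊ with hK₁
  have hK₁8 : 8 / κ ≤ (K₁ : ℝ) := Nat.le_ceil _
  have hK₁0 : (0 : ℝ) < K₁ := lt_of_lt_of_le (by positivity) hK₁8
  have hβK : 2 ≤ κ / 4 * K₁ := by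
    rw [div_le_iff₀ hκ] at hK₁8
    linarith
  refine ⟨1 / (2 * (K₁ : ℝ) ^ 2), by positivity, ?_⟩
  have hβ : 1 / (2 * (K₁ : ℝ) ^ 2) * (K₁ : ℝ) ^ 2 < 1 := by
    field_simp
    norm_num
  have e1 : ∀ᶠ m : ℕ in atTop, ((K : ℝ) + K₁) / δ ≤ (m : ℝ) :=
    tendsto_natCast_atTop_atTop.eventually_ge_atTop _
  have e2 : ∀ᶠ m : ℕ in atTop, 4 * (K : ℝ) / κ ≤ (m : ℝ) :=
    tendsto_natCast_atTop_atTop.eventually_ge_atTop _
  filter_upwards [e1, e2, caseY hκ hκ1 hγ hγ1] with m hm1 hm2 hY ω At hAt hc hSP hZ hW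
  have hM := td_isSS ω
  obtain ⟨Big, hBig, hB⟩ := exists_big hM hc hSP
  have hAt' : (At.card : ℝ) ≤ K := by exact_mod_cast hAt
  have hC : K₁ ≤ (Big \ At).card := by
    have h1 : Big.card ≤ (Big \ At).card + At.card := Finset.card_le_card_sdiff_add_card
    have h2 : ((Big.card : ℕ) : ℝ) ≤ (Big \ At).card + At.card := by exact_mod_cast h1
    rw [div_le_iff₀ hδ] at hm1
    push_cast at hBig
    have h3 : (K₁ : ℝ) ≤ (Big \ At).card := by nlinarith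
    exact_mod_cast h3
  obtain ⟨i, hi, hD⟩ := exists_small_Dset hM.1 hc.1 hZ hβK (by positivity) hβ (Big \ At) hC
    (fun i hi => (hB i (Finset.mem_sdiff.1 hi).1).1)
  obtain ⟨hiB, hiA⟩ := Finset.mem_sdiff.1 hi
  obtain ⟨hd, u, hu, hu'⟩ := hB i hiB
  have hsz : sz (fun k => ω s(i, i.succAbove k)) = drow (mat ω) i := rfl
  by_cases h1 : |((del (mat ω) i).det : ℝ)| ≤ ((m + 1 : ℕ) : ℝ) ^ (((m + 1 : ℕ) : ℝ) / 4)
  · exact Or.inl ⟨i, hiA, hd, Or.inl ⟨h1, u, by rw [hsz]; exact hu, hu'⟩⟩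
  rw [not_le] at h1
  by_cases h2 : (cont (del (mat ω) i) : ℝ) ≤ ((m + 1 : ℕ) : ℝ) ^ ((1 / 16 : ℝ) * (m + 1 : ℕ))
  · refine Or.inl ⟨i, hiA, hd, Or.inr ⟨td_index (Nat.le_add_left 1 m) hd h1 h2, ?_⟩⟩
    rw [hsz]
    refine mem_Lplus (hM.del i).1 hd ?_
    have h3 := det_border hM.1 i hd
    rw [hc.1] at h3
    exact ⟨mat ω i i, by linarith⟩
  rw [not_le] at h2
  set Bad : Finset (Fin (m + 1)) :=
    Finset.univ.filter fun j => i.succAbove j ∈ At ∪ Dset (mat ω) i with hBad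
  have hBc : Bad.card ≤ At.card + (Dset (mat ω) i).card := by
    refine le_trans ?_ (Finset.card_union_le _ _)
    refine Finset.card_le_card_of_injOn i.succAbove (fun j hj => ?_)
      (fun a _ b _ hab => Fin.succAbove_right_injective hab)
    exact (Finset.mem_filter.1 (Finset.mem_coe.1 hj)).2
  have hBc' : (Bad.card : ℝ) ≤ κ / 2 * (m + 1 : ℕ) := by
    have h3 : (Bad.card : ℝ) ≤ At.card + (Dset (mat ω) i).card := by exact_mod_cast hBc
    rw [div_le_iff₀ hκ] at hm2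
    push_cast at hD ⊢
    nlinarith
  obtain ⟨j, hj, hT⟩ := hY (del (mat ω) i) (hM.del i) hd (hW i) h2 Bad hBc' (fun j hj h0 => by
    refine hj (Finset.mem_filter.2 ⟨Finset.mem_univ _, Finset.mem_union_right _ ?_⟩)
    exact Finset.mem_map.2 ⟨j, Finset.mem_filter.2 ⟨Finset.mem_univ _, h0⟩, rfl⟩)
  refine Or.inr ⟨i, j, fun h0 => hj ?_, hT _ rfl⟩
  exact Finset.mem_filter.2 ⟨Finset.mem_univ _, Finset.mem_union_left _ h0⟩

end Crest.Agent.R152
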