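import Crest.Agent.R152.TopA

/-! # Row 152: indices of the lattices Lq -/

set_option autoImplicit false
open Matrix Filter
open Crest.FinProb Crest.ProbabilityR.SignMatrix

noncomputable section
namespace Crest.Agent.R152

theorem mem_Lq {n : ℕ} {A : Matrix (Fin n) (Fin n) ℤ} {q : ℕ} {y : Fin n → ℤ} :
    y ∈ Lq A q ↔ ∃ u v : Fin n → ℤ, y = A *ᵥ u + (q : ℤ) • v := by
  unfold Lq
  rw [Submodule.mem_sup]
  constructor
  · rintro ⟨_, ⟨u, rfl⟩, _, ⟨v, rfl⟩, rfl⟩
    exact ⟨u, v, rfl⟩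
  · rintro ⟨u, v, rfl⟩
    exact ⟨_, ⟨u, rfl⟩, _, ⟨v, rfl⟩, rfl⟩

/-- The primitive part of the adjugate. -/
def Nmat {n : ℕ} (B : Matrix (Fin n) (Fin n) ℤ) : Matrix (Fin n) (Fin n) ℤ :=
  Matrix.of fun i j => B.adjugate i j / cont B

theorem cont_mul_Nmat {n : ℕ} (B : Matrix (Fin n) (Fin n) ℤ) (i j : Fin n) :
    (cont B : ℤ) * Nmat B i j = B.adjugate i j := Int.mul_ediv_cancel' (cont_dvd B i j)

theorem cont_pos {n : ℕ} (hn : 1 ≤ n) {B : Matrix (Fin n) (Fin n) ℤ} (hd : B.det ≠ 0) :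
    0 < cont B := by
  refine Nat.pos_of_ne_zero fun h0 => hd ?_
  have := cont_dvd_det hn B
  rw [h0, zero_dvd_iff, Int.natAbs_eq_zero] at this
  exact this

theorem mul_Nmat {n : ℕ} (hn : 1 ≤ n) {B : Matrix (Fin n) (Fin n) ℤ} (hd : B.det ≠ 0) :
    ∃ e : ℤ, e.natAbs = B.det.natAbs / cont B ∧ ∀ z, B *ᵥ (Nmat B *ᵥ z) = e • z := by
  have hc := cont_pos hn hd
  obtain ⟨e, he⟩ : (cont B : ℤ) ∣ B.det := Int.natCast_dvd.2 (cont_dvd_det hn B)
  refine ⟨e, ?_, fun z => ?_⟩
  · rw [he, Int.natAbs_mul, Int.natAbs_natCast, Nat.mul_div_cancel_left _ hc]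
  · have h1 : (cont B : ℤ) • Nmat B = B.adjugate := by
      ext i j; exact cont_mul_Nmat B i j
    have h2 : (cont B : ℤ) • (B *ᵥ (Nmat B *ᵥ z)) = (cont B : ℤ) • (e • z) := by
      rw [← Matrix.mulVec_smul, ← Matrix.smul_mulVec, h1, Matrix.mulVec_mulVec,
        Matrix.mul_adjugate, Matrix.smul_mulVec, Matrix.one_mulVec, he, smul_smul]
    exact smul_right_injective _ (by exact_mod_cast hc.ne') h2

theorem index_range_mulVec {n : ℕ} {B : Matrix (Fin n) (Fin n) ℤ} (hd : B.det ≠ 0) :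
    (LinearMap.range B.mulVecLin).toAddSubgroup.index = B.det.natAbs := by
  have hinj : Function.Injective B.mulVecLin := by
    rw [← LinearMap.ker_eq_bot, Matrix.ker_mulVecLin_eq_bot_iff]
    intro v hv
    exact Matrix.eq_zero_of_mulVec_eq_zero hd hv
  have := Submodule.natAbs_det_equiv (LinearMap.range B.mulVecLin)
    (LinearEquiv.ofInjective B.mulVecLin hinj)
  have e : (LinearMap.range B.mulVecLin).subtype ∘ₗ AddMonoidHom.toIntLinearMap
      ((LinearEquiv.ofInjective B.mulVecLin hinj : (Fin n → ℤ) →+ LinearMap.range B.mulVecLin)) =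
      Matrix.toLin' B := by
    ext1 k; ext1; rfl
  rw [e, LinearMap.det_toLin'] at this
  exact this.symm

theorem mulVec_mem_Lq {n : ℕ} (A : Matrix (Fin n) (Fin n) ℤ) (q : ℕ) (z : Fin n → ℤ) :
    A *ᵥ z ∈ Lq A q := by
  exact mem_Lq.2 ⟨z, 0, by simp⟩

theorem Lq_gcd {n : ℕ} (A : Matrix (Fin n) (Fin n) ℤ) (q : ℕ) :
    Lq A (Nat.gcd q A.det.natAbs) = Lq A q := by
  ext y
  rw [mem_Lq, mem_Lq]
  constructor
  · rintro ⟨u, v, rfl⟩
    have h := Nat.gcd_eq_gcd_ab q A.det.natAbs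
    obtain ⟨s, hs⟩ : ∃ s : ℤ, (A.det.natAbs : ℤ) = A.det * s := by
      rcases Int.natAbs_eq A.det with h | h
      · exact ⟨1, by rw [mul_one]; exact h.symm⟩
      · exact ⟨-1, by rw [mul_neg_one]; omega⟩
    refine ⟨u + A.adjugate *ᵥ ((s * Nat.gcdB q A.det.natAbs) • v), Nat.gcdA q A.det.natAbs • v, ?_⟩
    rw [h, hs, Matrix.mulVec_add, Matrix.mulVec_mulVec, Matrix.mul_adjugate, Matrix.smul_mulVec,
      Matrix.one_mulVec, smul_smul, smul_smul, add_smul, mul_assoc]
    abel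
  · rintro ⟨u, v, rfl⟩
    obtain ⟨c, hc⟩ := Nat.gcd_dvd_left q A.det.natAbs
    refine ⟨u, (c : ℤ) • v, ?_⟩
    rw [smul_smul, ← Nat.cast_mul, ← hc]

theorem Lq_index_le {n : ℕ} (A : Matrix (Fin n) (Fin n) ℤ) {q : ℕ} (hq : 0 < q) :
    (Lq A q).toAddSubgroup.index ≠ 0 ∧ (Lq A q).toAddSubgroup.index ≤ q ^ n := by
  have hle : AddSubgroup.pi Set.univ (fun _ : Fin n => AddSubgroup.zmultiples (q : ℤ)) ≤
      (Lq A q).toAddSubgroup := by
    intro y hy
    simp only [AddSubgroup.mem_pi, Set.mem_univ, forall_true_left, Int.mem_zmultiples_iff] at hy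
    choose u hu using hy
    exact mem_Lq.2 ⟨0, u, by ext k; simp [hu k]⟩
  have hd := AddSubgroup.index_dvd_of_le hle
  rw [AddSubgroup.index_pi] at hd
  simp only [Int.index_zmultiples, Int.natAbs_natCast, Finset.prod_const, Finset.card_univ,
    Fintype.card_fin] at hd
  exact ⟨ne_zero_of_dvd_ne_zero (pow_pos hq n).ne' hd, Nat.le_of_dvd (pow_pos hq n) hd⟩

/-- With `e = |det B| / cont B` and `q` the `P`-part of `e`, the index of `Lq B q` contains the
whole `P`-part of the determinant. -/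
theorem Lq_index_dvd {n : ℕ} (hn : 1 ≤ n) {B : Matrix (Fin n) (Fin n) ℤ} (hd : B.det ≠ 0)
    (P : Finset ℕ) (hP : ∀ l ∈ P, l.Prime) :
    (∏ l ∈ P, l ^ B.det.natAbs.factorization l) ∣
      (Lq B (∏ l ∈ P, l ^ (B.det.natAbs / cont B).factorization l)).toAddSubgroup.index := by
  classical
  obtain ⟨e, he, hN⟩ := mul_Nmat hn hd
  set E := B.det.natAbs / cont B with hE
  set q := ∏ l ∈ P, l ^ E.factorization l with hq
  have hE0 : E ≠ 0 := by
    have h1 := Nat.div_mul_cancel (cont_dvd_det hn B)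
    intro h0
    rw [← hE, h0, zero_mul] at h1
    exact hd (Int.natAbs_eq_zero.1 h1.symm)
  have hcop : ∀ (F : ℕ → ℕ), (↑P : Set ℕ).Pairwise (Function.onFun IsCoprime
      (fun l : ℕ => ((l ^ F l : ℕ) : ℤ))) := by
    intro F a ha b hb hab
    simp only [Function.onFun]
    rw [Nat.isCoprime_iff_coprime]
    exact Nat.Coprime.pow _ _ ((Nat.coprime_primes (hP a ha) (hP b hb)).2 hab)
  have hprod : ∀ (F : ℕ → ℕ) (m : ℕ), (∀ l ∈ P, l ^ F l ∣ m) → ∏ l ∈ P, l ^ F l ∣ m := by
    intro F m h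
    have := Finset.prod_dvd_of_coprime (hcop F) (z := (m : ℤ))
      (fun l hl => Int.natCast_dvd_natCast.2 (h l hl))
    rw [← Nat.cast_prod] at this
    exact Int.natCast_dvd_natCast.1 this
  obtain ⟨E', hE'⟩ : q ∣ E := hprod _ _ fun l _ => Nat.ordProj_dvd E l
  have hE'l : ∀ l ∈ P, ¬ l ∣ E' := by
    intro l hl hdiv
    have h1 : l ^ E.factorization l ∣ q := Finset.dvd_prod_of_mem (fun l => l ^ E.factorization l) hl
    have h2 : l ^ (E.factorization l + 1) ∣ E := by
      rw [pow_succ]; nth_rewrite 2 [hE']; exact mul_dvd_mul h1 hdiv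
    exact Nat.pow_succ_factorization_not_dvd hE0 (hP l hl) h2
  set H := (LinearMap.range B.mulVecLin).toAddSubgroup with hH
  set K := (Lq B q).toAddSubgroup with hK
  have hHK : H ≤ K := by
    rintro _ ⟨z, rfl⟩
    exact mulVec_mem_Lq B q z
  have hmul := AddSubgroup.relIndex_mul_index hHK
  rw [hH, index_range_mulVec hd, ← hH] at hmul
  have hrel0 : H.relIndex K ≠ 0 := by
    intro h0
    rw [h0, zero_mul] at hmul
    exact hd (Int.natAbs_eq_zero.1 hmul.symm)
  have hkill : ∀ x : K ⧸ H.addSubgroupOf K, E' • x = 0 := by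
    intro x
    induction x using QuotientAddGroup.induction_on with
    | H x =>
      rw [← QuotientAddGroup.mk_nsmul, QuotientAddGroup.eq_zero_iff, AddSubgroup.mem_addSubgroupOf]
      obtain ⟨u, v, huv⟩ := mem_Lq.1 x.2
      obtain ⟨s, hs⟩ : ∃ s : ℤ, (E : ℤ) = e * s := by
        rw [← he]
        rcases Int.natAbs_eq e with h | h
        · exact ⟨1, by rw [mul_one]; exact h.symm⟩
        · exact ⟨-1, by rw [mul_neg_one]; omega⟩
      refine ⟨(E' : ℤ) • u + Nmat B *ᵥ (s • v), ?_⟩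
      show B *ᵥ _ = E' • (x : Fin n → ℤ)
      rw [huv, Matrix.mulVec_add, hN, Matrix.mulVec_smul, smul_smul, ← hs, hE', smul_add,
        ← natCast_zsmul, ← natCast_zsmul, smul_smul]
      push_cast
      rw [mul_comm]
  refine hprod _ _ fun l hl => ?_
  have hl' : ¬ l ∣ H.relIndex K := by
    intro hdiv
    haveI : Fact l.Prime := ⟨hP l hl⟩
    haveI : Finite (K ⧸ H.addSubgroupOf K) := Nat.finite_of_card_ne_zero hrel0
    haveI := Fintype.ofFinite (K ⧸ H.addSubgroupOf K)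
    obtain ⟨x, hx⟩ := exists_prime_addOrderOf_dvd_card (G := K ⧸ H.addSubgroupOf K) l
      (by rw [← Nat.card_eq_fintype_card]; exact hdiv)
    exact hE'l l hl (hx ▸ addOrderOf_dvd_of_nsmul_eq_zero (hkill x))
  have h1 : l ^ B.det.natAbs.factorization l ∣ H.relIndex K * K.index := by
    rw [hmul]; exact Nat.ordProj_dvd _ l
  exact (Nat.Coprime.pow_left _ ((Nat.Prime.coprime_iff_not_dvd (hP l hl)).2 hl')).dvd_of_dvd_mul_left h1

/-- Deleting an index costs at most a factor `q` in the index. -/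
theorem Lq_index_del {n : ℕ} {B : Matrix (Fin (n + 1)) (Fin (n + 1)) ℤ} (hB : B.IsSymm)
    (j : Fin (n + 1)) {q : ℕ} (hq : 0 < q) (hy : drow B j ∈ Lq (del B j) q) :
    (Lq B q).toAddSubgroup.index ≤ q * (Lq (del B j) q).toAddSubgroup.index := by
  classical
  let π : (Fin (n + 1) → ℤ) →+ (Fin n → ℤ) :=
    { toFun := fun t k => t (j.succAbove k)
      map_zero' := rfl
      map_add' := fun _ _ => rfl }
  have hπ : Function.Surjective π := fun y =>
    ⟨j.insertNth (α := fun _ => ℤ) 0 y, by ext k; simp [π]⟩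
  set H := (Lq B q).toAddSubgroup with hH
  set K := (Lq (del B j) q).toAddSubgroup.comap π with hK
  have hrow : ∀ (u : Fin (n + 1) → ℤ) (k : Fin n), (B *ᵥ u) (j.succAbove k) =
      u j * drow B j k + (del B j *ᵥ fun l => u (j.succAbove l)) k := by
    intro u k
    simp only [Matrix.mulVec, dotProduct]
    rw [Fin.sum_univ_succAbove _ j, mul_comm]
    congr 2
    exact hB.apply j (j.succAbove k)
  have hHK : H ≤ K := by
    intro t ht
    obtain ⟨u, v, rfl⟩ := mem_Lq.1 ht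
    show π _ ∈ Lq (del B j) q
    have : π (B *ᵥ u + (q : ℤ) • v) = u j • drow B j +
        (del B j *ᵥ (fun l => u (j.succAbove l)) + (q : ℤ) • π v) := by
      ext k
      show (B *ᵥ u) (j.succAbove k) + (q : ℤ) * v (j.succAbove k) = _
      rw [hrow]
      simp only [Pi.add_apply, Pi.smul_apply, smul_eq_mul]
      rw [add_assoc]; rfl
    rw [this]
    exact add_mem (Submodule.smul_mem _ _ hy) (mem_Lq.2 ⟨_, _, rfl⟩)
  have hmul := AddSubgroup.relIndex_mul_index hHK
  rw [hK, AddSubgroup.index_comap_of_surjective _ hπ, ← hK] at hmul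
  rw [← hmul]
  refine Nat.mul_le_mul_right _ ?_
  have hej : ∀ c : ℤ, (Pi.single j c : Fin (n + 1) → ℤ) ∈ K := by
    intro c
    show π _ ∈ Lq (del B j) q
    have : π (Pi.single j c) = 0 := by
      ext k; simp [π]
    rw [this]; exact zero_mem _
  let f : Fin q → K ⧸ H.addSubgroupOf K := fun c =>
    QuotientAddGroup.mk ⟨Pi.single j ((c : ℕ) : ℤ), hej _⟩
  have hf : Function.Surjective f := by
    intro x
    induction x using QuotientAddGroup.induction_on with
    | H x =>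
      obtain ⟨u, v, huv⟩ := mem_Lq.1 (show π x.1 ∈ Lq (del B j) q from x.2)
      set u' : Fin (n + 1) → ℤ := j.insertNth (α := fun _ => ℤ) 0 u with hu'
      set c : ℤ := x.1 j - (B *ᵥ u') j with hc
      have hq' : (0 : ℤ) < q := by exact_mod_cast hq
      have c0 := Int.emod_nonneg c hq'.ne'
      have c1 := Int.emod_lt_of_pos c hq'
      refine ⟨⟨(c % q).toNat, by omega⟩, ?_⟩
      rw [QuotientAddGroup.eq, AddSubgroup.mem_addSubgroupOf]
      refine mem_Lq.2 ⟨u', j.insertNth (α := fun _ => ℤ) (c / q) v, ?_⟩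
      ext r
      rcases Fin.eq_self_or_eq_succAbove j r with rfl | ⟨k, rfl⟩
      · have := Int.mul_ediv_add_emod c q
        simp [Int.toNat_of_nonneg c0]
        omega
      · have h1 : x.1 (j.succAbove k) = (del B j *ᵥ u) k + (q : ℤ) * v k := congrFun huv k
        have h2 := hrow u' k
        simp only [hu', Fin.insertNth_apply_same, Fin.insertNth_apply_succAbove, zero_mul,
          zero_add] at h2
        simp [h1, hu', h2]
  have := Nat.card_le_card_of_surjective f hf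
  rw [Nat.card_eq_fintype_card (α := Fin q), Fintype.card_fin] at this
  exact this

theorem drow_mem_Lq {n : ℕ} {B : Matrix (Fin (n + 1)) (Fin (n + 1)) ℤ} (hB : B.IsSymm)
    (hd : B.det ≠ 0) (j : Fin (n + 1)) (P : Finset ℕ) (hP : ∀ l ∈ P, l.Prime)
    (hj : ∀ l ∈ P, ∃ k, ¬ ((l * cont B : ℕ) : ℤ) ∣ B.adjugate j k) :
    drow B j ∈ Lq (del B j) (∏ l ∈ P, l ^ (B.det.natAbs / cont B).factorization l) := by
  classical
  obtain ⟨e, he, hN⟩ := mul_Nmat (Nat.succ_le_succ (Nat.zero_le n)) hd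
  set E := B.det.natAbs / cont B with hE
  set q := ∏ l ∈ P, l ^ E.factorization l with hq
  have hqE : q ∣ E := by
    have hcop : (↑P : Set ℕ).Pairwise (Function.onFun IsCoprime
        (fun l : ℕ => ((l ^ E.factorization l : ℕ) : ℤ))) := by
      intro a ha b hb hab
      simp only [Function.onFun]
      rw [Nat.isCoprime_iff_coprime]
      exact Nat.Coprime.pow _ _ ((Nat.coprime_primes (hP a ha) (hP b hb)).2 hab)
    have := Finset.prod_dvd_of_coprime hcop (z := (E : ℤ))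
      (fun l _ => Int.natCast_dvd_natCast.2 (Nat.ordProj_dvd E l))
    rw [← Nat.cast_prod] at this
    exact Int.natCast_dvd_natCast.1 this
  obtain ⟨e', he'⟩ : (q : ℤ) ∣ e := by rw [Int.natCast_dvd, he]; exact hqE
  obtain ⟨z, hz⟩ := Finset.gcd_eq_sum_mul Finset.univ (fun k => Nmat B j k)
  set g := Finset.univ.gcd (fun k => Nmat B j k) with hg
  have hcop : IsCoprime g (q : ℤ) := by
    rw [hq, Nat.cast_prod]
    refine IsCoprime.prod_right fun l hl => ?_
    rw [Nat.cast_pow]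
    refine IsCoprime.pow_right ?_
    refine ((Nat.prime_iff_prime_int.1 (hP l hl)).coprime_iff_not_dvd.2 ?_).symm
    intro hdiv
    obtain ⟨k, hk⟩ := hj l hl
    apply hk
    rw [← cont_mul_Nmat, Nat.cast_mul, mul_comm]
    exact mul_dvd_mul_left _ (hdiv.trans (Finset.gcd_dvd (Finset.mem_univ k)))
  obtain ⟨a, b, hab⟩ := hcop
  set w := Nmat B *ᵥ z with hw
  have hwj : w j = g := by rw [hz]; rfl
  refine mem_Lq.2 ⟨(-a) • fun l => w (j.succAbove l),
    fun k => a * e' * z (j.succAbove k) + b * drow B j k, ?_⟩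
  ext k
  have h1 : (B *ᵥ w) (j.succAbove k) = e * z (j.succAbove k) := congrFun (hN z) _
  have h2 : (B *ᵥ w) (j.succAbove k) =
      w j * drow B j k + (del B j *ᵥ fun l => w (j.succAbove l)) k := by
    simp only [Matrix.mulVec, dotProduct]
    rw [Fin.sum_univ_succAbove _ j, mul_comm]
    congr 2
    exact hB.apply j (j.succAbove k)
  rw [Matrix.mulVec_smul]
  simp only [Pi.add_apply, Pi.smul_apply, smul_eq_mul]
  rw [hwj, h1, he'] at h2
  linear_combination (-drow B j k) * hab - a * h2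

/-- Summary: the second deleted row lies in a lattice of index at least the `P`-part of the
content, with a modulus dividing the smaller determinant. -/
theorem caseY_arith {n : ℕ} {B : Matrix (Fin (n + 1)) (Fin (n + 1)) ℤ} (hB : B.IsSymm)
    (hd : B.det ≠ 0) (j : Fin (n + 1)) (hdj : (del B j).det ≠ 0) (P : Finset ℕ)
    (hP : ∀ l ∈ P, l.Prime) (hj : ∀ l ∈ P, ∃ k, ¬ ((l * cont B : ℕ) : ℤ) ∣ B.adjugate j k) :
    ∃ q : ℕ, q ∣ (del B j).det.natAbs ∧ q.primeFactors ⊆ P ∧ drow B j ∈ Lq (del B j) q ∧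
      ∏ l ∈ P, l ^ (cont B).factorization l ≤ (Lq (del B j) q).toAddSubgroup.index := by
  classical
  have hn : 1 ≤ n + 1 := Nat.succ_le_succ (Nat.zero_le n)
  set E := B.det.natAbs / cont B with hE
  set q := ∏ l ∈ P, l ^ E.factorization l with hq
  have hq0 : 0 < q := Finset.prod_pos fun l hl => pow_pos (hP l hl).pos _
  have hy := drow_mem_Lq hB hd j P hP hj
  refine ⟨Nat.gcd q (del B j).det.natAbs, Nat.gcd_dvd_right _ _, ?_, ?_, ?_⟩
  · intro l hl
    have hl1 := Nat.prime_of_mem_primeFactors hl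
    have hl2 : l ∣ q := (Nat.dvd_of_mem_primeFactors hl).trans (Nat.gcd_dvd_left _ _)
    obtain ⟨a, ha, hla⟩ := (Prime.dvd_finsetProd_iff hl1.prime _).1 hl2
    rw [(Nat.prime_dvd_prime_iff_eq hl1 (hP a ha)).1 (hl1.dvd_of_dvd_pow hla)]
    exact ha
  · rw [Lq_gcd]; exact hy
  · rw [Lq_gcd]
    have h1 := Nat.le_of_dvd (Nat.pos_of_ne_zero (Lq_index_le B hq0).1) (Lq_index_dvd hn hd P hP)
    have h2 := Lq_index_del hB j hq0 hy
    have h3 : B.det.natAbs = E * cont B := (Nat.div_mul_cancel (cont_dvd_det hn B)).symm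
    have hE0 : E ≠ 0 := by
      intro h0; rw [h0, zero_mul] at h3; exact hd (Int.natAbs_eq_zero.1 h3)
    have h4 : ∏ l ∈ P, l ^ B.det.natAbs.factorization l =
        q * ∏ l ∈ P, l ^ (cont B).factorization l := by
      rw [hq, ← Finset.prod_mul_distrib]
      refine Finset.prod_congr rfl fun l _ => ?_
      rw [h3, Nat.factorization_mul hE0 (cont_pos hn hd).ne', Finsupp.add_apply, pow_add]
    rw [h4] at h1
    exact Nat.le_of_mul_le_mul_left (h1.trans h2) hq0

end Crest.Agent.R152
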