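import Crest.Agent.R152.TopY1
import Crest.Agent.R152.PrA

/-! # Row 152: supports and weights of the primes dividing the content -/

set_option autoImplicit false
open Matrix Filter
open Crest.FinProb Crest.ProbabilityR.SignMatrix

noncomputable section
namespace Crest.Agent.R152

/-- The primes of the content that are seen by `WS`. -/
def PP {n : ℕ} (B : Matrix (Fin n) (Fin n) ℤ) : Finset ℕ :=
  (cont B).primeFactors.filter fun l => qm l ∣ B.det.natAbs / cont B

private theorem y2_pow_le {n : ℕ} (hn : 1 ≤ n) {B : Matrix (Fin n) (Fin n) ℤ} (hd : B.det ≠ 0)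
    {l : ℕ} (hl : l.Prime) : l ^ (cont B).factorization l ≤
      (l ^ (B.det.natAbs / cont B).factorization l) ^ n := by
  have h1 := Lq_index_dvd hn hd {l} (by simpa using hl)
  rw [Finset.prod_singleton, Finset.prod_singleton] at h1
  obtain ⟨h2, h3⟩ := Lq_index_le B (pow_pos hl.pos ((B.det.natAbs / cont B).factorization l))
  refine le_trans (Nat.pow_le_pow_right hl.pos ?_)
    ((Nat.le_of_dvd (Nat.pos_of_ne_zero h2) h1).trans h3)
  exact (Nat.factorization_le_iff_dvd (cont_pos hn hd).ne' (Int.natAbs_ne_zero.2 hd)).2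
    (cont_dvd_det hn B) l

theorem cont_le_PP {n : ℕ} (hn : 1 ≤ n) {B : Matrix (Fin n) (Fin n) ℤ} (hd : B.det ≠ 0) :
    cont B ≤ 2 ^ n * ∏ l ∈ PP B, l ^ (cont B).factorization l := by
  have hc := cont_pos hn hd
  have h1 : cont B = ∏ l ∈ (cont B).primeFactors, l ^ (cont B).factorization l :=
    (Nat.prod_factorization_pow_eq_self hc.ne').symm
  have h2 : ∏ l ∈ (cont B).primeFactors.filter (fun l => ¬ qm l ∣ B.det.natAbs / cont B),
      l ^ (cont B).factorization l ≤ 2 ^ n := by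
    have h3 : ∀ l ∈ (cont B).primeFactors.filter (fun l => ¬ qm l ∣ B.det.natAbs / cont B),
        l ^ (cont B).factorization l ≤ if l = 2 then 2 ^ n else 1 := by
      intro l hl
      obtain ⟨a1, a2⟩ := Finset.mem_filter.1 hl
      have hp := Nat.prime_of_mem_primeFactors a1
      refine (y2_pow_le hn hd hp).trans ?_
      unfold qm at a2
      split_ifs at a2 ⊢ with h
      · subst h
        refine Nat.pow_le_pow_left ?_ n
        have a3 : (B.det.natAbs / cont B).factorization 2 ≤ 1 := by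
          by_contra h4
          exact a2 ((pow_dvd_pow 2 (not_le.1 h4)).trans (Nat.ordProj_dvd _ 2))
        exact Nat.pow_le_pow_right two_pos a3
      · rw [Nat.factorization_eq_zero_of_not_dvd a2, pow_zero, one_pow]
    refine (Finset.prod_le_prod' h3).trans ?_
    rw [Finset.prod_ite_eq']
    split_ifs
    · exact le_rfl
    · exact Nat.one_le_two_pow
  calc cont B = _ := h1
    _ = _ := (Finset.prod_filter_not_mul_prod_filter _
      (fun l => qm l ∣ B.det.natAbs / cont B) _).symm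
    _ ≤ _ := Nat.mul_le_mul_right _ h2

open Classical in
theorem PP_support {n : ℕ} {B : Matrix (Fin n) (Fin n) ℤ} (hd : B.det ≠ 0) {κ : ℝ}
    (hW : WS κ B) {l : ℕ} (hl : l ∈ PP B) :
    κ * n ≤ ((Finset.univ.filter fun j : Fin n =>
      ∃ k, ¬ ((l * cont B : ℕ) : ℤ) ∣ B.adjugate j k).card : ℝ) := by
  obtain ⟨a1, a2⟩ := Finset.mem_filter.1 hl
  obtain ⟨hp, -, hc⟩ := Nat.mem_primeFactors.1 a1
  have key : ∀ j k, ((l * cont B : ℕ) : ℤ) ∣ B.adjugate j k ↔ (l : ℤ) ∣ Nmat B j k := by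
    intro j k
    rw [← cont_mul_Nmat, Nat.cast_mul, mul_comm]
    exact mul_dvd_mul_iff_left (by exact_mod_cast hc)
  obtain ⟨j0, k0, h0⟩ : ∃ j k, ¬ ((l * cont B : ℕ) : ℤ) ∣ B.adjugate j k := by
    by_contra h
    push Not at h
    have h1 : l * cont B ∣ cont B :=
      Int.natCast_dvd.1 (Finset.dvd_gcd fun ij _ => h ij.1 ij.2)
    have h2 := Nat.le_of_dvd (Nat.pos_of_ne_zero hc) h1
    have := hp.two_le
    have := Nat.pos_of_ne_zero hc
    nlinarith
  obtain ⟨e, he, hN⟩ := mul_Nmat (Fin.pos j0) hd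
  have hw : Nmat B *ᵥ Pi.single k0 1 = fun j => Nmat B j k0 := by
    funext j
    simp
  have h1 := hW l (fun j => Nmat B j k0) hp (fun i => by
    rw [← hw, hN]
    exact (Int.natCast_dvd.2 (he ▸ a2)).mul_right _) ⟨j0, fun h => h0 ((key _ _).2 h)⟩
  refine h1.trans (Nat.cast_le.2 (Finset.card_le_card fun j hj => ?_))
  exact Finset.mem_filter.2 ⟨Finset.mem_univ _, k0,
    fun h => (Finset.mem_filter.1 hj).2 ((key _ _).1 h)⟩

private theorem y2_top {α : Type} [DecidableEq α] (T : Finset α) (a : α → ℝ) (k : ℕ)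
    (hk : k ≤ T.card) : ∃ T' ⊆ T, T'.card = k ∧ ∀ x ∈ T', ∀ y ∈ T \ T', a y ≤ a x := by
  induction k with
  | zero => exact ⟨∅, Finset.empty_subset _, rfl, fun x hx => absurd hx (Finset.notMem_empty x)⟩
  | succ k ih =>
    obtain ⟨T', h1, h2, h3⟩ := ih (by omega)
    obtain ⟨z, hz, hm⟩ := Finset.exists_max_image (T \ T') a
      (Finset.card_pos.1 (by rw [Finset.card_sdiff_of_subset h1]; omega))
    obtain ⟨hz1, hz2⟩ := Finset.mem_sdiff.1 hz
    refine ⟨insert z T', Finset.insert_subset hz1 h1, by rw [Finset.card_insert_of_notMem hz2, h2],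
      fun x hx y hy => ?_⟩
    have hy' : y ∈ T \ T' := Finset.sdiff_subset_sdiff le_rfl (Finset.subset_insert z T') hy
    rcases Finset.mem_insert.1 hx with rfl | hx
    · exact hm y hy'
    · exact h3 x hx y hy'

/-- A heavy subset of prescribed size. -/
theorem exists_heavy_subset {α : Type} [DecidableEq α] (T : Finset α) (a : α → ℝ)
    (ha : ∀ x ∈ T, 0 ≤ a x) {k N : ℕ} (hT : T.card ≤ N) (hk : k ≤ N) :
    ∃ T' ⊆ T, T'.card ≤ k ∧ (k : ℝ) * ∑ x ∈ T, a x ≤ N * ∑ x ∈ T', a x := by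
  have hkN : (k : ℝ) ≤ N := Nat.cast_le.2 hk
  rcases le_total T.card k with h | h
  · exact ⟨T, le_rfl, h, mul_le_mul_of_nonneg_right hkN (Finset.sum_nonneg ha)⟩
  · obtain ⟨T', h1, h2, h3⟩ := y2_top T a k h
    refine ⟨T', h1, h2.le, ?_⟩
    have h4 : ∑ _x ∈ T', ∑ y ∈ T \ T', a y ≤ ∑ x ∈ T', ∑ _y ∈ T \ T', a x :=
      Finset.sum_le_sum fun x hx => Finset.sum_le_sum fun y hy => h3 x hx y hy
    simp only [Finset.sum_const, nsmul_eq_mul] at h4
    rw [← Finset.mul_sum, Finset.card_sdiff_of_subset h1, h2, Nat.cast_sub h] at h4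
    have h5 : (T.card : ℝ) * ∑ x ∈ T', a x ≤ N * ∑ x ∈ T', a x :=
      mul_le_mul_of_nonneg_right (Nat.cast_le.2 hT) (Finset.sum_nonneg fun x hx => ha x (h1 hx))
    rw [← Finset.sum_sdiff h1]
    linarith

private theorem y2_small {ε : ℝ} (hε : 0 < ε) : ∃ γ : ℝ, 0 < γ ∧ γ ≤ 1 ∧ ∀ (n : ℕ)
    (A : Finset (ℕ × ℕ)), A.card ≤ n →
    ((A.powerset.filter fun S => (S.card : ℝ) ≤ γ * n).card : ℝ) ≤ Real.exp (ε * n) := by
  obtain ⟨γ, h0, h1, h⟩ := small_subsets hε
  refine ⟨γ, h0, h1, fun n A hA => le_trans (Nat.cast_le.2 ?_) (h n A (by simpa using hA))⟩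
  refine Finset.card_le_card_of_surjOn (fun S => S.map (Function.Embedding.subtype _)) ?_
  intro S hS
  obtain ⟨a1, a2⟩ := Finset.mem_filter.1 (Finset.mem_coe.1 hS)
  have e : (S.subtype (· ∈ A)).map (Function.Embedding.subtype _) = S :=
    Finset.subtype_map_of_mem fun x hx => Finset.mem_powerset.1 a1 hx
  refine ⟨S.subtype (· ∈ A), Finset.mem_coe.2 (Finset.mem_filter.2 ⟨Finset.mem_univ _, ?_⟩), e⟩
  rw [← Finset.card_map (Function.Embedding.subtype _), e]
  exact a2

private theorem y2_asym {ε : ℝ} (hε : 0 < ε) : ∀ᶠ n : ℕ in atTop,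
    (((n ^ 2 + 1) ^ (n.sqrt + 1) : ℕ) : ℝ) ≤ Real.exp (ε * n) := by
  have h := (isLittleO_log_rpow_atTop (by norm_num : (0 : ℝ) < 1 / 2)).bound
    (by positivity : 0 < ε / 6)
  filter_upwards [tendsto_natCast_atTop_atTop.eventually h, eventually_ge_atTop 2] with n h1 h2
  have hn : (2 : ℝ) ≤ n := by exact_mod_cast h2
  rw [← Real.sqrt_eq_rpow, Real.norm_eq_abs, Real.norm_eq_abs,
    abs_of_nonneg (Real.sqrt_nonneg _), abs_of_nonneg (Real.log_nonneg (by linarith))] at h1
  have a1 : (n.sqrt : ℝ) ≤ √(n : ℝ) := Real.nat_sqrt_le_real_sqrt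
  have a2 : 1 ≤ √(n : ℝ) := Real.one_le_sqrt.2 (by linarith)
  have a3 : Real.log ((n : ℝ) ^ 2 + 1) ≤ 3 * Real.log n := by
    have : (n : ℝ) ^ 2 + 1 ≤ (n : ℝ) ^ 3 := by nlinarith
    simpa using Real.log_le_log (by positivity) this
  have a4 : √(n : ℝ) * √(n : ℝ) = n := Real.mul_self_sqrt (by positivity)
  push_cast
  rw [← Real.log_le_iff_le_exp (by positivity), Real.log_pow]
  push_cast
  calc ((n.sqrt : ℝ) + 1) * Real.log ((n : ℝ) ^ 2 + 1)
      ≤ (2 * √(n : ℝ)) * (3 * (ε / 6 * √(n : ℝ))) :=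
        mul_le_mul (by linarith) (by linarith) (Real.log_nonneg (by nlinarith)) (by positivity)
    _ = ε * (√(n : ℝ) * √(n : ℝ)) := by ring
    _ = _ := by rw [a4]

/-- The pairs (large prime, exponent). -/
private def y2_A (n D : ℕ) : Finset (ℕ × ℕ) :=
  (D.primeFactors.filter fun l => n < l ^ 2).biUnion fun l =>
    (Finset.Icc 1 (D.factorization l)).image fun a => (l, a)

private theorem y2_card_A {n D : ℕ} (hn : 2 ≤ n) (hD : D ≠ 0) (h : D ^ 2 ≤ n ^ n) :
    (y2_A n D).card ≤ n := by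
  have h1 : (y2_A n D).card ≤ ∑ l ∈ D.primeFactors.filter fun l => n < l ^ 2, D.factorization l :=
    Finset.card_biUnion_le.trans (Finset.sum_le_sum fun l _ =>
      Finset.card_image_le.trans (by simp))
  refine h1.trans ((Nat.pow_le_pow_iff_right hn).1 (le_trans ?_ h))
  have h2 : D = ∏ l ∈ D.primeFactors, l ^ D.factorization l :=
    (Nat.prod_factorization_pow_eq_self hD).symm
  calc _ = ∏ l ∈ D.primeFactors.filter fun l => n < l ^ 2, n ^ D.factorization l :=
        (Finset.prod_pow_eq_pow_sum _ _ _).symm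
    _ ≤ ∏ l ∈ D.primeFactors.filter fun l => n < l ^ 2, (l ^ D.factorization l) ^ 2 :=
        Finset.prod_le_prod' fun l hl => by
          rw [← pow_mul, mul_comm, pow_mul]
          exact Nat.pow_le_pow_left (Finset.mem_filter.1 hl).2.le _
    _ ≤ ∏ l ∈ D.primeFactors, (l ^ D.factorization l) ^ 2 :=
        Finset.prod_le_prod_of_subset_of_one_le' (Finset.filter_subset _ _) fun l hl _ =>
          Nat.one_le_pow _ _ (pow_pos (Nat.prime_of_mem_primeFactors hl).pos _)
    _ = D ^ 2 := by rw [Finset.prod_pow, ← h2]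

theorem card_Qset {ε : ℝ} (hε : 0 < ε) : ∃ γ : ℝ, 0 < γ ∧ γ ≤ 1 ∧ ∀ᶠ n : ℕ in atTop, ∀ d : ℤ,
    d ≠ 0 → d.natAbs ^ 2 ≤ n ^ n → ((Qset γ n d).card : ℝ) ≤ Real.exp (ε * n) := by
  obtain ⟨γ, h0, h1, h⟩ := y2_small (half_pos hε)
  refine ⟨γ, h0, h1, ?_⟩
  filter_upwards [y2_asym (half_pos hε), eventually_ge_atTop 2] with n a1 hn d hd hdn
  have hD : d.natAbs ≠ 0 := Int.natAbs_ne_zero.2 hd
  have a2 := h n _ (y2_card_A hn hD hdn)
  have a3 : (Qset γ n d).card ≤
      ((Fintype.piFinset fun _ : Fin (n.sqrt + 1) => Finset.range (n ^ 2 + 1)) ×ˢ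
        ((y2_A n d.natAbs).powerset.filter fun S => (S.card : ℝ) ≤ γ * n)).card := by
    refine Finset.card_le_card_of_injOn (fun q => (fun l => q.factorization l,
      (q.primeFactors.filter fun l => n < l ^ 2).image fun l => (l, q.factorization l)))
      (fun q hq => ?_) fun q hq q' hq' e => ?_
    · obtain ⟨b1, b2⟩ := Finset.mem_filter.1 (Finset.mem_coe.1 hq)
      have b3 := Nat.dvd_of_mem_divisors b1
      have b4 : q ≠ 0 := ne_zero_of_dvd_ne_zero hD b3
      refine Finset.mem_coe.2 (Finset.mem_product.2 ⟨Fintype.mem_piFinset.2 fun l => ?_,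
        Finset.mem_filter.2 ⟨Finset.mem_powerset.2 fun x hx => ?_,
          (Nat.cast_le.2 Finset.card_image_le).trans b2⟩⟩)
      · refine Finset.mem_range.2 (Nat.lt_succ_of_le ?_)
        by_cases hp : (l : ℕ).Prime
        · refine Nat.factorization_le_of_le_pow ?_
          calc q ≤ d.natAbs := Nat.le_of_dvd (Nat.pos_of_ne_zero hD) b3
            _ ≤ d.natAbs ^ 2 := Nat.le_self_pow two_ne_zero _
            _ ≤ n ^ n := hdn
            _ ≤ ((l : ℕ) ^ n) ^ n := Nat.pow_le_pow_left (Nat.lt_pow_self hp.one_lt).le n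
            _ = _ := by rw [← pow_mul, sq]
        · simp only
          rw [Nat.factorization_eq_zero_of_not_prime q hp]
          exact Nat.zero_le _
      · obtain ⟨l, hl, rfl⟩ := Finset.mem_image.1 hx
        obtain ⟨c1, c2⟩ := Finset.mem_filter.1 hl
        refine Finset.mem_biUnion.2 ⟨l, Finset.mem_filter.2 ⟨Nat.primeFactors_mono b3 hD c1, c2⟩,
          Finset.mem_image.2 ⟨_, Finset.mem_Icc.2 ⟨?_, ?_⟩, rfl⟩⟩
        · exact (Nat.prime_of_mem_primeFactors c1).factorization_pos_of_dvd b4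
            (Nat.dvd_of_mem_primeFactors c1)
        · exact (Nat.factorization_le_iff_dvd b4 hD).2 b3 l
    · have b4 : ∀ q ∈ Qset γ n d, q ≠ 0 := fun q hq =>
        ne_zero_of_dvd_ne_zero hD (Nat.dvd_of_mem_divisors (Finset.mem_filter.1 hq).1)
      obtain ⟨e1, e2⟩ := Prod.ext_iff.1 e
      have key : ∀ {q q' l : ℕ}, n < l ^ 2 →
          ((q.primeFactors.filter fun l => n < l ^ 2).image fun l => (l, q.factorization l)) =
          ((q'.primeFactors.filter fun l => n < l ^ 2).image fun l => (l, q'.factorization l)) →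
          q.factorization l ≠ 0 → q.factorization l = q'.factorization l := by
        intro q q' l hl e h
        have c1 : (l, q.factorization l) ∈ (q.primeFactors.filter fun l => n < l ^ 2).image
            fun l => (l, q.factorization l) :=
          Finset.mem_image_of_mem _ (Finset.mem_filter.2 ⟨Finsupp.mem_support_iff.2 h, hl⟩)
        rw [e] at c1
        obtain ⟨l', -, c2⟩ := Finset.mem_image.1 c1
        obtain ⟨c3, c4⟩ := Prod.ext_iff.1 c2
        simp only at c3 c4
        rw [← c4, c3]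
      refine Nat.eq_of_factorization_eq (b4 q hq) (b4 q' hq') fun l => ?_
      rcases lt_or_ge n (l ^ 2) with hl | hl
      · by_cases c1 : q.factorization l = 0
        · by_cases c2 : q'.factorization l = 0
          · rw [c1, c2]
          · exact (key hl e2.symm c2).symm
        · exact key hl e2 c1
      · exact congrFun e1 ⟨l, Nat.lt_succ_of_le (Nat.le_sqrt'.2 hl)⟩
  rw [Finset.card_product, Fintype.card_piFinset_const, Finset.card_range] at a3
  calc _ ≤ _ := Nat.cast_le.2 a3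
    _ ≤ Real.exp (ε / 2 * n) * Real.exp (ε / 2 * n) := by
        rw [Nat.cast_mul]
        exact mul_le_mul a1 a2 (Nat.cast_nonneg _) (Real.exp_pos _).le
    _ = _ := by rw [← Real.exp_add]; congr 1; ring

end Crest.Agent.R152
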